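import Vale.Agent.P031.Basic

/-!
# Abstract pure Brun sieve
-/

open Finset Real Filter

namespace Vale.Agent.P031

theorem sieve_count_modEq (x X c Q : ℕ) (hQ : 0 < Q) :
    |(((Ico x (x + X)).filter (fun m => m ≡ c [MOD Q])).card : ℝ) - (X : ℝ) / Q| ≤ 1 := by
  have h := Nat.Ico_filter_modEq_card x (x + X) hQ c
  have hQ' : (0 : ℚ) < Q := by exact_mod_cast hQ
  set u : ℚ := ((x : ℚ) - c) / Q with hu
  have e : (((x + X : ℕ) : ℚ) - c) / Q = u + X / Q := by rw [hu]; push_cast; ring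
  rw [e] at h
  have hX : (0 : ℚ) ≤ X / Q := by positivity
  have m : ⌈u⌉ ≤ ⌈u + X / Q⌉ := Int.ceil_mono (by linarith)
  rw [max_eq_left (by linarith)] at h
  have a1 := Int.le_ceil u
  have a2 := Int.ceil_lt_add_one u
  have a3 := Int.le_ceil (u + X / Q)
  have a4 := Int.ceil_lt_add_one (u + X / Q)
  have h' : (((Ico x (x + X)).filter (fun m => m ≡ c [MOD Q])).card : ℚ)
      = (⌈u + X / Q⌉ : ℚ) - (⌈u⌉ : ℚ) := by exact_mod_cast h
  have : |(((Ico x (x + X)).filter (fun m => m ≡ c [MOD Q])).card : ℚ) - (X : ℚ) / Q| ≤ 1 := by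
    rw [h', abs_le]; constructor <;> linarith
  have h2 := (Rat.cast_le (K := ℝ)).2 this
  push_cast at h2
  exact h2

theorem sieve_count_crt (x X : ℕ) (R : ℕ → Finset ℕ) (D : Finset ℕ) (hD : ∀ q ∈ D, q.Prime)
    (hR : ∀ q ∈ D, R q ⊆ range q) : ∀ W a : ℕ, 0 < W → (∀ q ∈ D, Nat.Coprime W q) →
    |(((Ico x (x + X)).filter (fun m => m ≡ a [MOD W] ∧ ∀ q ∈ D, m % q ∈ R q)).card : ℝ)
      - (X : ℝ) / W * ∏ q ∈ D, (((R q).card : ℝ) / q)| ≤ ∏ q ∈ D, ((R q).card : ℝ) := by
  induction D using Finset.induction_on with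
  | empty =>
    intro W a hW _
    simpa using sieve_count_modEq x X a W hW
  | insert p D hp ih =>
    intro W a hW hcop
    have hpp := hD p (mem_insert_self _ _)
    have hWp := hcop p (mem_insert_self _ _)
    have ih' := ih (fun q hq => hD q (mem_insert_of_mem hq)) fun q hq => hR q (mem_insert_of_mem hq)
    have hcop' : ∀ q ∈ D, Nat.Coprime (W * p) q := fun q hq =>
      Nat.Coprime.mul_left (hcop q (mem_insert_of_mem hq))
        ((Nat.coprime_primes hpp (hD q (mem_insert_of_mem hq))).2 fun h => hp (h ▸ hq))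
    have e1 : ((Ico x (x + X)).filter
        (fun m => m ≡ a [MOD W] ∧ ∀ q ∈ insert p D, m % q ∈ R q)).card =
        ∑ r ∈ R p, ((Ico x (x + X)).filter (fun m => m ≡ Nat.chineseRemainder hWp a r [MOD W * p]
          ∧ ∀ q ∈ D, m % q ∈ R q)).card := by
      rw [card_eq_sum_card_fiberwise (f := fun m => m % p) (t := R p)]
      · refine sum_congr rfl fun r hr => ?_
        rw [filter_filter]
        congr 1
        refine filter_congr fun m _ => ?_
        have hr' : r < p := mem_range.1 (hR p (mem_insert_self _ _) hr)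
        obtain ⟨k1, k2⟩ := (Nat.chineseRemainder hWp a r).2
        rw [← Nat.modEq_and_modEq_iff_modEq_mul hWp, forall_mem_insert]
        have e : m % p = r ↔ m ≡ r [MOD p] := by rw [Nat.ModEq, Nat.mod_eq_of_lt hr']
        constructor
        · rintro ⟨⟨h1, -, h3⟩, h4⟩
          exact ⟨⟨h1.trans k1.symm, (e.1 h4).trans k2.symm⟩, h3⟩
        · rintro ⟨⟨h1, h2⟩, h3⟩
          have h4 := e.2 (h2.trans k2)
          exact ⟨⟨h1.trans k1, h4 ▸ hr, h3⟩, h4⟩
      · intro m hm
        exact (mem_filter.1 (mem_coe.1 hm)).2.2 p (mem_insert_self _ _)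
    have e2 : (X : ℝ) / W * ∏ q ∈ insert p D, (((R q).card : ℝ) / q) =
        ∑ _r ∈ R p, (X : ℝ) / ((W * p : ℕ) : ℝ) * ∏ q ∈ D, (((R q).card : ℝ) / q) := by
      rw [prod_insert hp, sum_const, nsmul_eq_mul]
      push_cast
      ring
    rw [e1, e2, Nat.cast_sum, ← sum_sub_distrib, prod_insert hp, ← nsmul_eq_mul, ← sum_const]
    exact (abs_sum_le_sum_abs _ _).trans
      (sum_le_sum fun r _ => ih' _ _ (Nat.mul_pos hW hpp.pos) hcop')

theorem sieve_bonferroni (H : Finset ℕ) {J : ℕ} (hJ : Even J) :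
    (if H = ∅ then (1 : ℝ) else 0) ≤
      ∑ D ∈ H.powerset, if D.card ≤ J then (-1 : ℝ) ^ D.card else 0 := by
  split_ifs with h
  · simp [h]
  · rw [sum_powerset_apply_card (fun m => if m ≤ J then (-1 : ℝ) ^ m else 0)]
    obtain ⟨n, hn⟩ : ∃ n, H.card = n + 1 :=
      ⟨H.card - 1, by have := card_pos.2 (nonempty_iff_ne_empty.2 h); omega⟩
    rw [hn]
    have e1 : ∑ m ∈ range (n + 1 + 1), (n + 1).choose m • (if m ≤ J then (-1 : ℝ) ^ m else 0) =
        ∑ m ∈ range (J + 1), (-1 : ℝ) ^ m * (n + 1).choose m := by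
      have a1 : ∑ m ∈ range (n + 1 + 1), (n + 1).choose m • (if m ≤ J then (-1 : ℝ) ^ m else 0) =
          ∑ m ∈ range (n + 1 + 1 + (J + 1)),
            (n + 1).choose m • (if m ≤ J then (-1 : ℝ) ^ m else 0) := by
        refine sum_subset (range_subset_range.2 (by omega)) fun m _ hm => ?_
        rw [Nat.choose_eq_zero_of_lt (by simpa using hm), zero_smul]
      rw [a1, ← sum_subset (s₁ := range (J + 1)) (range_subset_range.2 (by omega))]
      · refine sum_congr rfl fun m hm => ?_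
        rw [if_pos (by simpa [Nat.lt_succ_iff] using hm), nsmul_eq_mul, mul_comm]
      · intro m _ hm
        rw [if_neg (by simpa [Nat.lt_succ_iff] using hm), smul_zero]
    have e2 := Int.alternating_sum_range_choose_eq_choose (n := n) (m := J)
    have e3 : ∑ m ∈ range (J + 1), (-1 : ℝ) ^ m * (n + 1).choose m = (-1) ^ J * n.choose J := by
      exact_mod_cast e2
    rw [e1, e3, hJ.neg_one_pow]
    positivity

theorem sieve_brun (x X : ℕ) (R : ℕ → Finset ℕ) (Q : Finset ℕ) (hQ : ∀ q ∈ Q, q.Prime)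
    (hR : ∀ q ∈ Q, R q ⊆ range q) (κ : ℕ) (hκ : ∀ q ∈ Q, (R q).card = κ) {J : ℕ} (hJ : Even J)
    {z : ℝ} (hz : 1 ≤ z) (hQz : (Q.card : ℝ) ≤ z) :
    (((Ico x (x + X)).filter (fun m => ∀ q ∈ Q, m % q ∉ R q)).card : ℝ) ≤
      X * (Real.exp (-(κ * ∑ q ∈ Q, (1 / (q : ℝ)))) +
        Real.exp (-J + Real.exp 1 * (κ * ∑ q ∈ Q, (1 / (q : ℝ))))) + z ^ J * Real.exp κ := by
  have hq0 : ∀ q ∈ Q, (0 : ℝ) < q := fun q hq => by exact_mod_cast (hQ q hq).pos
  let cnt : Finset ℕ → ℝ := fun D =>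
    (((Ico x (x + X)).filter (fun m => ∀ q ∈ D, m % q ∈ R q)).card : ℝ)
  have s1 : (((Ico x (x + X)).filter (fun m => ∀ q ∈ Q, m % q ∉ R q)).card : ℝ) ≤
      ∑ D ∈ Q.powerset, (if D.card ≤ J then (-1 : ℝ) ^ D.card else 0) * cnt D := by
    simp only [cnt, ← sum_boole, mul_sum]
    rw [sum_comm]
    refine sum_le_sum fun m _ => ?_
    have h1 := sieve_bonferroni (Q.filter fun q => m % q ∈ R q) hJ
    simp only [filter_eq_empty_iff] at h1
    refine h1.trans (le_of_eq ?_)
    rw [← sum_subset (s₁ := (Q.filter fun q => m % q ∈ R q).powerset)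
      (powerset_mono.2 (filter_subset _ _))]
    · refine sum_congr rfl fun D hD => ?_
      rw [if_pos (c := ∀ q ∈ D, m % q ∈ R q) fun q hq => (mem_filter.1 (mem_powerset.1 hD hq)).2,
        mul_one]
    · intro D hD hD'
      rw [if_neg (c := ∀ q ∈ D, m % q ∈ R q), mul_zero]
      exact fun h => hD' (mem_powerset.2 fun q hq => mem_filter.2 ⟨mem_powerset.1 hD hq, h q hq⟩)
  have s2 : ∀ D ∈ Q.powerset, (if D.card ≤ J then (-1 : ℝ) ^ D.card else 0) * cnt D ≤
      X * (∏ q ∈ D, (-((κ : ℝ) / q)) + Real.exp (-J) * ∏ q ∈ D, (Real.exp 1 * ((κ : ℝ) / q)))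
        + z ^ J * ∏ _q ∈ D, ((κ : ℝ) / z) := by
    intro D hD
    have hDQ := mem_powerset.1 hD
    have h1 := sieve_count_crt x X R D (fun q hq => hQ q (hDQ hq)) (fun q hq => hR q (hDQ hq))
      1 0 one_pos fun q _ => Nat.coprime_one_left q
    simp only [Nat.modEq_one, true_and, Nat.cast_one, div_one] at h1
    rw [prod_congr rfl (fun q hq => by rw [hκ q (hDQ hq)]),
      prod_congr (f := fun q => ((R q).card : ℝ)) rfl (fun q hq => by rw [hκ q (hDQ hq)]),
      prod_const] at h1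
    set G := ∏ q ∈ D, ((κ : ℝ) / q) with hG
    have hG0 : 0 ≤ G := prod_nonneg fun q _ => by positivity
    have e1 : ∏ q ∈ D, (-((κ : ℝ) / q)) = (-1) ^ D.card * G := by rw [hG, prod_neg]
    have e2 : ∏ q ∈ D, (Real.exp 1 * ((κ : ℝ) / q)) = Real.exp D.card * G := by
      rw [prod_mul_distrib, prod_const, ← Real.exp_nat_mul, mul_one]
    rw [e1, e2, prod_const]
    have hX : (0 : ℝ) ≤ X := Nat.cast_nonneg X
    have hs : |(-1 : ℝ) ^ D.card| = 1 := by simp
    split_ifs with hc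
    · have a1 : (κ : ℝ) ^ D.card ≤ z ^ J * ((κ : ℝ) / z) ^ D.card := by
        rw [div_pow, mul_div_assoc', le_div_iff₀ (by positivity), mul_comm]
        exact mul_le_mul_of_nonneg_right (pow_le_pow_right₀ hz hc) (by positivity)
      have a2 : (-1 : ℝ) ^ D.card * (cnt D - X * G) ≤ (κ : ℝ) ^ D.card := by
        refine (le_abs_self _).trans ?_
        rw [abs_mul, hs, one_mul]
        exact h1
      have a3 : 0 ≤ X * (Real.exp (-J) * (Real.exp D.card * G)) := by positivity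
      linarith
    · have a1 : 1 ≤ Real.exp (-J) * Real.exp D.card := by
        rw [← Real.exp_add]
        refine Real.one_le_exp ?_
        have : (J : ℝ) ≤ D.card := by exact_mod_cast (not_le.1 hc).le
        linarith
      have a2 : -1 ≤ (-1 : ℝ) ^ D.card := by linarith [neg_abs_le ((-1 : ℝ) ^ D.card)]
      have a3 : 0 ≤ (-1 : ℝ) ^ D.card * G + Real.exp (-J) * (Real.exp D.card * G) := by
        nlinarith
      rw [zero_mul]
      positivity
  refine s1.trans ((sum_le_sum s2).trans ?_)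
  simp only [sum_add_distrib, ← mul_sum, ← prod_one_add]
  have b1 : ∏ q ∈ Q, (1 + -((κ : ℝ) / q)) ≤ Real.exp (-(κ * ∑ q ∈ Q, (1 / (q : ℝ)))) := by
    rw [mul_sum, ← sum_neg_distrib, Real.exp_sum]
    refine prod_le_prod (fun q hq => ?_) fun q hq => ?_
    · have : κ ≤ q := by rw [← hκ q hq]; simpa using card_le_card (hR q hq)
      have : (κ : ℝ) / q ≤ 1 := (div_le_one (hq0 q hq)).2 (by exact_mod_cast this)
      linarith
    · rw [mul_one_div, add_comm]; exact Real.add_one_le_exp _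
  have b2 : Real.exp (-J) * ∏ q ∈ Q, (1 + Real.exp 1 * ((κ : ℝ) / q)) ≤
      Real.exp (-J + Real.exp 1 * (κ * ∑ q ∈ Q, (1 / (q : ℝ)))) := by
    rw [Real.exp_add]
    refine mul_le_mul_of_nonneg_left ?_ (Real.exp_pos _).le
    rw [mul_sum, mul_sum, Real.exp_sum]
    refine prod_le_prod (fun q hq => by positivity) fun q hq => ?_
    rw [mul_one_div, add_comm]; exact Real.add_one_le_exp _
  have b3 : ∏ _q ∈ Q, (1 + (κ : ℝ) / z) ≤ Real.exp κ := by
    rw [prod_const]
    have a1 : 1 + (κ : ℝ) / z ≤ Real.exp (κ / z) := by rw [add_comm]; exact Real.add_one_le_exp _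
    refine (pow_le_pow_left₀ (by positivity) a1 _).trans ?_
    rw [← Real.exp_nat_mul]
    refine Real.exp_le_exp.2 ?_
    rw [mul_div_assoc', div_le_iff₀ (by linarith), mul_comm]
    exact mul_le_mul_of_nonneg_left hQz (Nat.cast_nonneg _)
  gcongr

end Vale.Agent.P031
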