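import Mathlib

/-! # Small asymptotic helpers -/

open Filter

namespace Vale.Agent.P031

theorem ev_ge (C : ℝ) : ∀ᶠ w : ℕ in atTop, C ≤ (w : ℝ) :=
  tendsto_natCast_atTop_atTop.eventually_ge_atTop C

theorem ev_poly_le_exp (C : ℝ) (n : ℕ) : ∀ᶠ w : ℕ in atTop, C * (w : ℝ) ^ n ≤ Real.exp w := by
  have h := (Real.tendsto_exp_div_pow_atTop n).comp tendsto_natCast_atTop_atTop
  filter_upwards [h.eventually_ge_atTop C, eventually_gt_atTop 0] with w hw hw0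
  have : (0 : ℝ) < (w : ℝ) ^ n := by positivity
  simpa [le_div_iff₀ this] using hw

theorem ev_poly_le_exp_half (C : ℝ) (n : ℕ) :
    ∀ᶠ w : ℕ in atTop, C * (w : ℝ) ^ n ≤ Real.exp ((w : ℝ) / 2) := by
  filter_upwards [ev_poly_le_exp (C ^ 2) (2 * n)] with w hw
  have h1 : Real.exp w = Real.exp ((w : ℝ) / 2) ^ 2 := by
    rw [← Real.exp_nat_mul]; congr 1; push_cast; ring
  have h2 : C ^ 2 * (w : ℝ) ^ (2 * n) = (C * (w : ℝ) ^ n) ^ 2 := by ring
  rw [h1, h2] at hw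
  exact le_of_sq_le_sq hw (Real.exp_pos _).le

/-- transfer of a statement eventually true in `N` to `N = w ^ 40` -/
theorem ev_pow40 {p : ℕ → Prop} (h : ∀ᶠ N : ℕ in atTop, p N) : ∀ᶠ w : ℕ in atTop, p (w ^ 40) :=
  (tendsto_pow_atTop (by norm_num : 40 ≠ 0)).eventually h

end Vale.Agent.P031
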