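import Vale.Agent.P031.Data

/-! small shared lemmas for the Up and Low steps -/

open Finset Real Filter

namespace Vale.Agent.P031.A37

theorem levs_cons (p : ℕ) (L : List ℕ) : levs (p :: L) = (lev p : ℝ) :: levs L := rfl

theorem head_le_Tt (t0 : ℝ) (L : List ℝ) : L.headD t0 ≤ Tt t0 L := le_max_right _ _

theorem mem_MSet {w j m : ℕ} {t : ℝ} : m ∈ MSet w j t ↔ m ∈ Tot w ∧
    ∃ L r, Good w L r ∧ val L r = m ∧ tau ((w : ℝ) ^ 36) j (levs L) ≤ t := by
  classical
  unfold MSet
  rw [Finset.mem_filter]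

theorem good_cons_of_lev {w p : ℕ} {L : List ℕ} {r : ℕ} (h : Good w L r) (hp : p.Prime)
    (hn : Normal w p) (hl : Tt ((w : ℝ) ^ 36) (levs L) < lev p) : Good w (p :: L) r := by
  have h1 := head_le_Tt ((w : ℝ) ^ 36) (levs L)
  refine good_cons h hp ?_ hn fun q hq => ?_
  · have := (good_t0_le_head h).trans_lt (h1.trans_lt hl)
    exact_mod_cast this
  · have a : (lev q : ℝ) < lev p := (good_lev_le_head h q hq).trans_lt (h1.trans_lt hl)
    have b : lev q < lev p := by exact_mod_cast a
    by_contra hc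
    exact absurd (lev_mono (not_lt.1 hc)) (not_le.2 b)

end Vale.Agent.P031.A37
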