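import Vale.Agent.P031.Defs

/-!
# Task Basic: elementary API for lev, Om, om, wt; Euler product bound; summation lemmas
-/

open Finset Real Filter

namespace Vale.Agent.P031

theorem lev_le_iff (n t : ℕ) : lev n ≤ t ↔ Real.log n ≤ Real.exp t := by
  unfold lev
  rw [Nat.ceil_le]
  rcases le_or_gt (Real.log n) 0 with h | h
  · have h0 : Real.log (n : ℝ) = 0 := le_antisymm h (Real.log_natCast_nonneg n)
    rw [h0, Real.log_zero]
    exact ⟨fun _ => (Real.exp_pos _).le, fun _ => Nat.cast_nonneg _⟩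
  · exact Real.log_le_iff_le_exp h

theorem log_le_exp_lev (n : ℕ) : Real.log n ≤ Real.exp (lev n) := by
  exact (lev_le_iff n _).1 le_rfl

theorem lev_mono {m n : ℕ} (h : m ≤ n) : lev m ≤ lev n := by
  rw [lev_le_iff]
  refine le_trans ?_ (log_le_exp_lev n)
  rcases Nat.eq_zero_or_pos m with rfl | hm
  · simpa using Real.log_natCast_nonneg n
  · exact Real.log_le_log (by exact_mod_cast hm) (by exact_mod_cast h)

theorem exp_lt_log_of_lt_lev {n t : ℕ} (h : t < lev n) : Real.exp t < Real.log n := by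
  by_contra h'
  exact absurd ((lev_le_iff n t).2 (not_lt.1 h')) (not_le.2 h)

theorem exp_lev_sub_one_lt {n : ℕ} (h : 1 ≤ lev n) :
    Real.exp ((lev n : ℝ) - 1) < Real.log n := by
  have := exp_lt_log_of_lt_lev (n := n) (t := lev n - 1) (by omega)
  rwa [Nat.cast_sub h, Nat.cast_one] at this

/-- real form: if `log n <= exp u` with `0 <= u` then `lev n <= u + 1`. -/
theorem lev_le_of_log_le {n : ℕ} {u : ℝ} (hu : 0 ≤ u) (h : Real.log n ≤ Real.exp u) :
    (lev n : ℝ) ≤ u + 1 := by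
  have h1 : lev n ≤ ⌈u⌉₊ := (lev_le_iff _ _).2 (h.trans (Real.exp_le_exp.2 (Nat.le_ceil u)))
  have h2 : (⌈u⌉₊ : ℝ) < u + 1 := Nat.ceil_lt_add_one hu
  have h3 : (lev n : ℝ) ≤ ⌈u⌉₊ := by exact_mod_cast h1
  linarith

/-- real form: if `exp u <= log n` then `u <= lev n`. -/
theorem le_lev_of_exp_le {n : ℕ} {u : ℝ} (h : Real.exp u ≤ Real.log n) : u ≤ lev n := by
  exact Real.exp_le_exp.1 (h.trans (log_le_exp_lev n))

theorem lev_succ_le (n : ℕ) : lev (n + 1) ≤ lev n + 1 := by
  rw [lev_le_iff]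
  have h1 := log_le_exp_lev n
  have h2 : (1 : ℝ) ≤ Real.exp (lev n) := Real.one_le_exp (Nat.cast_nonneg _)
  have h3 : Real.log ((n + 1 : ℕ) : ℝ) ≤ Real.log n + 1 := by
    rcases Nat.eq_zero_or_pos n with rfl | hn
    · simp
    · have hn' : (1 : ℝ) ≤ n := by exact_mod_cast hn
      have : Real.log ((n + 1 : ℕ) : ℝ) ≤ Real.log (2 * n) := by
        apply Real.log_le_log (by positivity)
        push_cast; linarith
      rw [Real.log_mul (by norm_num) (by positivity)] at this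
      have := Real.log_two_lt_d9
      linarith
  have h4 : Real.exp ((lev n + 1 : ℕ) : ℝ) = Real.exp (lev n) * Real.exp 1 := by
    push_cast; rw [Real.exp_add]
  have h5 : (2 : ℝ) ≤ Real.exp 1 := by have := Real.add_one_le_exp (1 : ℝ); linarith
  rw [h4]
  nlinarith

theorem mem_upTo {n t : ℕ} : n ∈ upTo t ↔ 0 < n ∧ lev n ≤ t := by
  unfold upTo
  rw [Finset.mem_Icc, Nat.le_floor_iff (Real.exp_pos _).le, lev_le_iff]
  constructor
  · rintro ⟨h1, h2⟩
    exact ⟨h1, (Real.log_le_iff_le_exp (by exact_mod_cast h1)).2 h2⟩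
  · rintro ⟨h1, h2⟩
    exact ⟨h1, (Real.log_le_iff_le_exp (by exact_mod_cast h1)).1 h2⟩

theorem Om_mul {a b : ℕ} (ha : a ≠ 0) (hb : b ≠ 0) : Om (a * b) = Om a + Om b := by
  unfold Om
  rw [(Nat.perm_primeFactorsList_mul ha hb).length_eq, List.length_append]

theorem om_mul (t : ℕ) {a b : ℕ} (ha : a ≠ 0) (hb : b ≠ 0) : om t (a * b) = om t a + om t b := by
  unfold om
  rw [(Nat.perm_primeFactorsList_mul ha hb).countP_eq, List.countP_append]

theorem Om_le_of_dvd {a b : ℕ} (h : a ∣ b) (hb : b ≠ 0) : Om a ≤ Om b := by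
  exact (Nat.primeFactorsList_sublist_of_dvd h hb).length_le

theorem om_le_of_dvd (t : ℕ) {a b : ℕ} (h : a ∣ b) (hb : b ≠ 0) : om t a ≤ om t b := by
  exact (Nat.primeFactorsList_sublist_of_dvd h hb).countP_le

theorem om_eq_Om {t a : ℕ} (h : ∀ q : ℕ, q.Prime → q ∣ a → lev q ≤ t) : om t a = Om a := by
  unfold om Om
  rw [List.countP_eq_length]
  intro q hq
  simpa using h q (Nat.prime_of_mem_primeFactorsList hq) (Nat.dvd_of_mem_primeFactorsList hq)

/-- A normal prime has `Om (p - 1) <= lev p + E`. -/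
theorem Om_le_of_normal {w p : ℕ} (hp : p.Prime) (h : Normal w p) :
    Om (p - 1) ≤ lev p + w ^ 24 := by
  have h1 := (h (lev p)).1
  have h2 := hp.two_le
  rw [om_eq_Om, min_self] at h1
  · exact h1
  · intro q _ hq
    exact lev_mono ((Nat.le_of_dvd (by omega) hq).trans (by omega))

theorem wt_one (z : ℕ → ℝ) : wt z 1 = 1 := by
  simp [wt]

theorem wt_mul (z : ℕ → ℝ) {a b : ℕ} (ha : a ≠ 0) (hb : b ≠ 0) :
    wt z (a * b) = wt z a * wt z b := by
  unfold wt
  rw [((Nat.perm_primeFactorsList_mul ha hb).map z).prod_eq, List.map_append, List.prod_append]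

theorem wt_prime (z : ℕ → ℝ) {p : ℕ} (hp : p.Prime) : wt z p = z p := by
  simp [wt, Nat.primeFactorsList_prime hp]

theorem wt_nonneg {z : ℕ → ℝ} (hz : ∀ q, 0 ≤ z q) (a : ℕ) : 0 ≤ wt z a := by
  unfold wt
  apply List.prod_nonneg
  intro x hx
  obtain ⟨q, _, rfl⟩ := List.mem_map.1 hx
  exact hz q

theorem wt_le_wt {z z' : ℕ → ℝ} {a : ℕ} (hz : ∀ q, 0 ≤ z q)
    (h : ∀ q : ℕ, q.Prime → q ∣ a → z q ≤ z' q) : wt z a ≤ wt z' a := by
  unfold wt
  have key : ∀ l : List ℕ, (∀ q ∈ l, z q ≤ z' q) → (l.map z).prod ≤ (l.map z').prod := by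
    intro l
    induction l with
    | nil => simp
    | cons x l ih =>
      intro hl
      simp only [List.map_cons, List.prod_cons]
      have h1 := hl x (by simp)
      have h2 := ih (fun q hq => hl q (by simp [hq]))
      have h3 : 0 ≤ (l.map z).prod := by
        apply List.prod_nonneg
        intro y hy
        obtain ⟨q, _, rfl⟩ := List.mem_map.1 hy
        exact hz q
      exact mul_le_mul h1 h2 h3 ((hz x).trans h1)
  exact key _ (fun q hq =>
    h q (Nat.prime_of_mem_primeFactorsList hq) (Nat.dvd_of_mem_primeFactorsList hq))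

theorem wt_const (c : ℝ) (a : ℕ) : wt (fun _ => c) a = c ^ Om a := by
  simp [wt, Om]

theorem wt_ite (c : ℝ) (t a : ℕ) : wt (fun q => if lev q ≤ t then c else 1) a = c ^ om t a := by
  unfold wt om
  induction a.primeFactorsList with
  | nil => simp
  | cons x l ih =>
    simp only [List.map_cons, List.prod_cons, ih, List.countP_cons]
    by_cases hx : lev x ≤ t
    · simp [hx, pow_succ, mul_comm]
    · simp [hx]

theorem wt_mul_fun (z z' : ℕ → ℝ) (a : ℕ) :
    wt (fun q => z q * z' q) a = wt z a * wt z' a := by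
  unfold wt
  exact List.prod_map_mul

theorem wt_le_of_dvd {z : ℕ → ℝ} (hz : ∀ q, 1 ≤ z q) {a b : ℕ} (h : a ∣ b) (hb : b ≠ 0) :
    wt z a ≤ wt z b := by
  obtain ⟨c, rfl⟩ := h
  have ha : a ≠ 0 := left_ne_zero_of_mul hb
  have hc : c ≠ 0 := right_ne_zero_of_mul hb
  rw [wt_mul z ha hc]
  have h1 : 1 ≤ wt z c := by
    have := wt_le_wt (z := fun _ => 1) (z' := z) (a := c) (fun _ => zero_le_one)
      (fun q _ _ => hz q)
    rwa [wt_const, one_pow] at this
  exact le_mul_of_one_le_right (wt_nonneg (fun q => zero_le_one.trans (hz q)) a) h1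

/-- `log a <= Om a * (bound for the logs of the prime factors)`. -/
theorem log_le_Om_mul {a : ℕ} {u : ℝ} (_hu : 0 ≤ u)
    (h : ∀ q : ℕ, q.Prime → q ∣ a → Real.log q ≤ u) : Real.log a ≤ Om a * u := by
  rcases Nat.eq_zero_or_pos a with rfl | ha
  · simp [Om]
  have key : ∀ l : List ℕ, (∀ q ∈ l, q ≠ 0 ∧ Real.log q ≤ u) →
      Real.log (l.prod : ℕ) ≤ l.length * u := by
    intro l
    induction l with
    | nil => simp
    | cons x l ih =>
      intro hl
      have h1 := hl x (by simp)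
      have h2 := ih (fun q hq => hl q (by simp [hq]))
      have h3 : l.prod ≠ 0 := List.prod_ne_zero (fun h0 => (hl 0 (by simp [h0])).1 rfl)
      rw [List.prod_cons, Nat.cast_mul, Real.log_mul (by exact_mod_cast h1.1)
        (by exact_mod_cast h3), List.length_cons]
      push_cast at h2 ⊢
      linarith [h1.2]
  have := key a.primeFactorsList (fun q hq => ⟨(Nat.prime_of_mem_primeFactorsList hq).ne_zero,
    h q (Nat.prime_of_mem_primeFactorsList hq) (Nat.dvd_of_mem_primeFactorsList hq)⟩)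
  rwa [Nat.prod_primeFactorsList ha.ne'] at this

/-- The largest prime factor. -/
theorem exists_largest_prime {a : ℕ} (ha : 2 ≤ a) :
    ∃ P : ℕ, P.Prime ∧ P ∣ a ∧ (∀ q : ℕ, q.Prime → q ∣ a → q ≤ P) ∧
      Real.log a ≤ Om a * Real.log P := by
  have hne : a.primeFactors.Nonempty := Nat.nonempty_primeFactors.2 ha
  have hm := a.primeFactors.max'_mem hne
  have hle : ∀ q : ℕ, q.Prime → q ∣ a → q ≤ a.primeFactors.max' hne := fun q hq hqa =>
    Finset.le_max' _ _ (Nat.mem_primeFactors.2 ⟨hq, hqa, by omega⟩)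
  refine ⟨a.primeFactors.max' hne, Nat.prime_of_mem_primeFactors hm,
    Nat.dvd_of_mem_primeFactors hm, hle, ?_⟩
  apply log_le_Om_mul (Real.log_natCast_nonneg _)
  intro q hq hqa
  exact Real.log_le_log (by exact_mod_cast hq.pos) (by exact_mod_cast hle q hq hqa)

theorem card_primes_eq (n : ℕ) :
    ((Finset.Icc 1 n).filter Nat.Prime).card = Nat.primeCounting n := by
  rw [← Nat.primesLE_eq_filter_Icc_one, Nat.primesLE_card_eq_primeCounting]

/-- Chebyshev upper bound (from `Chebyshev.pi_le_log4_mul_div`). -/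
theorem pi_le {x : ℝ} (hx : 1 < x) :
    (((Finset.Icc 1 ⌊x⌋₊).filter Nat.Prime).card : ℝ) ≤ 5 * x / Real.log x := by
  rw [card_primes_eq]
  have h1 := Chebyshev.pi_le_log4_mul_div hx
  have hx0 : 0 < x := by linarith
  have hl : 0 < Real.log x := Real.log_pos hx
  have hs : 0 < Real.sqrt x := Real.sqrt_pos.2 hx0
  have h2 : Real.log (Real.sqrt x) = Real.log x / 2 := Real.log_sqrt hx0.le
  have h3 : Real.log x ≤ 2 * Real.sqrt x := by
    have := Real.log_le_sub_one_of_pos hs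
    linarith
  have h4 : Real.sqrt x ≤ 2 * x / Real.log x := by
    rw [le_div_iff₀ hl]
    have := Real.mul_self_sqrt hx0.le
    nlinarith
  have h5 : Real.log 4 ≤ 3 / 2 := by
    have : Real.log 4 = 2 * Real.log 2 := by
      rw [show (4 : ℝ) = 2 ^ 2 by norm_num, Real.log_pow]; norm_num
    have := Real.log_two_lt_d9
    linarith
  have h6 : Real.log 4 * x / Real.log (Real.sqrt x) ≤ 3 * x / Real.log x := by
    rw [h2, div_le_div_iff₀ (by positivity) hl]
    have := mul_pos hx0 hl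
    nlinarith
  have h7 : 5 * x / Real.log x = 3 * x / Real.log x + 2 * x / Real.log x := by ring
  linarith

theorem inv_one_sub_le_exp {u : ℝ} (h0 : 0 ≤ u) (h1 : u ≤ 3 / 4) :
    (1 - u)⁻¹ ≤ Real.exp (u + 2 * u ^ 2) := by
  have h2 : 0 < 1 - u := by linarith
  have h3 := Real.quadratic_le_exp_of_nonneg (x := u + 2 * u ^ 2) (by positivity)
  refine le_trans ?_ h3
  rw [inv_le_iff_one_le_mul₀ h2]
  have h4 : 0 ≤ u ^ 2 * (3 / 2 - u / 2 - 2 * u ^ 3) := by
    apply mul_nonneg (by positivity)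
    have : u ^ 3 ≤ (3 / 4) ^ 3 := pow_le_pow_left₀ h0 h1 3
    linarith
  nlinarith

/-- Euler product bound (use `Nat.factoredNumbers` and
`EulerProduct.summable_and_hasSum_factoredNumbers_prod_filter_prime_geometric`, or induct on `P`),
with `1/(1-u) <= exp (u + 2 u^2)` for `0 <= u <= 3/4`. -/
theorem euler_bound (z : ℕ → ℝ) (P A : Finset ℕ) (hP : ∀ q ∈ P, q.Prime)
    (hz : ∀ q ∈ P, 0 ≤ z q ∧ z q ≤ 3 / 4 * q)
    (hA : ∀ a ∈ A, 0 < a ∧ ∀ q : ℕ, q.Prime → q ∣ a → q ∈ P) :
    ∑ a ∈ A, wt z a / a ≤ Real.exp (∑ q ∈ P, z q / q + 2 * ∑ q ∈ P, (z q / q) ^ 2) := by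
  classical
  let z' : ℕ → ℝ := fun q => if q ∈ P then z q else 0
  have hz' : ∀ q, 0 ≤ z' q := by
    intro q; by_cases hq : q ∈ P
    · simp only [z', hq, if_true]; exact (hz q hq).1
    · simp [z', hq]
  let f : ℕ →* ℝ :=
    { toFun := fun a => wt z' a / a
      map_one' := by simp [wt_one]
      map_mul' := by
        intro a b
        rcases eq_or_ne a 0 with rfl | ha
        · simp
        rcases eq_or_ne b 0 with rfl | hb
        · simp
        rw [wt_mul z' ha hb]; push_cast; ring }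
  have hf : ∀ a, f a = wt z' a / a := fun a => rfl
  have hfp : ∀ {p : ℕ}, p.Prime → 0 ≤ f p ∧ f p ≤ 3 / 4 := by
    intro p hp
    have hp0 : (0 : ℝ) < p := by exact_mod_cast hp.pos
    rw [hf, wt_prime _ hp]
    refine ⟨div_nonneg (hz' p) hp0.le, ?_⟩
    rw [div_le_iff₀ hp0]
    by_cases hq : p ∈ P
    · simp only [z', hq, if_true]; exact (hz p hq).2
    · simp only [z', hq, if_false]; positivity
  have hs := (EulerProduct.summable_and_hasSum_factoredNumbers_prod_filter_prime_geometric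
    (f := f) (fun {p} hp => by
      rw [Real.norm_of_nonneg (hfp hp).1]; linarith [(hfp hp).2]) P).2
  have hs' : HasSum (Set.indicator (Nat.factoredNumbers P) f) _ :=
    hasSum_subtype_iff_indicator.1 hs
  have h1 : ∑ a ∈ A, wt z a / a = ∑ a ∈ A, Set.indicator (Nat.factoredNumbers P) f a := by
    apply Finset.sum_congr rfl
    intro a ha
    have hmem : a ∈ Nat.factoredNumbers P :=
      Nat.mem_factoredNumbers'.2 (fun q hq hqa => (hA a ha).2 q hq hqa)
    rw [Set.indicator_of_mem hmem, hf]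
    congr 1
    unfold wt
    congr 1
    apply List.map_congr_left
    intro q hq
    have : q ∈ P := (hA a ha).2 q (Nat.prime_of_mem_primeFactorsList hq)
      (Nat.dvd_of_mem_primeFactorsList hq)
    simp [z', this]
  have h2 := sum_le_hasSum A (fun a _ => Set.indicator_nonneg
    (fun a _ => div_nonneg (wt_nonneg hz' a) (Nat.cast_nonneg a)) a) hs'
  rw [h1]
  refine h2.trans ?_
  rw [Finset.filter_true_of_mem hP, Finset.mul_sum, ← Finset.sum_add_distrib, Real.exp_sum]
  apply Finset.prod_le_prod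
  · intro p hp
    have := (hfp (hP p hp)).2
    apply inv_nonneg.2; linarith
  · intro p hp
    have hu := hfp (hP p hp)
    have he : f p = z p / p := by rw [hf, wt_prime _ (hP p hp)]; simp [z', hp]
    rw [← he]
    exact inv_one_sub_le_exp hu.1 hu.2

/-- `sum 1/q^2 <= 1/Y` over integers `q > Y >= 1`, and the same for `1/(q(q-1))`. -/
theorem sum_inv_mul_pred_le (Y : ℕ) (hY : 1 ≤ Y) (Q : Finset ℕ) (hQ : ∀ q ∈ Q, Y < q) :
    ∑ q ∈ Q, (1 / ((q : ℝ) * ((q : ℝ) - 1))) ≤ 1 / (Y : ℝ) := by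
  have key : ∀ M : ℕ, Y ≤ M →
      ∑ q ∈ Finset.Ioc Y M, (1 / ((q : ℝ) * ((q : ℝ) - 1))) = 1 / (Y : ℝ) - 1 / (M : ℝ) := by
    intro M hM
    induction M, hM using Nat.le_induction with
    | base => simp
    | succ M hM ih =>
      rw [Finset.sum_Ioc_succ_top hM, ih]
      have : (0 : ℝ) < M := by exact_mod_cast (by omega : 0 < M)
      have hY0 : (0 : ℝ) < Y := by exact_mod_cast (by omega : 0 < Y)
      push_cast
      rw [add_sub_cancel_right]
      field_simp
      ring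
  obtain ⟨M, hM⟩ : ∃ M, Y ≤ M ∧ ∀ q ∈ Q, q ≤ M :=
    ⟨max Y (Q.sup id), le_max_left _ _, fun q hq =>
      (Finset.le_sup (f := id) hq).trans (le_max_right _ _)⟩
  have h1 : ∑ q ∈ Q, (1 / ((q : ℝ) * ((q : ℝ) - 1))) ≤
      ∑ q ∈ Finset.Ioc Y M, (1 / ((q : ℝ) * ((q : ℝ) - 1))) := by
    apply Finset.sum_le_sum_of_subset_of_nonneg
    · intro q hq; exact Finset.mem_Ioc.2 ⟨hQ q hq, hM.2 q hq⟩
    · intro q hq _
      have : (1 : ℝ) ≤ q := by exact_mod_cast (by have := (Finset.mem_Ioc.1 hq).1; omega : 1 ≤ q)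
      apply div_nonneg zero_le_one (mul_nonneg (by linarith) (by linarith))
  rw [key M hM.1] at h1
  have : (0 : ℝ) ≤ 1 / (M : ℝ) := by positivity
  linarith

theorem sum_inv_sq_le (Y : ℕ) (hY : 1 ≤ Y) (Q : Finset ℕ) (hQ : ∀ q ∈ Q, Y < q) :
    ∑ q ∈ Q, (1 / (q : ℝ)) ^ 2 ≤ 1 / (Y : ℝ) := by
  refine le_trans (Finset.sum_le_sum ?_) (sum_inv_mul_pred_le Y hY Q hQ)
  intro q hq
  have : (2 : ℝ) ≤ q := by exact_mod_cast (by have := hQ q hq; omega : 2 ≤ q)
  rw [div_pow, one_pow]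
  apply one_div_le_one_div_of_le (by nlinarith) (by nlinarith)

/-- Dyadic summation: windows `(2^(k-1), 2^k]`. -/
theorem dyadic_sum {ι : Type*} (S : Finset ι) (f : ι → ℕ) (g : ℕ → ℝ) (K : Finset ℕ)
    (hf : ∀ i ∈ S, ∃ k ∈ K, 2 ^ k < 2 * f i ∧ f i ≤ 2 ^ k)
    (hg : ∀ k ∈ K, ((S.filter (fun i => 2 ^ k < 2 * f i ∧ f i ≤ 2 ^ k)).card : ℝ) ≤ g k * 2 ^ k) :
    ∑ i ∈ S, (1 / (f i : ℝ)) ≤ 2 * ∑ k ∈ K, g k := by
  classical
  have h1 : ∑ i ∈ S, (1 / (f i : ℝ)) ≤
      ∑ i ∈ S, ∑ k ∈ K, if (2 ^ k < 2 * f i ∧ f i ≤ 2 ^ k) then (2 / (2 : ℝ) ^ k) else 0 := by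
    apply Finset.sum_le_sum
    intro i hi
    obtain ⟨k, hk, h⟩ := hf i hi
    refine le_trans ?_ (Finset.single_le_sum (f := fun k =>
      if (2 ^ k < 2 * f i ∧ f i ≤ 2 ^ k) then (2 / (2 : ℝ) ^ k) else 0)
      (fun k _ => by positivity) hk)
    simp only [h, and_self, if_true]
    have h2 : ((2 : ℝ) ^ k) < 2 * f i := by exact_mod_cast h.1
    have h3 : (0 : ℝ) < (2 : ℝ) ^ k := by positivity
    rw [div_le_div_iff₀ (by linarith) h3]
    linarith
  refine h1.trans ?_
  rw [Finset.sum_comm, Finset.mul_sum]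
  apply Finset.sum_le_sum
  intro k hk
  rw [← Finset.sum_filter, Finset.sum_const, nsmul_eq_mul]
  have h3 : (0 : ℝ) < (2 : ℝ) ^ k := by positivity
  have := hg k hk
  calc _ ≤ g k * 2 ^ k * (2 / (2 : ℝ) ^ k) := by gcongr
    _ = 2 * g k := by field_simp

/-- Dyadic summation in the form used everywhere: if every window ending at `X` (with
`X` a real number between `2` and `exp (exp (u+1))`) holds at most `eta X / log X` members then the
sum of reciprocals is at most `10 eta (u + 2)`. -/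
theorem dyadic_log {ι : Type*} (S : Finset ι) (f : ι → ℕ) (eta : ℝ) (u : ℕ) (heta : 0 ≤ eta)
    (hf : ∀ i ∈ S, 2 ≤ f i ∧ lev (f i) ≤ u)
    (hg : ∀ X : ℝ, 2 ≤ X → Real.log X ≤ Real.exp (u + 1) →
      ((S.filter (fun i => X < 2 * (f i : ℝ) ∧ (f i : ℝ) ≤ X)).card : ℝ) ≤ eta * X / Real.log X) :
    ∑ i ∈ S, (1 / (f i : ℝ)) ≤ 10 * eta * (u + 2) := by
  classical
  have hl2 : (2 : ℝ) / 3 < Real.log 2 := by have := Real.log_two_gt_d9; linarith
  have hl2' : Real.log 2 < 1 := by have := Real.log_two_lt_d9; linarith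
  set k1 : ℕ := ⌊Real.exp (u + 1) / Real.log 2⌋₊ with hk1
  have he1 : (1 : ℝ) ≤ Real.exp u := Real.one_le_exp (Nat.cast_nonneg _)
  have he2 : Real.exp (u + 1) = Real.exp u * Real.exp 1 := Real.exp_add _ _
  have he3 : (2 : ℝ) ≤ Real.exp 1 := by have := Real.add_one_le_exp (1 : ℝ); linarith
  have h := dyadic_sum S f (fun k => eta / (k * Real.log 2)) (Finset.Icc 1 k1) ?_ ?_
  · refine h.trans ?_
    have h1 : ∑ k ∈ Finset.Icc 1 k1, eta / (k * Real.log 2) =
        eta / Real.log 2 * (harmonic k1 : ℝ) := by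
      rw [harmonic_eq_sum_Icc]
      push_cast
      rw [Finset.mul_sum]
      apply Finset.sum_congr rfl
      intro k _
      rw [mul_comm (k : ℝ), ← div_div, div_eq_mul_inv]
    have h2 := harmonic_le_one_add_log k1
    have h3 : Real.log k1 ≤ u + 2 := by
      rcases Nat.eq_zero_or_pos k1 with h0 | h0
      · rw [h0]; simp; positivity
      · rw [Real.log_le_iff_le_exp (by exact_mod_cast h0)]
        have h4 : (k1 : ℝ) ≤ Real.exp (u + 1) / Real.log 2 := Nat.floor_le (by positivity)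
        have h5 : Real.exp (u + 2) = Real.exp (u + 1) * Real.exp 1 := by
          rw [← Real.exp_add]; ring_nf
        have h6 : 0 < Real.exp (u + 1) := Real.exp_pos _
        refine h4.trans ?_
        rw [div_le_iff₀ (by linarith), h5]
        have : 1 ≤ Real.exp 1 * Real.log 2 := by nlinarith
        nlinarith
    have h4 : eta / Real.log 2 ≤ 2 * eta := by
      rw [div_le_iff₀ (by linarith)]; nlinarith
    have h5 : (0 : ℝ) ≤ u := Nat.cast_nonneg _
    have h6 : (0 : ℝ) ≤ harmonic k1 := by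
      rw [harmonic_eq_sum_Icc]; push_cast; positivity
    rw [h1]
    have h7 : eta / Real.log 2 * (harmonic k1 : ℝ) ≤ 2 * eta * (u + 3) :=
      mul_le_mul h4 (by linarith) h6 (by positivity)
    nlinarith
  · intro i hi
    obtain ⟨h2, h3⟩ := hf i hi
    have hk : 1 ≤ Nat.clog 2 (f i) := Nat.clog_pos (by norm_num) h2
    have h4 : 2 ^ (Nat.clog 2 (f i) - 1) < f i := Nat.pow_pred_clog_lt_self (by norm_num) h2
    have h5 : 2 ^ (Nat.clog 2 (f i)) < 2 * f i := by
      have : 2 ^ (Nat.clog 2 (f i)) = 2 * 2 ^ (Nat.clog 2 (f i) - 1) := by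
        rw [← pow_succ']; congr 1; omega
      omega
    refine ⟨Nat.clog 2 (f i), Finset.mem_Icc.2 ⟨hk, ?_⟩, h5, Nat.le_pow_clog (by norm_num) _⟩
    apply Nat.le_floor
    rw [le_div_iff₀ (by linarith)]
    have h6 : ((2 : ℝ) ^ (Nat.clog 2 (f i))) ≤ 2 * f i := by exact_mod_cast h5.le
    have h7 := Real.log_le_log (by positivity) h6
    have h8 : (0 : ℝ) < f i := by exact_mod_cast (by omega : 0 < f i)
    rw [Real.log_pow, Real.log_mul (by norm_num) h8.ne'] at h7
    have h9 := (lev_le_iff _ _).1 h3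
    nlinarith
  · intro k hk
    obtain ⟨hk1', hk2⟩ := Finset.mem_Icc.1 hk
    have hk0 : (1 : ℝ) ≤ k := by exact_mod_cast hk1'
    have h1 : (2 : ℝ) ≤ (2 : ℝ) ^ k := by
      calc (2 : ℝ) = 2 ^ 1 := by norm_num
        _ ≤ 2 ^ k := pow_le_pow_right₀ (by norm_num) hk1'
    have h2 : (k : ℝ) ≤ Real.exp (u + 1) / Real.log 2 :=
      le_trans (Nat.cast_le.2 hk2) (Nat.floor_le (by positivity))
    rw [le_div_iff₀ (by linarith)] at h2
    have h3 := hg ((2 : ℝ) ^ k) h1 (by rw [Real.log_pow]; exact h2)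
    rw [Real.log_pow] at h3
    have h4 : S.filter (fun i => 2 ^ k < 2 * f i ∧ f i ≤ 2 ^ k) =
        S.filter (fun i => (2 : ℝ) ^ k < 2 * (f i : ℝ) ∧ (f i : ℝ) ≤ (2 : ℝ) ^ k) := by
      apply Finset.filter_congr
      intro i _
      constructor
      · rintro ⟨a, b⟩; exact ⟨by exact_mod_cast a, by exact_mod_cast b⟩
      · rintro ⟨a, b⟩; exact ⟨by exact_mod_cast a, by exact_mod_cast b⟩
    rw [h4]
    refine h3.trans (le_of_eq ?_)
    ring

/-- Sum over lists of length at most `J` with entries in `U`. -/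
theorem sum_lists_le {α : Type*} (f : α → ℝ) (U : Finset α) (hf : ∀ x ∈ U, 0 ≤ f x) (J : ℕ)
    (S : Finset (List α)) (hS : ∀ L ∈ S, L.length ≤ J ∧ ∀ x ∈ L, x ∈ U) :
    ∑ L ∈ S, (L.map f).prod ≤ (1 + ∑ x ∈ U, f x) ^ J := by
  classical
  have hR : 0 ≤ ∑ x ∈ U, f x := Finset.sum_nonneg hf
  have hpos : ∀ L : List α, (∀ x ∈ L, x ∈ U) → 0 ≤ (L.map f).prod := by
    intro L hL
    apply List.prod_nonneg
    intro y hy
    obtain ⟨q, hq, rfl⟩ := List.mem_map.1 hy
    exact hf q (hL q hq)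
  induction J generalizing S with
  | zero =>
    have : S ⊆ {[]} := by
      intro L hL
      have := (hS L hL).1
      simp only [Finset.mem_singleton]
      exact List.length_eq_zero_iff.1 (by omega)
    refine (Finset.sum_le_sum_of_subset_of_nonneg this ?_).trans (by simp)
    intro L hL _
    rw [Finset.mem_singleton.1 hL]; simp
  | succ J ih =>
    let T : Finset (List α) := S.image List.tail
    have hT : ∀ L ∈ T, L.length ≤ J ∧ ∀ x ∈ L, x ∈ U := by
      intro L hL
      obtain ⟨L', hL', rfl⟩ := Finset.mem_image.1 hL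
      refine ⟨?_, fun x hx => (hS L' hL').2 x (List.mem_of_mem_tail hx)⟩
      have := (hS L' hL').1
      rw [List.length_tail]; omega
    have h1 : S ⊆ insert [] ((U ×ˢ T).image (fun p => p.1 :: p.2)) := by
      intro L hL
      cases L with
      | nil => simp
      | cons x L =>
        refine Finset.mem_insert_of_mem (Finset.mem_image.2 ⟨(x, L), ?_, rfl⟩)
        exact Finset.mem_product.2 ⟨(hS _ hL).2 x (by simp), Finset.mem_image.2 ⟨_, hL, rfl⟩⟩
    have h2 : ∑ L ∈ S, (L.map f).prod ≤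
        ∑ L ∈ insert [] ((U ×ˢ T).image (fun p => p.1 :: p.2)), (L.map f).prod := by
      apply Finset.sum_le_sum_of_subset_of_nonneg h1
      intro L hL _
      rcases Finset.mem_insert.1 hL with rfl | hL
      · simp
      · obtain ⟨⟨x, L'⟩, hp, rfl⟩ := Finset.mem_image.1 hL
        obtain ⟨hx, hL'⟩ := Finset.mem_product.1 hp
        apply hpos
        intro y hy
        rcases List.mem_cons.1 hy with rfl | hy
        · exact hx
        · exact (hT _ hL').2 y hy
    rw [Finset.sum_insert (by simp), Finset.sum_image (by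
      rintro ⟨x, L⟩ _ ⟨y, L'⟩ _ h
      simpa using h), Finset.sum_product] at h2
    simp only [List.map_nil, List.prod_nil, List.map_cons, List.prod_cons] at h2
    rw [← Finset.sum_mul_sum] at h2
    have h3 := ih T hT
    have h4 : 1 ≤ (1 + ∑ x ∈ U, f x) ^ J := one_le_pow₀ (by linarith)
    have h5 := mul_le_mul_of_nonneg_left h3 hR
    rw [pow_succ]
    nlinarith

/-- Inclusion-exclusion lower bound for a sum over distinct values. -/
theorem sum_image_ge {ι : Type*} [DecidableEq ι] (D : Finset ι) (v : ι → ℕ) (g : ℕ → ℝ)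
    (hg : ∀ n, 0 ≤ g n) :
    ∑ d ∈ D, g (v d) - ∑ e ∈ (D ×ˢ D).filter (fun e => e.1 ≠ e.2 ∧ v e.1 = v e.2), g (v e.1)
      ≤ ∑ n ∈ D.image v, g n := by
  classical
  have h1 : ∑ e ∈ (D ×ˢ D).filter (fun e => e.1 ≠ e.2 ∧ v e.1 = v e.2), g (v e.1) =
      ∑ d ∈ D, ((D.filter (fun d' => d ≠ d' ∧ v d = v d')).card : ℝ) * g (v d) := by
    rw [Finset.sum_filter, Finset.sum_product]
    apply Finset.sum_congr rfl
    intro d _
    dsimp only
    rw [← Finset.sum_filter, Finset.sum_const, nsmul_eq_mul]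
  rw [h1, ← Finset.sum_sub_distrib]
  let D0 := D.filter (fun d => ∀ d' ∈ D, v d = v d' → d = d')
  have h2 : ∑ d ∈ D, (g (v d) - ((D.filter (fun d' => d ≠ d' ∧ v d = v d')).card : ℝ) * g (v d))
      ≤ ∑ d ∈ D0, g (v d) := by
    rw [Finset.sum_filter]
    apply Finset.sum_le_sum
    intro d _
    have hgd := hg (v d)
    split_ifs with h
    · have : (0 : ℝ) ≤ ((D.filter (fun d' => d ≠ d' ∧ v d = v d')).card : ℝ) * g (v d) := by
        positivity
      linarith
    · push Not at h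
      obtain ⟨d', hd', h3, h4⟩ := h
      have : 1 ≤ (D.filter (fun d' => d ≠ d' ∧ v d = v d')).card :=
        Finset.card_pos.2 ⟨d', Finset.mem_filter.2 ⟨hd', h4, h3⟩⟩
      have : (1 : ℝ) ≤ (D.filter (fun d' => d ≠ d' ∧ v d = v d')).card := by exact_mod_cast this
      nlinarith
  refine h2.trans ?_
  rw [← Finset.sum_image (s := D0) (g := v) (f := g)]
  · apply Finset.sum_le_sum_of_subset_of_nonneg
    · exact Finset.image_subset_image (Finset.filter_subset _ _)
    · intro n _ _; exact hg n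
  · intro d hd d' hd' h
    exact (Finset.mem_filter.1 hd).2 d' (Finset.mem_filter.1 hd').1 h

/-- Union bound through a covering by products: if every `m` in `S` is `u a * b` for some
`a` in `A`, `b` in `B`, then the reciprocal sum is at most the product of the reciprocal sums. -/
theorem sum_inv_le_of_cover {α : Type*} (S : Finset ℕ) (A : Finset α) (B : Finset ℕ) (u : α → ℕ)
    (h : ∀ m ∈ S, ∃ a ∈ A, ∃ b ∈ B, m = u a * b) :
    ∑ m ∈ S, (1 / (m : ℝ)) ≤ (∑ a ∈ A, (1 / (u a : ℝ))) * ∑ b ∈ B, (1 / (b : ℝ)) := by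
  classical
  have h1 : S ⊆ (A ×ˢ B).image (fun p => u p.1 * p.2) := by
    intro m hm
    obtain ⟨a, ha, b, hb, rfl⟩ := h m hm
    exact Finset.mem_image.2 ⟨(a, b), Finset.mem_product.2 ⟨ha, hb⟩, rfl⟩
  refine (Finset.sum_le_sum_of_subset_of_nonneg h1 (fun _ _ _ => by positivity)).trans ?_
  refine (Finset.sum_image_le_of_nonneg (fun _ _ => by positivity)).trans (le_of_eq ?_)
  rw [Finset.sum_product, Finset.sum_mul_sum]
  apply Finset.sum_congr rfl
  intro a _
  apply Finset.sum_congr rfl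
  intro b _
  push_cast
  rw [one_div_mul_one_div]

end Vale.Agent.P031
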