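import Vale.Agent.P031.Coll3

/-!
# Task Coll: collisions are rare

Proof of `coll_count` (N = w^40, K = 100 w^4, sigma = log log X). Let `((p,L,r),(p',L',r'))` be in
the family, `v` the common value. `|L|, |L'| <= K` by `good_length`, `Om v <= N^2` by `good_Om`,
so `log p >= log X / (2 N^2)`, and the largest prime `P` of `p - 1` has
`log P >= log X / (100 N^3)` (`Om_le_of_normal`); all primes of `val L' r'` have level at most
`sigma + 2 - Delta`, so `P` divides `p' - 1`. Write `p - 1 = A P`, `p' - 1 = A' P`, `A /= A'`,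
`u = A * val L r = A' * val L' r'`. For fixed `(A, L, r, A', L', r')`, `sieve3` with `Z = X / u`
leaves at most `N^10 (X/u) (100 N^3 / log X)^3` values of `P`. Remove the common primes
`Com = L.filter (in L')` (sum of `1 / val Com 1` at most `(1 + 2 (21 N + C))^K` by `sum_lists_le`),
leaving `L1`, `L1'` disjoint; fix `Lam = L1.map lev`, `Lam' = L1'.map lev` (at most `(21N+2)^(2K)`
choices) and apply `core` with left boxes `A, r, p_i - 1` and right boxes `A', r', q_j - 1`, caps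
`lev X` (any natural number `c` with `log X <= exp c <= e * log X`), `t0`, `lev p_i`;
`log (Y i) = exp (lev p_i) / (200 N)`, `b i = 200 N^12 exp (- lev p_i)` (`sieve2r`, `sieve3r`),
`e i = exp (cap i + C)` (`smooth_sum_le`), and
`log F = TT 1 Lam' + sum Lam' + (K+1) E log (K+1) + (t0 + E) + 10 t0 log (K+2)`
(`weight_bounds` for `p' :: L1'`; the box `r'` multiplies the weight of a prime of level `<= t0`
by `1 + 1/(|L1'|+1)`), with `TT 1 Lam' <= TT 1 (levs L') <= sigma + 2 - Delta` (`TT_sublist`).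
Total: `X exp (-3 sigma) exp (sigma) exp (sigma - Delta) exp (O(w^37))`.
`coll_sum` follows by `dyadic_log`.
-/

open Finset Real Filter

namespace Vale.Agent.P031

theorem TT_le_Tt (t0 : ℝ) (L : List ℝ) : TT 1 L ≤ Tt t0 L := le_max_left _ _

theorem head_le_Tt (t0 : ℝ) (L : List ℝ) : L.headD t0 ≤ Tt t0 L := le_max_right _ _

theorem length_le_of_TT {w : ℕ} (hw : 1 ≤ w) {L : List ℕ} {r : ℕ} (h : Good w L r)
    (hT : TT 1 (levs L) ≤ 30 * (w : ℝ) ^ 40) : L.length ≤ 100 * w ^ 4 := by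
  have h1 := good_length h
  have h2 : (0 : ℝ) < (w : ℝ) ^ 36 := by positivity
  have h3 : (L.length : ℝ) * (w : ℝ) ^ 36 ≤ 100 * (w : ℝ) ^ 4 * (w : ℝ) ^ 36 := by
    have : (w : ℝ) ^ 40 = (w : ℝ) ^ 4 * (w : ℝ) ^ 36 := by ring
    have : (0 : ℝ) ≤ (w : ℝ) ^ 40 := by positivity
    linarith
  exact_mod_cast le_of_mul_le_mul_right h3 h2

theorem coll_elem : ∀ᶠ w : ℕ in atTop, ∀ (X : ℝ) (c : ℕ), c ≤ 21 * w ^ 40 →
    1 ≤ Real.log X → Real.log X ≤ Real.exp c → Real.exp c ≤ 3 * Real.log X →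
    ∀ d : (ℕ × List ℕ × ℕ) × (ℕ × List ℕ × ℕ), Coll w d →
    Real.sqrt X < val (d.1.1 :: d.1.2.1) d.1.2.2 → (val (d.1.1 :: d.1.2.1) d.1.2.2 : ℝ) ≤ X →
    ∃ P : ℕ, P.Prime ∧ P ∣ d.1.1 - 1 ∧ P ∣ d.2.1 - 1 ∧
      Real.log X ≤ 400 * (w : ℝ) ^ 120 * Real.log P ∧
      KeyOk w c (((d.1.1 - 1) / P, d.1.2), ((d.2.1 - 1) / P, d.2.2)) := by
  filter_upwards [good_Om, lev_le_of_Om, ev_poly_le_exp 4000 120, ev_ge 1] with w hOm hlev hw1 hw2
  rintro X c hc hX1 hX2 hX3 ⟨⟨p, L, r⟩, ⟨p', L', r'⟩⟩ ⟨g1, g2, g3, g4, g5, g6⟩ hv1 hv2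
  dsimp only at *
  have hw : 1 ≤ w := by exact_mod_cast hw2
  have hN : 1 ≤ w ^ 40 := Nat.one_le_pow _ _ hw
  have hv0 := val_pos g1
  have hv0' : (0 : ℝ) < val (p :: L) r := by exact_mod_cast hv0
  have hX0 : 0 < X := by linarith
  have hlv : lev (val (p :: L) r) ≤ c :=
    (lev_le_iff _ _).2 ((Real.log_le_log hv0' hv2).trans hX2)
  have hp := g1.2.1 p (by simp)
  have hp' := g2.2.1 p' (by simp)
  have hq : ∀ q ∈ p :: L, lev q ≤ c + 1 := by
    intro q hq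
    have h1 := Nat.le_of_dvd hv0 (sub_one_dvd_val hq r)
    have h2 := lev_succ_le (val (p :: L) r)
    have h3 : lev q ≤ lev (val (p :: L) r + 1) := lev_mono (by omega)
    omega
  have hq' : lev p' ≤ c + 1 := by
    have h1 := Nat.le_of_dvd (g3 ▸ hv0) (sub_one_dvd_val (List.mem_cons_self (a := p') (l := L')) r')
    have h2 := lev_succ_le (val (p :: L) r)
    have h3 : lev p' ≤ lev (val (p :: L) r + 1) := lev_mono (by omega)
    omega
  have hcR : (c : ℝ) ≤ 21 * (w : ℝ) ^ 40 := by exact_mod_cast hc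
  have hNR : (1 : ℝ) ≤ (w : ℝ) ^ 40 := one_le_pow₀ hw2
  have h38 : (0 : ℝ) ≤ (w : ℝ) ^ 38 := by positivity
  have hpR : (lev p : ℝ) ≤ c + 1 := by exact_mod_cast hq p (by simp)
  have hpR' : (lev p' : ℝ) ≤ c + 1 := by exact_mod_cast hq'
  have t1 := TT_le_Tt ((w : ℝ) ^ 36) (levs L)
  have t2 := TT_le_Tt ((w : ℝ) ^ 36) (levs L')
  have l1 := length_le_of_TT hw (good_tail g1) (by linarith)
  have l2 := length_le_of_TT hw (good_tail g2) (by linarith)
  have hO := hOm (p :: L) r g1 (by rw [List.length_cons]; omega)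
    (fun q h => by have := hq q h; omega)
  have hlog := (hlev _ (lev p) (Nat.cast_nonneg _) hv0 hO (good_primes g1)).1
  obtain ⟨P, hP, hPd, hPl⟩ := big_prime_factor hw hp.1 hp.2.2 (by omega)
    (by have := hq p (by simp); omega)
  have hlX : Real.log X ≤ 400 * (w : ℝ) ^ 120 * Real.log P := by
    have h1 := Real.log_lt_log (Real.sqrt_pos.2 hX0) hv1
    rw [Real.log_sqrt hX0.le] at h1
    rw [div_le_iff₀ (by positivity)] at hPl
    have h2 := mul_le_mul_of_nonneg_left hPl (show (0 : ℝ) ≤ (w : ℝ) ^ 80 by positivity)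
    have h3 : (w : ℝ) ^ 80 * (Real.log P * (200 * (w : ℝ) ^ 40)) =
        200 * (w : ℝ) ^ 120 * Real.log P := by ring
    linarith
  have hPd' : P ∣ p' - 1 := by
    have h1 : P ∣ (p' - 1) * val L' r' := by
      rw [← val_cons, ← g3, val_cons]; exact hPd.mul_right _
    rcases (Nat.Prime.dvd_mul hP).1 h1 with h | h
    · exact h
    · exfalso
      have h2 := good_primes (good_tail g2) P hP h
      have h3 := head_le_Tt ((w : ℝ) ^ 36) (levs L')
      have h4 : Real.log P ≤ Real.exp (c + 1 - (w : ℝ) ^ 38) :=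
        (log_le_exp_lev P).trans (Real.exp_le_exp.2 (by linarith))
      have h5 : (w : ℝ) ≤ (w : ℝ) ^ 38 := le_self_pow₀ hw2 (by norm_num)
      have h6 : Real.exp (c + 1 - (w : ℝ) ^ 38) * Real.exp w ≤ Real.exp c * Real.exp 1 := by
        rw [← Real.exp_add, ← Real.exp_add]; exact Real.exp_le_exp.2 (by linarith)
      have h7 : Real.exp 1 ≤ 3 := by have := Real.exp_one_lt_d9; linarith
      have h8 : Real.exp c * Real.exp 1 ≤ 3 * Real.log X * 3 :=
        mul_le_mul hX3 h7 (Real.exp_pos _).le (by linarith)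
      have h9 : 0 ≤ Real.log P := Real.log_natCast_nonneg P
      have h10 : Real.log P * (4000 * (w : ℝ) ^ 120) ≤ Real.exp (c + 1 - (w : ℝ) ^ 38) * Real.exp w :=
        mul_le_mul h4 hw1 (by positivity) (Real.exp_pos _).le
      linarith
  have a1 := hp.1.two_le
  have a2 := hp'.1.two_le
  have e1 : (p - 1) / P * P = p - 1 := Nat.div_mul_cancel hPd
  have e2 : (p' - 1) / P * P = p' - 1 := Nat.div_mul_cancel hPd'
  have e3 : (p - 1) / P * val L r * P = val (p :: L) r := by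
    rw [val_cons, mul_right_comm, e1]
  have e4 : (p' - 1) / P * val L' r' * P = val (p' :: L') r' := by
    rw [val_cons, mul_right_comm, e2]
  refine ⟨P, hP, hPd, hPd', hlX, good_tail g1, ⟨p', g2, Nat.div_dvd_of_dvd hPd'⟩,
    Nat.div_pos (Nat.le_of_dvd (by omega) hPd) hP.pos,
    Nat.div_pos (Nat.le_of_dvd (by omega) hPd') hP.pos, ?_, ?_, l1, l2, ?_⟩
  · apply Nat.eq_of_mul_eq_mul_right hP.pos
    exact e3.trans (g3.trans e4.symm)
  · refine (lev_mono ?_).trans hlv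
    have := hP.two_le
    show (p - 1) / P * val L r + 1 ≤ _
    generalize (p - 1) / P * val L r = u at e3
    rw [← e3] at hv0 ⊢
    have : 0 < u := Nat.pos_of_mul_pos_right hv0
    nlinarith
  · show TT 1 (levs L') + _ ≤ _
    linarith

theorem coll_count : ∀ᶠ w : ℕ in atTop, ∀ X : ℝ, 1 ≤ X →
    Real.log X ≤ Real.exp (20 * (w : ℝ) ^ 40) →
    ∀ D : Finset ((ℕ × List ℕ × ℕ) × (ℕ × List ℕ × ℕ)),
    (∀ d ∈ D, Coll w d ∧ Real.sqrt X < val (d.1.1 :: d.1.2.1) d.1.2.2 ∧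
      (val (d.1.1 :: d.1.2.1) d.1.2.2 : ℝ) ≤ X) →
    (D.card : ℝ) ≤ Real.exp (-(w : ℝ) ^ 3) * X / Real.log X := by
  classical
  filter_upwards [coll_elem, key_bound, ev_pow40 sieve3, ev_poly_le_exp 800 240,
    ev_poly_le_exp (9 * 400 ^ 3) 760, ev_ge 20] with w hel hkey hs3 hw1 hw2 hw3
  intro X hX1 hX2 D hD
  have hX0 : 0 < X := by linarith
  have hl0 : 0 ≤ Real.log X := Real.log_nonneg hX1
  rcases D.eq_empty_or_nonempty with rfl | ⟨d0, hd0⟩
  · simp only [Finset.card_empty, Nat.cast_zero]; positivity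
  have hwR : (1 : ℝ) ≤ w := by linarith
  have hw : 1 ≤ w := by exact_mod_cast hwR
  push_cast at hs3
  have hbig : 400 * (w : ℝ) ^ 240 ≤ Real.log X := by
    obtain ⟨⟨g1, -⟩, -, h2⟩ := hD d0 hd0
    have hp := g1.2.1 d0.1.1 (by simp)
    have h3 := Nat.le_of_dvd (val_pos g1)
      (sub_one_dvd_val (List.mem_cons_self (a := d0.1.1) (l := d0.1.2.1)) d0.1.2.2)
    have h4 := lev_succ_le (val (d0.1.1 :: d0.1.2.1) d0.1.2.2)
    have h5 : lev d0.1.1 ≤ lev (val (d0.1.1 :: d0.1.2.1) d0.1.2.2 + 1) := lev_mono (by omega)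
    have h6 : w + 1 ≤ w ^ 36 := by
      have : w ^ 1 < w ^ 36 := Nat.pow_lt_pow_right (by exact_mod_cast (by linarith : (1 : ℝ) < w))
        (by norm_num)
      simpa using this
    have h7 := exp_lt_log_of_lt_lev (n := val (d0.1.1 :: d0.1.2.1) d0.1.2.2) (t := w) (by omega)
    have h8 := Real.log_le_log (by exact_mod_cast val_pos g1) h2
    have : (0 : ℝ) ≤ (w : ℝ) ^ 240 := by positivity
    linarith
  have h240 : (1 : ℝ) ≤ (w : ℝ) ^ 240 := one_le_pow₀ hwR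
  have hl1 : 1 ≤ Real.log X := by linarith
  have hll : 0 ≤ Real.log (Real.log X) := Real.log_nonneg hl1
  obtain ⟨c, hc⟩ : ∃ c, c = ⌈Real.log (Real.log X)⌉₊ := ⟨_, rfl⟩
  have hc1 : Real.log X ≤ Real.exp c := by
    rw [← Real.log_le_iff_le_exp (by linarith), hc]; exact Nat.le_ceil _
  have hc2 : Real.exp c ≤ 3 * Real.log X := by
    have h1 : (c : ℝ) ≤ Real.log (Real.log X) + 1 := by rw [hc]; exact (Nat.ceil_lt_add_one hll).le
    have h2 := Real.exp_le_exp.2 h1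
    rw [Real.exp_add, Real.exp_log (by linarith)] at h2
    have h7 : Real.exp 1 ≤ 3 := by have := Real.exp_one_lt_d9; linarith
    nlinarith
  have hc3 : c ≤ 21 * w ^ 40 := by
    rw [hc, Nat.ceil_le, Real.log_le_iff_le_exp (by linarith)]
    refine hX2.trans (Real.exp_le_exp.2 ?_)
    push_cast
    have : (0 : ℝ) ≤ (w : ℝ) ^ 40 := by positivity
    linarith
  have hex : ∀ d : (ℕ × List ℕ × ℕ) × (ℕ × List ℕ × ℕ), ∃ P : ℕ, d ∈ D →
      P.Prime ∧ P ∣ d.1.1 - 1 ∧ P ∣ d.2.1 - 1 ∧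
      Real.log X ≤ 400 * (w : ℝ) ^ 120 * Real.log P ∧
      KeyOk w c (((d.1.1 - 1) / P, d.1.2), ((d.2.1 - 1) / P, d.2.2)) := by
    intro d
    by_cases hd : d ∈ D
    · obtain ⟨P, hP⟩ := hel X c hc3 hl1 hc1 hc2 d (hD d hd).1 (hD d hd).2.1 (hD d hd).2.2
      exact ⟨P, fun _ => hP⟩
    · exact ⟨0, fun h => absurd h hd⟩
  choose P hP using hex
  let key : (ℕ × List ℕ × ℕ) × (ℕ × List ℕ × ℕ) → (ℕ × List ℕ × ℕ) × (ℕ × List ℕ × ℕ) :=
    fun d => (((d.1.1 - 1) / P d, d.1.2), ((d.2.1 - 1) / P d, d.2.2))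
  have e1 : ∀ d ∈ D, (key d).1.1 * P d + 1 = d.1.1 := by
    intro d hd
    have := ((hD d hd).1.1.2.1 d.1.1 (by simp)).1.two_le
    simp only [key]
    rw [Nat.div_mul_cancel (hP d hd).2.1]; omega
  have e2 : ∀ d ∈ D, (key d).2.1 * P d + 1 = d.2.1 := by
    intro d hd
    have := ((hD d hd).1.2.1.2.1 d.2.1 (by simp)).1.two_le
    simp only [key]
    rw [Nat.div_mul_cancel (hP d hd).2.2.1]; omega
  have e3 : ∀ d ∈ D, (key d).1.1 * val (key d).1.2.1 (key d).1.2.2 * P d =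
      val (d.1.1 :: d.1.2.1) d.1.2.2 := by
    intro d hd
    simp only [key]
    rw [val_cons, mul_right_comm, Nat.div_mul_cancel (hP d hd).2.1]
  obtain ⟨G, hG⟩ : ∃ G : ℝ, G = ((w : ℝ) ^ 40) ^ 10 * X * (400 * (w : ℝ) ^ 120 / Real.log X) ^ 3 :=
    ⟨_, rfl⟩
  have hG0 : 0 ≤ G := by rw [hG]; positivity
  have hfib : ∀ z ∈ D.image key, ((D.filter (fun d => key d = z)).card : ℝ) ≤
      G * (1 / ((z.1.1 * val z.1.2.1 z.1.2.2 : ℕ) : ℝ)) := by
    intro z hz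
    obtain ⟨d1, hd1, hz1⟩ := Finset.mem_image.1 hz
    have hk : KeyOk w c z := hz1 ▸ (hP d1 hd1).2.2.2.2
    have hu : 0 < z.1.1 * val z.1.2.1 z.1.2.2 := Nat.mul_pos hk.2.2.1 (val_pos hk.1)
    obtain ⟨u, hu'⟩ : ∃ u, u = z.1.1 * val z.1.2.1 z.1.2.2 := ⟨_, rfl⟩
    have huR : (1 : ℝ) ≤ u := by rw [hu']; exact_mod_cast hu
    have hPZ : ∀ d ∈ D, key d = z → (P d : ℝ) ≤ X / u := by
      intro d hd h
      rw [le_div_iff₀ (by linarith)]
      refine le_trans (le_of_eq ?_) (hD d hd).2.2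
      rw [← e3 d hd, h, ← hu']; push_cast; ring
    have hP1 : (1 : ℝ) ≤ P d1 := by exact_mod_cast (hP d1 hd1).1.pos
    have hZ1 := hPZ d1 hd1 hz1
    have hZ2 : Real.log X ≤ 400 * (w : ℝ) ^ 120 * Real.log (X / u) :=
      (hP d1 hd1).2.2.2.1.trans (mul_le_mul_of_nonneg_left
        (Real.log_le_log (by linarith) hZ1) (by positivity))
    have hZ3 : ((w : ℝ) ^ 40) ^ 3 ≤ Real.log (X / u) := by
      have h1 : 400 * (w : ℝ) ^ 120 * ((w : ℝ) ^ 40) ^ 3 ≤ 400 * (w : ℝ) ^ 120 * Real.log (X / u) := by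
        refine le_trans (le_of_eq (by ring)) (hbig.trans hZ2)
      exact le_of_mul_le_mul_left h1 (by positivity)
    have h30 : Real.log X ≤ Real.exp (30 * (w : ℝ) ^ 40) := by
      refine hX2.trans (Real.exp_le_exp.2 ?_)
      have : (0 : ℝ) ≤ (w : ℝ) ^ 40 := by positivity
      linarith
    have hZX : X / u ≤ X := div_le_self hX0.le huR
    have huX : (u : ℝ) ≤ X := by
      rw [le_div_iff₀ (by linarith)] at hZ1; nlinarith
    have hA : ∀ A : ℕ, 0 < A → A ∣ u → Real.log A ≤ Real.exp (30 * (w : ℝ) ^ 40) := by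
      intro A h1 h2
      have h3 : (A : ℝ) ≤ u := by exact_mod_cast Nat.le_of_dvd (hu' ▸ hu) h2
      exact (Real.log_le_log (by exact_mod_cast h1) (h3.trans huX)).trans h30
    have hne : z.1.1 ≠ z.2.1 := by
      intro h
      apply (hD d1 hd1).1.2.2.2.1
      rw [← e1 d1 hd1, ← e2 d1 hd1, hz1, h]
    have hs := hs3 (X / u) z.1.1 z.2.1 (by linarith) hZ3
      ((Real.log_le_log (by linarith) hZX).trans h30) hk.2.2.1
      (hA _ hk.2.2.1 (hu' ▸ dvd_mul_right _ _)) hk.2.2.2.1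
      (hA _ hk.2.2.2.1 (by rw [hu', hk.2.2.2.2.1]; exact dvd_mul_right _ _)) hne
    have hcard : (D.filter (fun d => key d = z)).card ≤ ((Finset.Icc 1 ⌊X / u⌋₊).filter
        (fun P => P.Prime ∧ (z.1.1 * P + 1).Prime ∧ (z.2.1 * P + 1).Prime)).card := by
      apply Finset.card_le_card_of_injOn P
      · intro d hd
        obtain ⟨h1, h2⟩ := Finset.mem_filter.1 hd
        refine Finset.mem_filter.2 ⟨Finset.mem_Icc.2 ⟨(hP d h1).1.pos, Nat.le_floor (hPZ d h1 h2)⟩,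
          (hP d h1).1, ?_, ?_⟩
        · rw [← h2, e1 d h1]; exact ((hD d h1).1.1.2.1 d.1.1 (by simp)).1
        · rw [← h2, e2 d h1]; exact ((hD d h1).1.2.1.2.1 d.2.1 (by simp)).1
      · intro d hd d' hd' h
        obtain ⟨h1, h2⟩ := Finset.mem_filter.1 hd
        obtain ⟨h1', h2'⟩ := Finset.mem_filter.1 hd'
        have h3 : key d = key d' := h2.trans h2'.symm
        refine Prod.ext (Prod.ext ?_ (congrArg (fun z => z.1.2) h3))
          (Prod.ext ?_ (congrArg (fun z => z.2.2) h3))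
        · rw [← e1 d h1, ← e1 d' h1', h3, h]
        · rw [← e2 d h1, ← e2 d' h1', h3, h]
    refine (Nat.cast_le.2 hcard).trans (hs.trans ?_)
    rw [← hu', hG]
    have hZ0 : 0 < Real.log (X / u) := lt_of_lt_of_le (by positivity) hZ3
    have h1 : 1 / Real.log (X / u) ≤ 400 * (w : ℝ) ^ 120 / Real.log X := by
      rw [div_le_div_iff₀ hZ0 (by linarith)]; linarith
    have h2 := pow_le_pow_left₀ (by positivity) h1 3
    calc _ = ((w : ℝ) ^ 40) ^ 10 * (X / u) * (1 / Real.log (X / u)) ^ 3 := by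
          rw [div_pow, one_pow, mul_one_div]
      _ ≤ ((w : ℝ) ^ 40) ^ 10 * (X / u) * (400 * (w : ℝ) ^ 120 / Real.log X) ^ 3 :=
          mul_le_mul_of_nonneg_left h2 (by positivity)
      _ = _ := by ring
  rw [Finset.card_eq_sum_card_image key D]
  push_cast
  refine (Finset.sum_le_sum hfib).trans ?_
  rw [← Finset.mul_sum]
  refine (mul_le_mul_of_nonneg_left (hkey c hc3 _ (by
    intro z hz
    obtain ⟨d1, hd1, hz1⟩ := Finset.mem_image.1 hz
    exact hz1 ▸ (hP d1 hd1).2.2.2.2)) hG0).trans ?_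
  have h1 : Real.exp (2 * c - (w : ℝ) ^ 38 + 14 * (w : ℝ) ^ 37) ≤
      (3 * Real.log X) ^ 2 * Real.exp (-(w : ℝ) ^ 38 + 14 * (w : ℝ) ^ 37) := by
    have : Real.exp (2 * c - (w : ℝ) ^ 38 + 14 * (w : ℝ) ^ 37) =
        Real.exp c ^ 2 * Real.exp (-(w : ℝ) ^ 38 + 14 * (w : ℝ) ^ 37) := by
      rw [← Real.exp_nat_mul, ← Real.exp_add]; congr 1; push_cast; ring
    rw [this]
    exact mul_le_mul_of_nonneg_right (pow_le_pow_left₀ (Real.exp_pos _).le hc2 2)
      (Real.exp_pos _).le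
  refine (mul_le_mul_of_nonneg_left h1 hG0).trans ?_
  have h2 : G * ((3 * Real.log X) ^ 2 * Real.exp (-(w : ℝ) ^ 38 + 14 * (w : ℝ) ^ 37)) =
      (9 * 400 ^ 3 * (w : ℝ) ^ 760 * Real.exp (-(w : ℝ) ^ 38 + 14 * (w : ℝ) ^ 37)) * X /
        Real.log X := by
    rw [hG]
    have : Real.log X ≠ 0 := by linarith
    field_simp
    ring
  rw [h2]
  apply div_le_div_of_nonneg_right _ hl0
  apply mul_le_mul_of_nonneg_right _ hX0.le
  refine (mul_le_mul_of_nonneg_right hw2 (Real.exp_pos _).le).trans ?_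
  rw [← Real.exp_add]
  apply Real.exp_le_exp.2
  have m1 : (w : ℝ) ^ 3 ≤ (w : ℝ) ^ 37 := pow_le_pow_right₀ hwR (by norm_num)
  have m2 : (w : ℝ) ≤ (w : ℝ) ^ 37 := le_self_pow₀ hwR (by norm_num)
  have m5 : (w : ℝ) ^ 38 = (w : ℝ) ^ 37 * w := pow_succ _ _
  have m6 : (w : ℝ) ^ 37 * 20 ≤ (w : ℝ) ^ 37 * w :=
    mul_le_mul_of_nonneg_left hw3 (by positivity)
  have m7 : (0 : ℝ) ≤ (w : ℝ) ^ 37 := by positivity
  linarith

theorem four_le_val {w p : ℕ} (hw : 2 ≤ w) {L : List ℕ} {r : ℕ} (h : Good w (p :: L) r) :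
    4 ≤ val (p :: L) r := by
  have hp := h.2.1 p (by simp)
  have h3 := Nat.le_of_dvd (val_pos h) (sub_one_dvd_val (List.mem_cons_self (a := p) (l := L)) r)
  by_contra hc
  have h4 : lev p ≤ lev 4 := lev_mono (by omega)
  have h5 : lev 4 ≤ 1 := by
    rw [lev_le_iff]
    have : Real.log ((4 : ℕ) : ℝ) = 2 * Real.log 2 := by
      rw [show ((4 : ℕ) : ℝ) = 2 ^ 2 by norm_num, Real.log_pow]; norm_num
    have h1 := Real.log_two_lt_d9
    have h2 := Real.add_one_le_exp ((1 : ℕ) : ℝ)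
    push_cast at h2 this ⊢
    linarith
  have h6 : 1 ≤ w ^ 36 := Nat.one_le_pow _ _ (by omega)
  omega

theorem dyadic_final : ∀ᶠ w : ℕ in atTop, ∀ u : ℕ, u ≤ 20 * w ^ 40 →
    10 * Real.exp (-(w : ℝ) ^ 3) * (u + 2) ≤ Real.exp (-(w : ℝ) ^ 2) := by
  filter_upwards [ev_poly_le_exp 220 40, ev_ge 2] with w h1 h2
  intro u hu
  have h3 : (u : ℝ) ≤ 20 * (w : ℝ) ^ 40 := by exact_mod_cast hu
  have h4 : (1 : ℝ) ≤ (w : ℝ) ^ 40 := one_le_pow₀ (by linarith)
  have h5 : 10 * ((u : ℝ) + 2) ≤ Real.exp w := by linarith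
  have h6 := mul_le_mul_of_nonneg_left h5 (Real.exp_pos (-(w : ℝ) ^ 3)).le
  rw [← Real.exp_add] at h6
  have h7 : Real.exp (-(w : ℝ) ^ 3 + w) ≤ Real.exp (-(w : ℝ) ^ 2) :=
    Real.exp_le_exp.2 (by nlinarith)
  linarith

theorem coll_sum : ∀ᶠ w : ℕ in atTop,
    ∀ D : Finset ((ℕ × List ℕ × ℕ) × (ℕ × List ℕ × ℕ)),
    (∀ d ∈ D, Coll w d ∧ lev (val (d.1.1 :: d.1.2.1) d.1.2.2) ≤ 19 * w ^ 40) →
    ∑ d ∈ D, (1 / (val (d.1.1 :: d.1.2.1) d.1.2.2 : ℝ)) ≤ Real.exp (-(w : ℝ) ^ 2) := by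
  classical
  filter_upwards [coll_count, dyadic_final, eventually_ge_atTop 2] with w h1 h2 hw
  intro D hD
  refine le_trans ?_ (h2 (19 * w ^ 40) (by omega))
  apply dyadic_log D (fun d => val (d.1.1 :: d.1.2.1) d.1.2.2) _ _ (Real.exp_pos _).le
  · intro d hd
    exact ⟨by have := four_le_val hw (hD d hd).1.1; omega, (hD d hd).2⟩
  · intro X hX hX2
    apply h1 X (by linarith)
    · refine hX2.trans (Real.exp_le_exp.2 ?_)
      have : (1 : ℝ) ≤ (w : ℝ) ^ 40 := one_le_pow₀ (by exact_mod_cast (by omega : 1 ≤ w))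
      push_cast; linarith
    · intro d hd
      obtain ⟨a, b, c⟩ := Finset.mem_filter.1 hd
      refine ⟨(hD d a).1, ?_, c⟩
      have h4 : (4 : ℝ) ≤ val (d.1.1 :: d.1.2.1) d.1.2.2 := by
        exact_mod_cast four_le_val hw (hD d a).1.1
      rw [Real.sqrt_lt' (by linarith)]
      nlinarith

end Vale.Agent.P031
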