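import Vale.Agent.P031.Basic

/-!
# Task Core: abstract collision lemma

`fact_count`: induction on `u` (peel a prime `q` dividing `u`; it divides some `y j` with
`lev q <= cap' j`; map `y` to `(j, update y j (y j / q))`).

`core`: induction on `R.card + C.card` (generalizing `R`, `C`, `S`). If both are empty use
`fact_count` on the fibres of `xy -> xy.1` and `Finset.prod_univ_sum` style bound with `he`.
Otherwise let `P` be the largest prime dividing some `x i` (`i` in `R`) or some `y j` (`j` in `C`);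
pick boxes `i`, `j` with `P | x i`, `P | y j`, at least one of `i in R`, `j in C`. By maximality,
`Y i <= P` if `i in R` and `Y' j <= P` if `j in C`. For fixed `(i, j)` send `(x, y)` to
`(P, update x i (x i / P), update y j (y j / P))`, which is injective; the reduced pair satisfies
the hypotheses for `R.erase i`, `C.erase j`, and for a fixed reduced pair the sum of `1/P` is
bounded by `h1`, `h1'` or `h2`.
-/

open Finset Real Filter

namespace Vale.Agent.P031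

theorem prod_update_div {κ : Type} [Fintype κ] [DecidableEq κ] (y : κ → ℕ) (j : κ) {q : ℕ}
    (h : q ∣ y j) : q * ∏ l, Function.update y j (y j / q) l = ∏ l, y l := by
  rw [Finset.prod_update_of_mem (Finset.mem_univ j), ← mul_assoc, Nat.mul_div_cancel' h,
    ← Finset.mul_prod_erase Finset.univ y (Finset.mem_univ j), Finset.sdiff_singleton_eq_erase]

theorem update_div_inj {κ : Type} [DecidableEq κ] {y y' : κ → ℕ} {j : κ} {q : ℕ}
    (h : q ∣ y j) (h' : q ∣ y' j)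
    (e : Function.update y j (y j / q) = Function.update y' j (y' j / q)) : y = y' := by
  funext l
  have := congrFun e l
  by_cases hl : l = j
  · subst hl
    simp only [Function.update_self] at this
    rw [← Nat.mul_div_cancel' h, ← Nat.mul_div_cancel' h', this]
  · simpa [Function.update_of_ne hl] using this

theorem update_div_dvd {κ : Type} [DecidableEq κ] (y : κ → ℕ) (j : κ) {q : ℕ}
    (h : q ∣ y j) (l : κ) : Function.update y j (y j / q) l ∣ y l := by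
  by_cases hl : l = j
  · subst hl
    simp only [Function.update_self]
    exact Nat.div_dvd_of_dvd h
  · simp [Function.update_of_ne hl]

/-- Summation over the fibres of a reduction map. -/
theorem fiber_bound {α β : Type*} [DecidableEq β] (S : Finset α) (red : α → β) (P : α → ℕ)
    (f : α → ℝ) (g : β → ℝ) (B : ℝ) (hg : ∀ z, 0 ≤ g z)
    (hf : ∀ a ∈ S, f a = 1 / (P a : ℝ) * g (red a))
    (hinj : ∀ a ∈ S, ∀ a' ∈ S, red a = red a' → P a = P a' → a = a')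
    (hB : ∀ z ∈ S.image red, ∀ Ps : Finset ℕ, (∀ p ∈ Ps, ∃ a ∈ S, red a = z ∧ P a = p) →
      ∑ p ∈ Ps, (1 / (p : ℝ)) ≤ B) :
    ∑ a ∈ S, f a ≤ B * ∑ z ∈ S.image red, g z := by
  rw [← Finset.sum_fiberwise_of_maps_to (g := red) (t := S.image red)
    (fun a ha => Finset.mem_image_of_mem red ha), Finset.mul_sum]
  apply Finset.sum_le_sum
  intro z hz
  have h1 : ∑ a ∈ S.filter (fun a => red a = z), f a =
      (∑ a ∈ S.filter (fun a => red a = z), 1 / (P a : ℝ)) * g z := by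
    rw [Finset.sum_mul]
    apply Finset.sum_congr rfl
    intro a ha
    obtain ⟨ha1, ha2⟩ := Finset.mem_filter.1 ha
    rw [hf a ha1, ha2]
  rw [h1]
  apply mul_le_mul_of_nonneg_right _ (hg z)
  rw [← Finset.sum_image (s := S.filter (fun a => red a = z)) (g := P)
    (f := fun p : ℕ => 1 / (p : ℝ))]
  · apply hB z hz
    intro p hp
    obtain ⟨a, ha, rfl⟩ := Finset.mem_image.1 hp
    obtain ⟨ha1, ha2⟩ := Finset.mem_filter.1 ha
    exact ⟨a, ha1, ha2, rfl⟩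
  · intro a ha a' ha' h
    obtain ⟨ha1, ha2⟩ := Finset.mem_filter.1 ha
    obtain ⟨ha1', ha2'⟩ := Finset.mem_filter.1 ha'
    exact hinj a ha1 a' ha1' (ha2.trans ha2'.symm) h

theorem fact_count {κ : Type} [Fintype κ] [DecidableEq κ] (cap' : κ → ℕ) (u : ℕ)
    (T : Finset (κ → ℕ))
    (hT : ∀ y ∈ T, ∏ j, y j = u ∧ ∀ j, 0 < y j ∧ ∀ q : ℕ, q.Prime → q ∣ y j → lev q ≤ cap' j) :
    (T.card : ℝ) ≤ wt (fun q => ((Finset.univ.filter (fun j => lev q ≤ cap' j)).card : ℝ)) u := by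
  induction u using Nat.strong_induction_on generalizing T with
  | _ u ih =>
  rcases T.eq_empty_or_nonempty with rfl | ⟨y0, hy0⟩
  · simpa using wt_nonneg (fun q => Nat.cast_nonneg _) u
  have hu0 : u ≠ 0 := by
    rw [← (hT y0 hy0).1]
    exact Finset.prod_ne_zero_iff.2 (fun j _ => ((hT y0 hy0).2 j).1.ne')
  by_cases hu1 : u = 1
  · subst hu1
    rw [wt_one]
    have : T.card ≤ 1 := by
      apply Finset.card_le_one.2
      intro a ha b hb
      funext j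
      rw [(Finset.prod_eq_one_iff.1 (hT a ha).1) j (Finset.mem_univ j),
        (Finset.prod_eq_one_iff.1 (hT b hb).1) j (Finset.mem_univ j)]
    exact_mod_cast this
  obtain ⟨q, hq, u', rfl⟩ := Nat.exists_prime_and_dvd hu1
  have hu' : u' ≠ 0 := right_ne_zero_of_mul hu0
  have hlt : u' < q * u' := by
    have := hq.two_le
    have := Nat.pos_of_ne_zero hu'
    nlinarith
  rw [wt_mul _ hq.ne_zero hu', wt_prime _ hq]
  have h1 : T ⊆ (Finset.univ.filter (fun j => lev q ≤ cap' j)).biUnion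
      (fun j => T.filter (fun y => q ∣ y j)) := by
    intro y hy
    have : q ∣ ∏ j, y j := by rw [(hT y hy).1]; exact dvd_mul_right _ _
    obtain ⟨j, _, hj⟩ := (Prime.dvd_finsetProd_iff hq.prime _).1 this
    exact Finset.mem_biUnion.2 ⟨j, Finset.mem_filter.2 ⟨Finset.mem_univ _,
      ((hT y hy).2 j).2 q hq hj⟩, Finset.mem_filter.2 ⟨hy, hj⟩⟩
  have h2 := (Finset.card_le_card h1).trans Finset.card_biUnion_le
  have h3 : (T.card : ℝ) ≤ ∑ j ∈ Finset.univ.filter (fun j => lev q ≤ cap' j),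
      ((T.filter (fun y => q ∣ y j)).card : ℝ) := by exact_mod_cast h2
  refine h3.trans ?_
  rw [← nsmul_eq_mul, ← Finset.sum_const]
  apply Finset.sum_le_sum
  intro j _
  rw [← Finset.card_image_of_injOn (f := fun y => Function.update y j (y j / q))]
  · apply ih u' hlt
    intro y' hy'
    obtain ⟨y, hy, rfl⟩ := Finset.mem_image.1 hy'
    obtain ⟨hy1, hy2⟩ := Finset.mem_filter.1 hy
    refine ⟨?_, fun l => ?_⟩
    · have := prod_update_div y j hy2
      rw [(hT y hy1).1] at this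
      exact Nat.eq_of_mul_eq_mul_left hq.pos this
    · have hd := update_div_dvd y j hy2 l
      exact ⟨Nat.pos_of_dvd_of_pos hd ((hT y hy1).2 l).1,
        fun p hp hpd => ((hT y hy1).2 l).2 p hp (hpd.trans hd)⟩
  · intro y hy y' hy' e
    exact update_div_inj (Finset.mem_filter.1 hy).2 (Finset.mem_filter.1 hy').2 e

/-- The hypotheses on one configuration. -/
def CoreOk {ι κ : Type} [Fintype ι] [Fintype κ]
    (cap : ι → ℕ) (cap' : κ → ℕ) (Y : ι → ℝ) (Y' : κ → ℝ) (M : ℕ) (F : ℝ)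
    (R : Finset ι) (C : Finset κ) (xy : (ι → ℕ) × (κ → ℕ)) : Prop :=
  (∏ i, xy.1 i = ∏ j, xy.2 j) ∧
      (∀ i, 0 < xy.1 i ∧ xy.1 i ≤ M ∧ ∀ q : ℕ, q.Prime → q ∣ xy.1 i → lev q ≤ cap i) ∧
      (∀ j, 0 < xy.2 j ∧ xy.2 j ≤ M ∧ ∀ q : ℕ, q.Prime → q ∣ xy.2 j → lev q ≤ cap' j) ∧
      (∀ i ∈ R, (xy.1 i + 1).Prime ∧ ∃ P : ℕ, P.Prime ∧ P ∣ xy.1 i ∧ Y i ≤ P) ∧
      (∀ j ∈ C, (xy.2 j + 1).Prime ∧ ∃ P : ℕ, P.Prime ∧ P ∣ xy.2 j ∧ Y' j ≤ P) ∧
      (∀ i ∈ R, ∀ j ∈ C, xy.1 i ≠ xy.2 j) ∧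
      wt (fun q => ((Finset.univ.filter (fun j => lev q ≤ cap' j)).card : ℝ)) (∏ j, xy.2 j) ≤ F

section

variable {ι κ : Type} [Fintype ι] [Fintype κ] [DecidableEq ι] [DecidableEq κ]
    {cap : ι → ℕ} {cap' : κ → ℕ} {Y : ι → ℝ} {Y' : κ → ℝ} {M : ℕ} {F : ℝ}

theorem core_base (e : ι → ℝ) (hF : 0 ≤ F)
    (he : ∀ (i : ι) (A : Finset ℕ),
      (∀ a ∈ A, 0 < a ∧ ∀ q : ℕ, q.Prime → q ∣ a → lev q ≤ cap i) →
      ∑ a ∈ A, (1 / (a : ℝ)) ≤ e i) (R : Finset ι) (C : Finset κ)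
    (S : Finset ((ι → ℕ) × (κ → ℕ))) (hS : ∀ xy ∈ S, CoreOk cap cap' Y Y' M F R C xy) :
    ∑ xy ∈ S, (1 / ((∏ i, xy.1 i : ℕ) : ℝ)) ≤ F * ∏ i, e i := by
  rw [← Finset.sum_fiberwise_of_maps_to (g := Prod.fst) (t := S.image Prod.fst)
    (fun a ha => Finset.mem_image_of_mem _ ha)]
  have h1 : ∀ x ∈ S.image Prod.fst,
      ∑ xy ∈ S.filter (fun xy => xy.1 = x), (1 / ((∏ i, xy.1 i : ℕ) : ℝ)) ≤
        F * ∏ i, (1 / (x i : ℝ)) := by
    intro x hx
    obtain ⟨xy0, hxy0, rfl⟩ := Finset.mem_image.1 hx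
    have h2 : ∑ xy ∈ S.filter (fun xy => xy.1 = xy0.1), (1 / ((∏ i, xy.1 i : ℕ) : ℝ)) =
        ((S.filter (fun xy => xy.1 = xy0.1)).card : ℝ) * ∏ i, (1 / (xy0.1 i : ℝ)) := by
      rw [← nsmul_eq_mul, ← Finset.sum_const]
      apply Finset.sum_congr rfl
      intro xy hxy
      rw [(Finset.mem_filter.1 hxy).2]
      push_cast
      rw [Finset.prod_div_distrib, Finset.prod_const_one]
    rw [h2]
    apply mul_le_mul_of_nonneg_right _ (Finset.prod_nonneg (fun i _ => by positivity))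
    rw [← Finset.card_image_of_injOn (f := Prod.snd)]
    · refine (fact_count cap' (∏ j, xy0.2 j) _ ?_).trans (hS xy0 hxy0).2.2.2.2.2.2
      intro y hy
      obtain ⟨xy, hxy, rfl⟩ := Finset.mem_image.1 hy
      obtain ⟨h3, h4⟩ := Finset.mem_filter.1 hxy
      refine ⟨?_, fun j => ⟨((hS xy h3).2.2.1 j).1, ((hS xy h3).2.2.1 j).2.2⟩⟩
      rw [← (hS xy h3).1, ← (hS xy0 hxy0).1, h4]
    · intro a ha b hb h
      exact Prod.ext ((Finset.mem_filter.1 ha).2.trans (Finset.mem_filter.1 hb).2.symm) h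
  refine (Finset.sum_le_sum h1).trans ?_
  rw [← Finset.mul_sum]
  apply mul_le_mul_of_nonneg_left _ hF
  have h2 : S.image Prod.fst ⊆ Fintype.piFinset (fun i => S.image (fun xy => xy.1 i)) := by
    intro x hx
    obtain ⟨xy0, hxy0, rfl⟩ := Finset.mem_image.1 hx
    exact Fintype.mem_piFinset.2 (fun i => Finset.mem_image.2 ⟨xy0, hxy0, rfl⟩)
  refine (Finset.sum_le_sum_of_subset_of_nonneg h2
    (fun x _ _ => Finset.prod_nonneg (fun i _ => by positivity))).trans ?_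
  rw [← Finset.prod_univ_sum (fun i => S.image (fun xy => xy.1 i)) (fun _ (a : ℕ) => 1 / (a : ℝ))]
  apply Finset.prod_le_prod
  · intro i _; exact Finset.sum_nonneg (fun a _ => by positivity)
  · intro i _
    apply he i
    intro a ha
    obtain ⟨xy, hxy, rfl⟩ := Finset.mem_image.1 ha
    exact ⟨((hS xy hxy).2.1 i).1, ((hS xy hxy).2.1 i).2.2⟩

omit [DecidableEq ι] [DecidableEq κ] in
theorem core_pick {R : Finset ι} {C : Finset κ} (hne : R.Nonempty ∨ C.Nonempty)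
    {xy : (ι → ℕ) × (κ → ℕ)} (h : CoreOk cap cap' Y Y' M F R C xy) :
    ∃ i j, (i ∈ R ∨ j ∈ C) ∧ ∃ P : ℕ, P.Prime ∧ P ∣ xy.1 i ∧ P ∣ xy.2 j ∧
      (i ∈ R → Y i ≤ P) ∧ (j ∈ C → Y' j ≤ P) := by
  obtain ⟨h1, h2, h3, h4, h5, -, -⟩ := h
  let T : Finset ℕ := R.biUnion (fun i => (xy.1 i).primeFactors) ∪
    C.biUnion (fun j => (xy.2 j).primeFactors)
  have hR : ∀ i ∈ R, ∃ P ∈ T, Y i ≤ (P : ℕ) := by
    intro i hi
    obtain ⟨P, a, b, c⟩ := (h4 i hi).2
    exact ⟨P, Finset.mem_union_left _ (Finset.mem_biUnion.2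
      ⟨i, hi, Nat.mem_primeFactors.2 ⟨a, b, (h2 i).1.ne'⟩⟩), c⟩
  have hC : ∀ j ∈ C, ∃ P ∈ T, Y' j ≤ (P : ℕ) := by
    intro j hj
    obtain ⟨P, a, b, c⟩ := (h5 j hj).2
    exact ⟨P, Finset.mem_union_right _ (Finset.mem_biUnion.2
      ⟨j, hj, Nat.mem_primeFactors.2 ⟨a, b, (h3 j).1.ne'⟩⟩), c⟩
  have hT : T.Nonempty := by
    rcases hne with ⟨i, hi⟩ | ⟨j, hj⟩
    · obtain ⟨P, hP, _⟩ := hR i hi; exact ⟨P, hP⟩
    · obtain ⟨P, hP, _⟩ := hC j hj; exact ⟨P, hP⟩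
  have hR' : ∀ i, i ∈ R → Y i ≤ (T.max' hT : ℕ) := by
    intro i hi
    obtain ⟨P, hP, c⟩ := hR i hi
    exact c.trans (by exact_mod_cast T.le_max' P hP)
  have hC' : ∀ j, j ∈ C → Y' j ≤ (T.max' hT : ℕ) := by
    intro j hj
    obtain ⟨P, hP, c⟩ := hC j hj
    exact c.trans (by exact_mod_cast T.le_max' P hP)
  rcases Finset.mem_union.1 (T.max'_mem hT) with hm | hm
  · obtain ⟨i, hi, hm⟩ := Finset.mem_biUnion.1 hm
    have hp := Nat.prime_of_mem_primeFactors hm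
    have hd := Nat.dvd_of_mem_primeFactors hm
    have : T.max' hT ∣ ∏ j, xy.2 j := h1 ▸ hd.trans (Finset.dvd_prod_of_mem _ (Finset.mem_univ i))
    obtain ⟨j, _, hj⟩ := (Prime.dvd_finsetProd_iff hp.prime _).1 this
    exact ⟨i, j, Or.inl hi, _, hp, hd, hj, hR' i, hC' j⟩
  · obtain ⟨j, hj, hm⟩ := Finset.mem_biUnion.1 hm
    have hp := Nat.prime_of_mem_primeFactors hm
    have hd := Nat.dvd_of_mem_primeFactors hm
    have : T.max' hT ∣ ∏ i, xy.1 i := h1 ▸ hd.trans (Finset.dvd_prod_of_mem _ (Finset.mem_univ j))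
    obtain ⟨i, _, hi⟩ := (Prime.dvd_finsetProd_iff hp.prime _).1 this
    exact ⟨i, j, Or.inr hj, _, hp, hi, hd, hR' i, hC' j⟩

theorem core_red {R : Finset ι} {C : Finset κ}
    {xy : (ι → ℕ) × (κ → ℕ)} (h : CoreOk cap cap' Y Y' M F R C xy) {i : ι} {j : κ} {P : ℕ}
    (hP : P.Prime) (hi : P ∣ xy.1 i) (hj : P ∣ xy.2 j) :
    CoreOk cap cap' Y Y' M F (R.erase i) (C.erase j)
      (Function.update xy.1 i (xy.1 i / P), Function.update xy.2 j (xy.2 j / P)) := by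
  obtain ⟨h1, h2, h3, h4, h5, h6, h7⟩ := h
  have e1 := prod_update_div xy.1 i hi
  have e2 := prod_update_div xy.2 j hj
  refine ⟨?_, ?_, ?_, ?_, ?_, ?_, ?_⟩
  · apply Nat.eq_of_mul_eq_mul_left hP.pos
    exact e1.trans (h1.trans e2.symm)
  · intro l
    have hd := update_div_dvd xy.1 i hi l
    exact ⟨Nat.pos_of_dvd_of_pos hd (h2 l).1, (Nat.le_of_dvd (h2 l).1 hd).trans (h2 l).2.1,
      fun q hq hqd => (h2 l).2.2 q hq (hqd.trans hd)⟩
  · intro l
    have hd := update_div_dvd xy.2 j hj l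
    exact ⟨Nat.pos_of_dvd_of_pos hd (h3 l).1, (Nat.le_of_dvd (h3 l).1 hd).trans (h3 l).2.1,
      fun q hq hqd => (h3 l).2.2 q hq (hqd.trans hd)⟩
  · intro l hl
    obtain ⟨a, b⟩ := Finset.mem_erase.1 hl
    simpa [Function.update_of_ne a] using h4 l b
  · intro l hl
    obtain ⟨a, b⟩ := Finset.mem_erase.1 hl
    simpa [Function.update_of_ne a] using h5 l b
  · intro l hl l' hl'
    obtain ⟨a, b⟩ := Finset.mem_erase.1 hl
    obtain ⟨a', b'⟩ := Finset.mem_erase.1 hl'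
    simpa [Function.update_of_ne a, Function.update_of_ne a'] using h6 l b l' b'
  · refine le_trans ?_ h7
    have hne : ∏ l, xy.2 l ≠ 0 := Finset.prod_ne_zero_iff.2 (fun l _ => (h3 l).1.ne')
    rw [← e2] at hne ⊢
    rw [wt_mul _ hP.ne_zero (right_ne_zero_of_mul hne), wt_prime _ hP]
    apply le_mul_of_one_le_left (wt_nonneg (fun q => Nat.cast_nonneg _) _)
    have : 0 < (Finset.univ.filter (fun l => lev P ≤ cap' l)).card :=
      Finset.card_pos.2 ⟨j, Finset.mem_filter.2 ⟨Finset.mem_univ _, (h3 j).2.2 P hP hj⟩⟩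
    exact_mod_cast this

end

theorem core {ι κ : Type} [Fintype ι] [Fintype κ] [DecidableEq ι] [DecidableEq κ]
    (cap : ι → ℕ) (cap' : κ → ℕ) (Y b e : ι → ℝ) (Y' b' : κ → ℝ) (M : ℕ) (F : ℝ)
    (hF : 0 ≤ F) (hb : ∀ i, 0 ≤ b i) (hb' : ∀ j, 0 ≤ b' j)
    (he : ∀ (i : ι) (A : Finset ℕ),
      (∀ a ∈ A, 0 < a ∧ ∀ q : ℕ, q.Prime → q ∣ a → lev q ≤ cap i) →
      ∑ a ∈ A, (1 / (a : ℝ)) ≤ e i)
    (R : Finset ι) (C : Finset κ)
    (h1 : ∀ i ∈ R, ∀ (A : ℕ) (Ps : Finset ℕ), 1 ≤ A → A ≤ M →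
      (∀ P ∈ Ps, P.Prime ∧ (A * P + 1).Prime ∧ Y i ≤ P ∧ P ≤ M) →
      ∑ P ∈ Ps, (1 / (P : ℝ)) ≤ b i)
    (h1' : ∀ j ∈ C, ∀ (A : ℕ) (Ps : Finset ℕ), 1 ≤ A → A ≤ M →
      (∀ P ∈ Ps, P.Prime ∧ (A * P + 1).Prime ∧ Y' j ≤ P ∧ P ≤ M) →
      ∑ P ∈ Ps, (1 / (P : ℝ)) ≤ b' j)
    (h2 : ∀ i ∈ R, ∀ j ∈ C, ∀ (A A' : ℕ) (Ps : Finset ℕ), 1 ≤ A → A ≤ M → 1 ≤ A' → A' ≤ M →
      A ≠ A' →
      (∀ P ∈ Ps, P.Prime ∧ (A * P + 1).Prime ∧ (A' * P + 1).Prime ∧ Y i ≤ P ∧ Y' j ≤ P ∧ P ≤ M) →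
      ∑ P ∈ Ps, (1 / (P : ℝ)) ≤ b i * b' j)
    (S : Finset ((ι → ℕ) × (κ → ℕ)))
    (hS : ∀ xy ∈ S, (∏ i, xy.1 i = ∏ j, xy.2 j) ∧
      (∀ i, 0 < xy.1 i ∧ xy.1 i ≤ M ∧ ∀ q : ℕ, q.Prime → q ∣ xy.1 i → lev q ≤ cap i) ∧
      (∀ j, 0 < xy.2 j ∧ xy.2 j ≤ M ∧ ∀ q : ℕ, q.Prime → q ∣ xy.2 j → lev q ≤ cap' j) ∧
      (∀ i ∈ R, (xy.1 i + 1).Prime ∧ ∃ P : ℕ, P.Prime ∧ P ∣ xy.1 i ∧ Y i ≤ P) ∧
      (∀ j ∈ C, (xy.2 j + 1).Prime ∧ ∃ P : ℕ, P.Prime ∧ P ∣ xy.2 j ∧ Y' j ≤ P) ∧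
      (∀ i ∈ R, ∀ j ∈ C, xy.1 i ≠ xy.2 j) ∧
      wt (fun q => ((Finset.univ.filter (fun j => lev q ≤ cap' j)).card : ℝ)) (∏ j, xy.2 j) ≤ F) :
    ∑ xy ∈ S, (1 / ((∏ i, xy.1 i : ℕ) : ℝ))
      ≤ ((Fintype.card ι : ℝ) * Fintype.card κ) ^ (R.card + C.card) *
        (∏ i ∈ R, b i) * (∏ j ∈ C, b' j) * F * ∏ i, e i := by
  classical
  change ∀ xy ∈ S, CoreOk cap cap' Y Y' M F R C xy at hS
  have he0 : 0 ≤ ∏ i, e i := Finset.prod_nonneg (fun i _ => by simpa using he i ∅ (by simp))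
  obtain ⟨n, hn⟩ : ∃ n, R.card + C.card = n := ⟨_, rfl⟩
  induction n using Nat.strong_induction_on generalizing R C S with
  | _ n ih =>
  by_cases hne : R.Nonempty ∨ C.Nonempty
  swap
  · push Not at hne
    obtain ⟨rfl, rfl⟩ := hne
    simpa using core_base e hF he ∅ ∅ S hS
  let Q : ι × κ → ((ι → ℕ) × (κ → ℕ)) → Prop := fun ij xy =>
    (ij.1 ∈ R ∨ ij.2 ∈ C) ∧ ∃ P : ℕ, P.Prime ∧ P ∣ xy.1 ij.1 ∧ P ∣ xy.2 ij.2 ∧
      (ij.1 ∈ R → Y ij.1 ≤ P) ∧ (ij.2 ∈ C → Y' ij.2 ≤ P)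
  obtain ⟨K, hK⟩ : ∃ K : ℝ, K = (Fintype.card ι : ℝ) * Fintype.card κ := ⟨_, rfl⟩
  have hK0 : 0 ≤ K := by rw [hK]; positivity
  rw [← hK] at ih ⊢
  have hn1 : 1 ≤ n := by
    rcases hne with h | h
    · have := h.card_pos; omega
    · have := h.card_pos; omega
  obtain ⟨W, hW⟩ : ∃ W : ℝ, W = K ^ (n - 1) * (∏ i ∈ R, b i) * (∏ j ∈ C, b' j) * F * ∏ i, e i :=
    ⟨_, rfl⟩
  have hW0 : 0 ≤ W := by
    rw [hW]
    have := Finset.prod_nonneg (s := R) (fun i _ => hb i)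
    have := Finset.prod_nonneg (s := C) (fun i _ => hb' i)
    positivity
  have step : ∀ ij : ι × κ,
      ∑ xy ∈ S.filter (Q ij), (1 / ((∏ i, xy.1 i : ℕ) : ℝ)) ≤ W := by
    rintro ⟨i, j⟩
    rcases (S.filter (Q (i, j))).eq_empty_or_nonempty with h0 | ⟨xy0, hxy0⟩
    · rw [h0]; simpa using hW0
    have hij : i ∈ R ∨ j ∈ C := (Finset.mem_filter.1 hxy0).2.1
    have hK1 : 1 ≤ K := by
      have a : 0 < Fintype.card ι := Fintype.card_pos_iff.2 ⟨i⟩
      have b : 0 < Fintype.card κ := Fintype.card_pos_iff.2 ⟨j⟩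
      rw [hK]
      exact one_le_mul_of_one_le_of_one_le (by exact_mod_cast a) (by exact_mod_cast b)
    have hex : ∀ xy : (ι → ℕ) × (κ → ℕ), ∃ P : ℕ, xy ∈ S.filter (Q (i, j)) →
        P.Prime ∧ P ∣ xy.1 i ∧ P ∣ xy.2 j ∧ (i ∈ R → Y i ≤ P) ∧ (j ∈ C → Y' j ≤ P) := by
      intro xy
      by_cases h : xy ∈ S.filter (Q (i, j))
      · obtain ⟨P, hP⟩ := (Finset.mem_filter.1 h).2.2
        exact ⟨P, fun _ => hP⟩
      · exact ⟨0, fun h' => absurd h' h⟩
    choose P hP using hex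
    let red : (ι → ℕ) × (κ → ℕ) → (ι → ℕ) × (κ → ℕ) := fun xy =>
      (Function.update xy.1 i (xy.1 i / P xy), Function.update xy.2 j (xy.2 j / P xy))
    let B : ℝ := (if i ∈ R then b i else 1) * (if j ∈ C then b' j else 1)
    have hB0 : 0 ≤ B := by
      apply mul_nonneg
      · split_ifs; exacts [hb i, zero_le_one]
      · split_ifs; exacts [hb' j, zero_le_one]
    have hfb := fiber_bound (S.filter (Q (i, j))) red P
      (fun xy => 1 / ((∏ i, xy.1 i : ℕ) : ℝ)) (fun xy => 1 / ((∏ i, xy.1 i : ℕ) : ℝ)) B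
      (fun z => by positivity) ?_ ?_ ?_
    · refine hfb.trans ?_
      have hlt : (R.erase i).card + (C.erase j).card < n := by
        have a := Finset.card_erase_le (s := R) (a := i)
        have b := Finset.card_erase_le (s := C) (a := j)
        rcases hij with h | h
        · have := Finset.card_erase_lt_of_mem h; omega
        · have := Finset.card_erase_lt_of_mem h; omega
      have hih := ih _ hlt (R.erase i) (C.erase j)
        (fun l hl => h1 l (Finset.mem_of_mem_erase hl))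
        (fun l hl => h1' l (Finset.mem_of_mem_erase hl))
        (fun l hl l' hl' => h2 l (Finset.mem_of_mem_erase hl) l' (Finset.mem_of_mem_erase hl'))
        ((S.filter (Q (i, j))).image red) (by
          intro z hz
          obtain ⟨xy, hxy, rfl⟩ := Finset.mem_image.1 hz
          obtain ⟨a, b, c, -, -⟩ := hP xy hxy
          exact core_red (hS xy (Finset.mem_filter.1 hxy).1) a b c) rfl
      refine (mul_le_mul_of_nonneg_left hih hB0).trans ?_
      have e1 : (if i ∈ R then b i else 1) * ∏ l ∈ R.erase i, b l = ∏ l ∈ R, b l := by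
        split_ifs with h
        · exact Finset.mul_prod_erase R b h
        · rw [Finset.erase_eq_of_notMem h, one_mul]
      have e2 : (if j ∈ C then b' j else 1) * ∏ l ∈ C.erase j, b' l = ∏ l ∈ C, b' l := by
        split_ifs with h
        · exact Finset.mul_prod_erase C b' h
        · rw [Finset.erase_eq_of_notMem h, one_mul]
      have e3 : K ^ ((R.erase i).card + (C.erase j).card) ≤ K ^ (n - 1) :=
        pow_le_pow_right₀ hK1 (by omega)
      have e4 : 0 ≤ (∏ i ∈ R, b i) * (∏ j ∈ C, b' j) * F * ∏ i, e i := by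
        have := Finset.prod_nonneg (s := R) (fun i _ => hb i)
        have := Finset.prod_nonneg (s := C) (fun i _ => hb' i)
        positivity
      have e5 := mul_le_mul_of_nonneg_right e3 e4
      rw [hW]
      calc _ = K ^ ((R.erase i).card + (C.erase j).card) *
            (((if i ∈ R then b i else 1) * ∏ l ∈ R.erase i, b l) *
              ((if j ∈ C then b' j else 1) * ∏ l ∈ C.erase j, b' l) * F * ∏ i, e i) := by
            simp only [B]; ring
        _ ≤ _ := by rw [e1, e2]; linarith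
    · intro xy hxy
      obtain ⟨a, b, c, -, -⟩ := hP xy hxy
      simp only [red]
      rw [← prod_update_div xy.1 i b]
      push_cast
      rw [one_div_mul_one_div]
    · intro xy hxy xy' hxy' hr hp
      obtain ⟨a, b, c, -, -⟩ := hP xy hxy
      obtain ⟨a', b', c', -, -⟩ := hP xy' hxy'
      simp only [red, Prod.mk.injEq] at hr
      rw [← hp] at hr b' c'
      exact Prod.ext (update_div_inj b b' hr.1) (update_div_inj c c' hr.2)
    · intro z hz Ps hPs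
      have hz' : CoreOk cap cap' Y Y' M F (R.erase i) (C.erase j) z := by
        obtain ⟨xy, hxy, rfl⟩ := Finset.mem_image.1 hz
        obtain ⟨a, b, c, -, -⟩ := hP xy hxy
        exact core_red (hS xy (Finset.mem_filter.1 hxy).1) a b c
      have key : ∀ p ∈ Ps, p.Prime ∧ p ≤ M ∧ (i ∈ R → (z.1 i * p + 1).Prime ∧ Y i ≤ p) ∧
          (j ∈ C → (z.2 j * p + 1).Prime ∧ Y' j ≤ p) ∧ (i ∈ R → j ∈ C → z.1 i ≠ z.2 j) := by
        intro p hp
        obtain ⟨xy, hxy, rfl, rfl⟩ := hPs p hp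
        obtain ⟨a, b, c, d, d'⟩ := hP xy hxy
        obtain ⟨-, g2, g3, g4, g5, g6, -⟩ := hS xy (Finset.mem_filter.1 hxy).1
        have f1 : (red xy).1 i * P xy = xy.1 i := by
          simp only [red, Function.update_self]; exact Nat.div_mul_cancel b
        have f2 : (red xy).2 j * P xy = xy.2 j := by
          simp only [red, Function.update_self]; exact Nat.div_mul_cancel c
        refine ⟨a, (Nat.le_of_dvd (g2 i).1 b).trans (g2 i).2.1, fun hi => ⟨?_, d hi⟩,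
          fun hj => ⟨?_, d' hj⟩, fun hi hj h => g6 i hi j hj ?_⟩
        · rw [f1]; exact (g4 i hi).1
        · rw [f2]; exact (g5 j hj).1
        · rw [← f1, ← f2, h]
      rcases Ps.eq_empty_or_nonempty with rfl | ⟨p0, hp0⟩
      · simpa using hB0
      have z1 := hz'.2.1 i
      have z2 := hz'.2.2.1 j
      by_cases hi : i ∈ R <;> by_cases hj : j ∈ C
      · simp only [B, hi, hj, if_true]
        exact h2 i hi j hj _ _ Ps z1.1 z1.2.1 z2.1 z2.2.1 ((key p0 hp0).2.2.2.2 hi hj)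
          (fun p hp => ⟨(key p hp).1, ((key p hp).2.2.1 hi).1, ((key p hp).2.2.2.1 hj).1,
            ((key p hp).2.2.1 hi).2, ((key p hp).2.2.2.1 hj).2, (key p hp).2.1⟩)
      · simp only [B, hi, hj, if_true, if_false, mul_one]
        exact h1 i hi _ Ps z1.1 z1.2.1 (fun p hp => ⟨(key p hp).1, ((key p hp).2.2.1 hi).1,
          ((key p hp).2.2.1 hi).2, (key p hp).2.1⟩)
      · simp only [B, hi, hj, if_true, if_false, one_mul]
        exact h1' j hj _ Ps z2.1 z2.2.1 (fun p hp => ⟨(key p hp).1, ((key p hp).2.2.2.1 hj).1,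
          ((key p hp).2.2.2.1 hj).2, (key p hp).2.1⟩)
      · exact absurd hij (by simp [hi, hj])
  have hcover : ∑ xy ∈ S, (1 / ((∏ i, xy.1 i : ℕ) : ℝ)) ≤
      ∑ ij : ι × κ, ∑ xy ∈ S.filter (Q ij), (1 / ((∏ i, xy.1 i : ℕ) : ℝ)) := by
    simp only [Finset.sum_filter]
    rw [Finset.sum_comm]
    apply Finset.sum_le_sum
    intro xy hxy
    obtain ⟨i, j, hq⟩ := core_pick hne (hS xy hxy)
    refine le_trans ?_ (Finset.single_le_sum (f := fun ij : ι × κ =>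
      if Q ij xy then (1 / ((∏ i, xy.1 i : ℕ) : ℝ)) else 0) (fun ij _ => by positivity)
      (Finset.mem_univ (i, j)))
    have : Q (i, j) xy := hq
    simp only [this, if_true, le_refl]
  refine hcover.trans ((Finset.sum_le_sum (fun ij _ => step ij)).trans (le_of_eq ?_))
  rw [Finset.sum_const, Finset.card_univ, Fintype.card_prod, nsmul_eq_mul, hW, hn]
  push_cast
  rw [← hK]
  obtain ⟨m, rfl⟩ : ∃ m, n = m + 1 := ⟨n - 1, by omega⟩
  rw [Nat.add_sub_cancel, pow_succ]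
  ring

end Vale.Agent.P031
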