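import Vale.Agent.P031.Defs

/-!
# Task Tau: the coefficients `aa`, the functionals `TT`, `Tt`, `tau`
-/

open Finset Real Filter

namespace Vale.Agent.P031

theorem aa_one : aa 1 = 2 * Real.log 2 - 1 := by
  unfold aa; norm_num

theorem aa_two : aa 2 = 3 * Real.log 3 - 2 * Real.log 2 - 1 := by
  unfold aa; norm_num

theorem log_three_gt : (1.0986 : ℝ) < Real.log 3 := by
  have := Real.log_three_gt_d9; linarith

theorem aa_diff (i : ℕ) (hi : 1 ≤ i) :
    0 ≤ aa (i + 1) - aa i ∧ aa (i + 1) - aa i ≤ 2 / ((i : ℝ) + 1) := by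
  have h0 : (0 : ℝ) < i := by exact_mod_cast hi
  have e : aa (i + 1) - aa i = (i + 2) * Real.log ((i + 2) / (i + 1)) -
      i * Real.log ((i + 1) / i) := by
    rw [Real.log_div (by positivity) (by positivity), Real.log_div (by positivity) h0.ne']
    unfold aa; push_cast
    rw [show (i : ℝ) + 1 + 1 = i + 2 by ring]; ring
  have h1 : Real.log (((i : ℝ) + 1) / i) ≤ (i + 1) / i - 1 :=
    Real.log_le_sub_one_of_pos (by positivity)
  have h2 : Real.log (((i : ℝ) + 2) / (i + 1)) ≤ (i + 2) / (i + 1) - 1 :=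
    Real.log_le_sub_one_of_pos (by positivity)
  have h3 : 1 - (((i : ℝ) + 1) / i)⁻¹ ≤ Real.log (((i : ℝ) + 1) / i) :=
    Real.one_sub_inv_le_log_of_pos (by positivity)
  have h4 : 1 - (((i : ℝ) + 2) / (i + 1))⁻¹ ≤ Real.log (((i : ℝ) + 2) / (i + 1)) :=
    Real.one_sub_inv_le_log_of_pos (by positivity)
  have e1 : (i : ℝ) * ((i + 1) / i - 1) = 1 := by field_simp; ring
  have e2 : ((i : ℝ) + 2) * (1 - (((i : ℝ) + 2) / (i + 1))⁻¹) = 1 := by field_simp; ring
  have e3 : ((i : ℝ) + 2) * ((i + 2) / (i + 1) - 1) - i * (1 - (((i : ℝ) + 1) / i)⁻¹)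
      = 2 / (i + 1) := by field_simp; ring
  rw [e]
  constructor
  · have a1 := mul_le_mul_of_nonneg_left h1 h0.le
    have a2 := mul_le_mul_of_nonneg_left h4 (show (0 : ℝ) ≤ i + 2 by positivity)
    linarith
  · have a1 := mul_le_mul_of_nonneg_left h3 h0.le
    have a2 := mul_le_mul_of_nonneg_left h2 (show (0 : ℝ) ≤ i + 2 by positivity)
    linarith

theorem aa_mono {i : ℕ} (hi : 1 ≤ i) : aa i ≤ aa (i + 1) := by
  have := (aa_diff i hi).1
  linarith

theorem aa_ge {i : ℕ} (hi : 1 ≤ i) : 1 / 3 ≤ aa i := by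
  induction i, hi using Nat.le_induction with
  | base => rw [aa_one]; have := Real.log_two_gt_d9; linarith
  | succ i hi ih => exact ih.trans (aa_mono hi)

theorem aa_succ_le {i : ℕ} (hi : 1 ≤ i) : aa (i + 1) ≤ 3 * aa i := by
  rcases Nat.eq_or_lt_of_le hi with rfl | h2
  · rw [aa_one, show (1 + 1 : ℕ) = 2 from rfl, aa_two]
    have := Real.log_two_gt_d9
    have := Real.log_three_lt_d9
    linarith
  · have h1 := (aa_diff i hi).2
    have h3 := aa_ge hi
    have h4 : (2 : ℝ) ≤ i := by exact_mod_cast h2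
    have h5 : 2 / ((i : ℝ) + 1) ≤ 2 / 3 := by
      apply div_le_div_of_nonneg_left (by norm_num) (by norm_num) (by linarith)
    linarith

theorem aa_one_le : aa 1 ≤ 1 := by
  rw [aa_one]; have := Real.log_two_lt_d9; linarith

theorem aa_one_add_two : 5 / 4 ≤ aa 1 + aa 2 := by
  rw [aa_one, aa_two]; have := log_three_gt; linarith

theorem aa_pos {i : ℕ} (hi : 1 ≤ i) : 0 ≤ aa i := le_trans (by norm_num) (aa_ge hi)

@[simp] theorem TT_nil (i : ℕ) : TT i [] = 0 := rfl

@[simp] theorem TT_cons (i : ℕ) (x : ℝ) (L : List ℝ) :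
    TT i (x :: L) = aa i * x + TT (i + 1) L := rfl

theorem TT_nonneg {i : ℕ} (hi : 1 ≤ i) {L : List ℝ} (hL : ∀ x ∈ L, 0 ≤ x) : 0 ≤ TT i L := by
  induction L generalizing i with
  | nil => simp
  | cons x L ih =>
    rw [TT_cons]
    have h1 := ih (i := i + 1) (by omega) (fun y hy => hL y (by simp [hy]))
    have h2 := mul_nonneg (aa_pos hi) (hL x (by simp))
    linarith

theorem TT_le_succ {i : ℕ} (hi : 1 ≤ i) {L : List ℝ} (hL : ∀ x ∈ L, 0 ≤ x) :
    TT i L ≤ TT (i + 1) L := by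
  induction L generalizing i with
  | nil => simp
  | cons x L ih =>
    rw [TT_cons, TT_cons]
    have h1 := ih (i := i + 1) (by omega) (fun y hy => hL y (by simp [hy]))
    have h2 := mul_le_mul_of_nonneg_right (aa_mono hi) (hL x (by simp))
    linarith

theorem TT_succ_le {i : ℕ} (hi : 1 ≤ i) {L : List ℝ} (hL : ∀ x ∈ L, 0 ≤ x) :
    TT (i + 1) L ≤ 3 * TT i L := by
  induction L generalizing i with
  | nil => simp
  | cons x L ih =>
    rw [TT_cons, TT_cons]
    have h1 := ih (i := i + 1) (by omega) (fun y hy => hL y (by simp [hy]))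
    have h2 := mul_le_mul_of_nonneg_right (aa_succ_le hi) (hL x (by simp))
    linarith

theorem TT_sublist {i : ℕ} (hi : 1 ≤ i) {L L' : List ℝ} (h : L'.Sublist L)
    (hL : ∀ x ∈ L, 0 ≤ x) : TT i L' ≤ TT i L := by
  induction h generalizing i with
  | slnil => simp
  | @cons L1 L2 x _ ih =>
    have hL2 : ∀ y ∈ L2, 0 ≤ y := fun y hy => hL y (by simp [hy])
    rw [TT_cons]
    have h1 := ih hi hL2
    have h2 := TT_le_succ hi hL2
    have h3 := mul_nonneg (aa_pos hi) (hL x (by simp))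
    linarith
  | @cons_cons L1 L2 x _ ih =>
    have hL2 : ∀ y ∈ L2, 0 ≤ y := fun y hy => hL y (by simp [hy])
    rw [TT_cons, TT_cons]
    have h1 := ih (i := i + 1) (by omega) hL2
    linarith

theorem TT_ge_sum {i : ℕ} (hi : 1 ≤ i) {L : List ℝ} (hL : ∀ x ∈ L, 0 ≤ x) :
    L.sum / 3 ≤ TT i L := by
  induction L generalizing i with
  | nil => simp
  | cons x L ih =>
    rw [TT_cons, List.sum_cons]
    have h1 := ih (i := i + 1) (by omega) (fun y hy => hL y (by simp [hy]))
    have h2 := mul_le_mul_of_nonneg_right (aa_ge hi) (hL x (by simp))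
    linarith

theorem TT_ge_length {i : ℕ} (hi : 1 ≤ i) {L : List ℝ} {u : ℝ} (hu : 0 ≤ u)
    (hL : ∀ x ∈ L, u ≤ x) : L.length * u / 3 ≤ TT i L := by
  refine le_trans ?_ (TT_ge_sum hi (fun x hx => hu.trans (hL x hx)))
  have := List.card_nsmul_le_sum L u hL
  rw [nsmul_eq_mul] at this
  linarith

theorem TT_two_ge {x y : ℝ} {L : List ℝ} (hy : 0 ≤ y) (hxy : y ≤ x) (hL : ∀ z ∈ L, 0 ≤ z) :
    5 / 4 * y ≤ TT 1 (x :: y :: L) := by
  rw [TT_cons, TT_cons]
  have h1 := TT_nonneg (i := 1 + 1 + 1) (by omega) hL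
  have h2 := mul_le_mul_of_nonneg_left hxy (aa_pos (i := 1) le_rfl)
  have h3 := mul_le_mul_of_nonneg_right aa_one_add_two hy
  have : aa (1 + 1) = aa 2 := rfl
  rw [this]
  linarith

theorem Tt_le_tau (t0 : ℝ) (j : ℕ) (L : List ℝ) : Tt t0 L ≤ tau t0 j L := by
  induction j generalizing L with
  | zero => exact le_rfl
  | succ j ih =>
    refine le_trans ?_ (ih (Tt t0 L :: L))
    exact le_max_right _ _

/-- `Up h L L'`: the list `L'` is obtained from `L` by raising a marked entry by `h` and raising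
each entry before it by at least `h / 3`. -/
inductive UpRel (h : ℝ) : List ℝ → List ℝ → Prop
  | base (x : ℝ) (L : List ℝ) : UpRel h (x :: L) ((x + h) :: L)
  | step (x y : ℝ) (L L' : List ℝ) : x + h / 3 ≤ y → UpRel h L L' → UpRel h (x :: L) (y :: L')

theorem UpRel.TT_le {h : ℝ} (hh : 0 ≤ h) {L L' : List ℝ} (H : UpRel h L L') {i : ℕ}
    (hi : 1 ≤ i) : TT i L + h / 3 ≤ TT i L' := by
  induction H generalizing i with
  | base x L =>
    rw [TT_cons, TT_cons]
    have := mul_le_mul_of_nonneg_right (aa_ge hi) hh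
    linarith
  | step x y L L' hxy _ ih =>
    rw [TT_cons, TT_cons]
    have h1 := ih (i := i + 1) (by omega)
    have h2 := mul_le_mul_of_nonneg_left (show x ≤ y by linarith) (aa_pos hi)
    linarith

theorem UpRel.Tt_le {h : ℝ} (hh : 0 ≤ h) {L L' : List ℝ} (H : UpRel h L L') (t0 : ℝ) :
    Tt t0 L + h / 3 ≤ Tt t0 L' := by
  have h1 := H.TT_le hh (i := 1) le_rfl
  have h2 : L.headD t0 + h / 3 ≤ L'.headD t0 := by
    cases H with
    | base x L => simp; linarith
    | step x y L L' hxy _ => simpa using hxy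
  unfold Tt
  rw [← max_add_add_right]
  exact max_le_max h1 h2

theorem UpRel.tau_le {h : ℝ} (hh : 0 ≤ h) (t0 : ℝ) (j : ℕ) {L L' : List ℝ} (H : UpRel h L L') :
    tau t0 j L + h / 3 ≤ tau t0 j L' := by
  induction j generalizing L L' with
  | zero => exact H.Tt_le hh t0
  | succ j ih => exact ih (UpRel.step _ _ _ _ (H.Tt_le hh t0) H)

/-- `LipRel c n L L'`: the first `n + 1` entries of `L'` exceed those of `L` by at most `c`, the
other entries agree. -/
inductive LipRel (c : ℝ) : ℕ → List ℝ → List ℝ → Prop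
  | base (x y : ℝ) (L : List ℝ) : y ≤ x + c → LipRel c 0 (x :: L) (y :: L)
  | step (x y : ℝ) (n : ℕ) (L L' : List ℝ) : y ≤ x + c → LipRel c n L L' →
      LipRel c (n + 1) (x :: L) (y :: L')

theorem LipRel.mono {c c' : ℝ} (hc : c ≤ c') {n : ℕ} {L L' : List ℝ} (H : LipRel c n L L') :
    LipRel c' n L L' := by
  induction H with
  | base x y L h => exact LipRel.base x y L (by linarith)
  | step x y n L L' h _ ih => exact LipRel.step x y n L L' (by linarith) ih

theorem LipRel.TT_le (n : ℕ) : ∀ i : ℕ, 1 ≤ i → ∃ C : ℝ, 1 ≤ C ∧ ∀ (c : ℝ) (L L' : List ℝ), 0 ≤ c →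
    LipRel c n L L' → TT i L' ≤ TT i L + C * c := by
  induction n with
  | zero =>
    intro i hi
    refine ⟨aa i + 1, by linarith [aa_pos hi], ?_⟩
    intro c L L' hc H
    cases H with
    | base x y L h =>
      rw [TT_cons, TT_cons]
      have := mul_le_mul_of_nonneg_left h (aa_pos hi)
      linarith
  | succ n ih =>
    intro i hi
    obtain ⟨C, hC, H1⟩ := ih (i + 1) (by omega)
    refine ⟨aa i + C, by linarith [aa_pos hi], ?_⟩
    intro c L L' hc H
    cases H with
    | step x y n L L' h H' =>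
      rw [TT_cons, TT_cons]
      have := mul_le_mul_of_nonneg_left h (aa_pos hi)
      have := H1 c L L' hc H'
      linarith

theorem LipRel.Tt_le (n : ℕ) : ∃ C : ℝ, 1 ≤ C ∧ ∀ (t0 c : ℝ) (L L' : List ℝ), 0 ≤ c →
    LipRel c n L L' → Tt t0 L' ≤ Tt t0 L + C * c := by
  obtain ⟨C, hC, H1⟩ := LipRel.TT_le n 1 le_rfl
  refine ⟨C, hC, ?_⟩
  intro t0 c L L' hc H
  have h1 := H1 c L L' hc H
  have h3 : c ≤ C * c := le_mul_of_one_le_left hc hC
  have h2 : L'.headD t0 ≤ L.headD t0 + C * c := by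
    cases H with
    | base x y L h => simp; linarith
    | step x y n L L' h _ => simp; linarith
  unfold Tt
  rw [← max_add_add_right]
  exact max_le_max h1 h2

theorem LipRel.tau_le (j : ℕ) : ∀ n : ℕ, ∃ C : ℝ, 1 ≤ C ∧ ∀ (t0 c : ℝ) (L L' : List ℝ), 0 ≤ c →
    LipRel c n L L' → tau t0 j L' ≤ tau t0 j L + C * c := by
  induction j with
  | zero => exact LipRel.Tt_le
  | succ j ih =>
    intro n
    obtain ⟨C, hC, H1⟩ := LipRel.Tt_le n
    obtain ⟨C', hC', H2⟩ := ih (n + 1)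
    refine ⟨C' * C, one_le_mul_of_one_le_of_one_le hC' hC, ?_⟩
    intro t0 c L L' hc H
    have h3 : c ≤ C * c := le_mul_of_one_le_left hc hC
    have := H2 t0 (C * c) _ _ (by linarith)
      (LipRel.step _ _ n L L' (H1 t0 c L L' hc H) (H.mono h3))
    rw [mul_assoc]
    exact this

/-- Lower slope in the head. -/
theorem tau_head_ge (t0 : ℝ) (j : ℕ) (x h : ℝ) (hh : 0 ≤ h) (L : List ℝ) :
    tau t0 j (x :: L) + h / 3 ≤ tau t0 j ((x + h) :: L) := by
  exact (UpRel.base x L).tau_le hh t0 j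

/-- Upper slope in the head. -/
theorem tau_head_le (j : ℕ) : ∃ C : ℝ, 1 ≤ C ∧ ∀ (t0 x h : ℝ) (L : List ℝ), 0 ≤ h →
    tau t0 j ((x + h) :: L) ≤ tau t0 j (x :: L) + C * h := by
  obtain ⟨C, hC, H⟩ := LipRel.tau_le j 0
  exact ⟨C, hC, fun t0 x h L hh => H t0 h _ _ hh (LipRel.base x (x + h) L le_rfl)⟩

theorem TT_replicate_zero (i n : ℕ) : TT i (List.replicate n 0) = 0 := by
  induction n generalizing i with
  | zero => simp
  | succ n ih => rw [List.replicate_succ, TT_cons, ih]; simp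

theorem tau_replicate_zero (t0 : ℝ) (j n : ℕ) : tau t0 j (List.replicate (n + 1) 0) = 0 := by
  have h : ∀ n, Tt t0 (List.replicate (n + 1) 0) = 0 := by
    intro n
    unfold Tt
    rw [TT_replicate_zero, List.replicate_succ]; simp
  induction j generalizing n with
  | zero => exact h n
  | succ j ih =>
    show tau t0 j (Tt t0 _ :: _) = 0
    rw [h n, ← List.replicate_succ]
    exact ih (n + 1)

theorem tau_nil_le (j : ℕ) : ∃ C : ℝ, 1 ≤ C ∧ ∀ t0 : ℝ, 0 ≤ t0 → tau t0 j [] ≤ C * t0 := by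
  have h : ∀ t0 : ℝ, 0 ≤ t0 → Tt t0 [] = t0 := by
    intro t0 h0
    unfold Tt; simp [h0]
  cases j with
  | zero => exact ⟨1, le_rfl, fun t0 h0 => by rw [one_mul]; exact (h t0 h0).le⟩
  | succ j =>
    obtain ⟨C, hC, H⟩ := tau_head_le j
    refine ⟨C, hC, fun t0 h0 => ?_⟩
    show tau t0 j (Tt t0 [] :: []) ≤ _
    rw [h t0 h0]
    have h1 := H t0 0 t0 [] h0
    have h2 := tau_replicate_zero t0 j 0
    simp only [zero_add, List.replicate_one] at h1 h2
    linarith

end Vale.Agent.P031
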