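import Vale.Agent.P031.Basic
import Vale.Agent.P031.Tau

/-!
# Task Data: elementary facts on good data
-/

open Finset Real Filter

namespace Vale.Agent.P031

theorem prime_dvd_totient {q n : ℕ} (hq : q.Prime) (h : q ∣ Nat.totient n) :
    n = 0 ∨ ∃ p : ℕ, p.Prime ∧ p ∣ n ∧ q ≤ p := by
  rcases Nat.eq_zero_or_pos n with h0 | h0
  · exact Or.inl h0
  right
  rw [Nat.totient_eq_div_primeFactors_mul] at h
  rcases (Nat.Prime.dvd_mul hq).1 h with h | h
  · exact ⟨q, hq, h.trans (Nat.div_dvd_of_dvd (Nat.prod_primeFactors_dvd n)), le_rfl⟩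
  · obtain ⟨p, hp, hd⟩ := (Prime.dvd_finsetProd_iff hq.prime _).1 h
    have hpp := Nat.prime_of_mem_primeFactors hp
    have := hpp.two_le
    exact ⟨p, hpp, Nat.dvd_of_mem_primeFactors hp,
      (Nat.le_of_dvd (by omega) hd).trans (Nat.sub_le _ _)⟩

theorem smooth_totient_primes {w ns : ℕ} (h : Smooth w ns) :
    ∀ q : ℕ, q.Prime → q ∣ Nat.totient ns → lev q ≤ w ^ 36 := by
  intro q hq hd
  rcases prime_dvd_totient hq hd with h0 | ⟨p, hp, hpd, hle⟩
  · exact absurd h0 h.1.ne'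
  · exact (lev_mono hle).trans (h.2 p hp hpd)

theorem totient_prod_mul {w ns : ℕ} {L : List ℕ} (h1 : L.Pairwise (· > ·))
    (h2 : ∀ p ∈ L, p.Prime ∧ w ^ 36 < lev p) (h3 : Smooth w ns) :
    Nat.totient (L.prod * ns) = val L (Nat.totient ns) := by
  induction L with
  | nil => simp [val]
  | cons a L ih =>
    have ha := h2 a (List.mem_cons_self ..)
    have hc : Nat.Coprime a (L.prod * ns) := by
      rw [Nat.Prime.coprime_iff_not_dvd ha.1]
      intro hd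
      rcases (Nat.Prime.dvd_mul ha.1).1 hd with hd | hd
      · obtain ⟨x, hx, hax⟩ := (Prime.dvd_prod_iff ha.1.prime).1 hd
        have e := (Nat.prime_dvd_prime_iff_eq ha.1 (h2 x (List.mem_cons_of_mem _ hx)).1).1 hax
        exact absurd e (List.rel_of_pairwise_cons h1 hx).ne'
      · exact absurd (h3.2 a ha.1 hd) (not_le.2 ha.2)
    rw [List.prod_cons, mul_assoc, Nat.totient_mul hc, Nat.totient_prime ha.1,
      ih h1.of_cons (fun p hp => h2 p (List.mem_cons_of_mem _ hp))]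
    simp [val, mul_assoc]

theorem mem_Tot' {w m : ℕ} : m ∈ Tot w ↔ IsTot m ∧ lev m ≤ 19 * w ^ 40 := by
  classical
  unfold Tot
  rw [Finset.mem_filter, mem_upTo]
  constructor
  · rintro ⟨⟨-, h1⟩, h2⟩
    exact ⟨h2, h1⟩
  · rintro ⟨h1, h2⟩
    refine ⟨⟨?_, h2⟩, h1⟩
    obtain ⟨n, hn, rfl⟩ := h1
    exact Nat.totient_pos.2 hn

theorem mul_pred_dvd_totient {q n : ℕ} (hq : q.Prime) (h : q * q ∣ n) :
    q * (q - 1) ∣ Nat.totient n := by
  have := Nat.totient_dvd_of_dvd h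
  rwa [← sq, Nat.totient_prime_pow hq two_pos, show 2 - 1 = 1 from rfl, pow_one] at this

theorem peel_prime {p n : ℕ} (hp : p.Prime) (hn : 0 < n) (h1 : p ∣ n) (h2 : ¬ p * p ∣ n) :
    ∃ n', 0 < n' ∧ ¬ p ∣ n' ∧ n = p * n' ∧ Nat.totient n = (p - 1) * Nat.totient n' := by
  obtain ⟨n', rfl⟩ := h1
  have h3 : ¬ p ∣ n' := fun h => h2 (Nat.mul_dvd_mul_left p h)
  refine ⟨n', Nat.pos_of_mul_pos_left hn, h3, rfl, ?_⟩
  rw [Nat.totient_mul ((Nat.Prime.coprime_iff_not_dvd hp).2 h3), Nat.totient_prime hp]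

theorem split_big (w n : ℕ) (hn : 0 < n)
    (hsq : ∀ q : ℕ, q.Prime → w ^ 36 < lev q → ¬ q * q ∣ n) :
    ∃ (L : List ℕ) (ns : ℕ), L.Pairwise (· > ·) ∧ (∀ p ∈ L, p.Prime ∧ w ^ 36 < lev p) ∧
      Smooth w ns ∧ n = L.prod * ns := by
  set S := n.primeFactors.filter (fun q => w ^ 36 < lev q) with hS
  have hprod : (S.sort (· ≥ ·)).prod = ∏ q ∈ S, q := by
    rw [← Finset.prod_toList]
    exact (Finset.sort_perm_toList S _).prod_eq
  have hdvd : ∏ q ∈ S, q ∣ n :=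
    (Finset.prod_dvd_prod_of_subset _ _ _ (Finset.filter_subset _ _)).trans
      (Nat.prod_primeFactors_dvd n)
  obtain ⟨ns, hns⟩ := hdvd
  refine ⟨S.sort (· ≥ ·), ns, ?_, fun p hp => ?_, ⟨?_, fun q hq hd => ?_⟩, by rw [hprod, ← hns]⟩
  · exact ((Finset.pairwise_sort S (· ≥ ·)).and (Finset.sort_nodup S _)).imp
      (fun h => lt_of_le_of_ne h.1 h.2.symm)
  · rw [Finset.mem_sort, hS, Finset.mem_filter] at hp
    exact ⟨Nat.prime_of_mem_primeFactors hp.1, hp.2⟩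
  · rw [hns] at hn
    exact Nat.pos_of_mul_pos_left hn
  · by_contra hc
    apply hsq q hq (not_le.1 hc)
    have hqS : q ∈ S := by
      rw [hS, Finset.mem_filter, Nat.mem_primeFactors]
      exact ⟨⟨hq, hns ▸ hd.mul_left _, hn.ne'⟩, not_le.1 hc⟩
    rw [hns]
    exact Nat.mul_dvd_mul (Finset.dvd_prod_of_mem _ hqS) hd

theorem val_cons (p : ℕ) (L : List ℕ) (r : ℕ) : val (p :: L) r = (p - 1) * val L r := by
  simp [val, mul_assoc]

theorem good_tail {w p : ℕ} {L : List ℕ} {r : ℕ} (h : Good w (p :: L) r) : Good w L r := by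
  exact ⟨h.1.of_cons, fun q hq => h.2.1 q (List.mem_cons_of_mem _ hq), h.2.2⟩

theorem good_sublist {w : ℕ} {L L' : List ℕ} {r : ℕ} (h : Good w L r) (hs : L'.Sublist L) :
    Good w L' r := by
  exact ⟨h.1.sublist hs, fun p hp => h.2.1 p (hs.subset hp), h.2.2⟩

theorem good_cons {w p : ℕ} {L : List ℕ} {r : ℕ} (h : Good w L r) (hp : p.Prime)
    (hl : w ^ 36 < lev p) (hn : Normal w p) (hgt : ∀ q ∈ L, q < p) : Good w (p :: L) r := by
  refine ⟨List.pairwise_cons.2 ⟨hgt, h.1⟩, fun q hq => ?_, h.2.2⟩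
  rcases List.mem_cons.1 hq with rfl | hq
  · exact ⟨hp, hl, hn⟩
  · exact h.2.1 q hq

theorem good_nil_one (w : ℕ) : Good w [] 1 := by
  refine ⟨List.Pairwise.nil, by simp, 1,
    ⟨one_pos, fun q hq hd => absurd (Nat.dvd_one.1 hd) hq.one_lt.ne'⟩, by simp, by simp [Om]⟩

theorem small_pos {w r : ℕ} (h : Small w r) : 0 < r := by
  obtain ⟨ns, h1, rfl, -⟩ := h
  exact Nat.totient_pos.2 h1.1

theorem small_primes {w r : ℕ} (h : Small w r) : ∀ q : ℕ, q.Prime → q ∣ r → lev q ≤ w ^ 36 := by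
  obtain ⟨ns, h1, rfl, -⟩ := h
  exact smooth_totient_primes h1

theorem val_pos {w : ℕ} {L : List ℕ} {r : ℕ} (h : Good w L r) : 0 < val L r := by
  unfold val
  refine Nat.mul_pos (List.prod_pos ?_) (small_pos h.2.2)
  intro x hx
  obtain ⟨p, hp, rfl⟩ := List.mem_map.1 hx
  have := (h.2.1 p hp).1.two_le
  omega

theorem rep_totient {w n : ℕ} {L : List ℕ} {r : ℕ} (h : Rep w n L r) :
    Nat.totient n = val L r := by
  obtain ⟨hg, ns, h1, rfl, rfl⟩ := h
  exact totient_prod_mul hg.1 (fun p hp => ⟨(hg.2.1 p hp).1, (hg.2.1 p hp).2.1⟩) h1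

theorem good_isTot {w : ℕ} {L : List ℕ} {r : ℕ} (h : Good w L r) : IsTot (val L r) := by
  obtain ⟨ns, h1, h2, h3⟩ := h.2.2
  refine ⟨L.prod * ns, Nat.mul_pos (List.prod_pos fun p hp => (h.2.1 p hp).1.pos) h1.1, ?_⟩
  exact rep_totient ⟨h, ns, h1, rfl, h2⟩

theorem levs_nonneg (L : List ℕ) : ∀ x ∈ levs L, 0 ≤ x := by
  intro x hx
  obtain ⟨p, -, rfl⟩ := List.mem_map.1 hx
  exact Nat.cast_nonneg _

/-- every entry of a good list has level at most the head -/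
theorem good_lev_le_head {w : ℕ} {L : List ℕ} {r : ℕ} (h : Good w L r) :
    ∀ p ∈ L, (lev p : ℝ) ≤ (levs L).headD ((w : ℝ) ^ 36) := by
  intro p hp
  cases L with
  | nil => simp at hp
  | cons a L =>
    simp only [levs, List.map_cons, List.headD_cons, Nat.cast_le]
    rcases List.mem_cons.1 hp with rfl | hp
    · exact le_rfl
    · exact lev_mono (List.rel_of_pairwise_cons h.1 hp).le

theorem good_t0_le_head {w : ℕ} {L : List ℕ} {r : ℕ} (h : Good w L r) :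
    (w : ℝ) ^ 36 ≤ (levs L).headD ((w : ℝ) ^ 36) := by
  cases L with
  | nil => simp [levs]
  | cons a L =>
    simp only [levs, List.map_cons, List.headD_cons]
    exact_mod_cast (h.2.1 a (List.mem_cons_self ..)).2.1.le

/-- every prime factor of the value has level at most the head -/
theorem good_primes {w : ℕ} {L : List ℕ} {r : ℕ} (h : Good w L r) :
    ∀ q : ℕ, q.Prime → q ∣ val L r → (lev q : ℝ) ≤ (levs L).headD ((w : ℝ) ^ 36) := by
  intro q hq hd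
  unfold val at hd
  rcases (Nat.Prime.dvd_mul hq).1 hd with hd | hd
  · obtain ⟨x, hx, hqx⟩ := (Prime.dvd_prod_iff hq.prime).1 hd
    obtain ⟨p, hp, rfl⟩ := List.mem_map.1 hx
    have h2 := (h.2.1 p hp).1.two_le
    have h3 : q ≤ p := (Nat.le_of_dvd (by omega) hqx).trans (Nat.sub_le _ _)
    refine le_trans ?_ (good_lev_le_head h p hp)
    exact_mod_cast lev_mono h3
  · refine le_trans ?_ (good_t0_le_head h)
    exact_mod_cast small_primes h.2.2 q hq hd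

theorem good_length {w : ℕ} {L : List ℕ} {r : ℕ} (h : Good w L r) :
    (L.length : ℝ) * (w : ℝ) ^ 36 / 3 ≤ TT 1 (levs L) := by
  have := TT_ge_length (i := 1) le_rfl (L := levs L) (u := (w : ℝ) ^ 36) (by positivity) (by
    intro x hx
    obtain ⟨p, hp, rfl⟩ := List.mem_map.1 hx
    exact_mod_cast (h.2.1 p hp).2.1.le)
  simpa [levs] using this

/-- Omega of the value of a short datum. -/
theorem good_Om : ∀ᶠ w : ℕ in atTop, ∀ (L : List ℕ) (r : ℕ), Good w L r →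
    L.length ≤ 100 * w ^ 4 + 1 → (∀ p ∈ L, lev p ≤ 30 * w ^ 40) → Om (val L r) ≤ w ^ 80 := by
  filter_upwards [eventually_ge_atTop 2] with w hw L r h hl hp
  have key : ∀ (L : List ℕ), Good w L r → (∀ p ∈ L, lev p ≤ 30 * w ^ 40) →
      Om (val L r) ≤ L.length * (30 * w ^ 40 + w ^ 24) + 10 * w ^ 36 := by
    intro L
    induction L with
    | nil =>
      intro h _
      obtain ⟨ns, -, -, h3⟩ := h.2.2
      simpa [val] using h3
    | cons a L ih =>
      intro h hp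
      have ha := h.2.1 a (List.mem_cons_self ..)
      have h2 := ha.1.two_le
      rw [val_cons, Om_mul (by omega) (val_pos (good_tail h)).ne', List.length_cons]
      have h3 := Om_le_of_normal ha.1 ha.2.2
      have h4 := hp a (List.mem_cons_self ..)
      have h5 := ih (good_tail h) (fun p hq => hp p (List.mem_cons_of_mem _ hq))
      rw [add_mul]
      omega
  refine (key L h hp).trans ?_
  have hw1 : 1 ≤ w := by omega
  have a1 : w ^ 24 ≤ w ^ 40 := Nat.pow_le_pow_right hw1 (by norm_num)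
  have a2 : 1 ≤ w ^ 4 := Nat.one_le_pow _ _ hw1
  have a3 : w ^ 36 ≤ w ^ 44 := Nat.pow_le_pow_right hw1 (by norm_num)
  have a4 : 2 ^ 36 ≤ w ^ 36 := Nat.pow_le_pow_left hw _
  have a5 : L.length * (30 * w ^ 40 + w ^ 24) ≤ (101 * w ^ 4) * (31 * w ^ 40) :=
    Nat.mul_le_mul (by omega) (by omega)
  have a6 : (101 * w ^ 4) * (31 * w ^ 40) = 3131 * w ^ 44 := by ring
  have a7 : 3141 * w ^ 44 ≤ w ^ 36 * w ^ 44 := Nat.mul_le_mul_right _ (le_trans (by norm_num) a4)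
  have a8 : w ^ 36 * w ^ 44 = w ^ 80 := by ring
  omega

/-- If `Om m <= N^2` and all prime factors have level at most `u` then `lev (m+1) <= u + w`. -/
theorem lev_le_of_Om : ∀ᶠ w : ℕ in atTop, ∀ (m : ℕ) (u : ℝ), 0 ≤ u → 0 < m → Om m ≤ w ^ 80 →
    (∀ q : ℕ, q.Prime → q ∣ m → (lev q : ℝ) ≤ u) →
    Real.log m ≤ (w : ℝ) ^ 80 * Real.exp u ∧ (lev (m + 1) : ℝ) ≤ u + w := by
  have hev := ((Real.tendsto_exp_div_pow_atTop 80).comp
    tendsto_natCast_atTop_atTop).eventually_ge_atTop (Real.exp 2)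
  filter_upwards [hev, eventually_ge_atTop 2] with w hw hw2 m u hu hm hO hq
  have hw0 : (2 : ℝ) ≤ w := by exact_mod_cast hw2
  simp only [Function.comp] at hw
  rw [le_div_iff₀ (by positivity)] at hw
  have h1 : Real.log m ≤ (w : ℝ) ^ 80 * Real.exp u := by
    refine (log_le_Om_mul (u := Real.exp u) (Real.exp_pos _).le fun q hp hd =>
      (log_le_exp_lev q).trans (Real.exp_le_exp.2 (hq q hp hd))).trans ?_
    apply mul_le_mul_of_nonneg_right _ (Real.exp_pos _).le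
    exact_mod_cast hO
  refine ⟨h1, ?_⟩
  have h2 : (w : ℝ) ^ 80 ≤ Real.exp (w - 2) := by
    rw [Real.exp_sub, le_div_iff₀ (Real.exp_pos _)]
    linarith
  have h3 : Real.log m ≤ Real.exp (u + (w - 2)) := by
    refine h1.trans ?_
    rw [Real.exp_add, mul_comm]
    exact mul_le_mul_of_nonneg_left h2 (Real.exp_pos _).le
  have h4 := lev_le_of_log_le (by linarith) h3
  have h5 : (lev (m + 1) : ℝ) ≤ lev m + 1 := by exact_mod_cast lev_succ_le m
  linarith

/-- A good datum with `Tt <= 10 N` has few prime factors and lies in `Tot w`. -/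
theorem good_small : ∀ᶠ w : ℕ in atTop, ∀ (L : List ℕ) (r : ℕ), Good w L r →
    Tt ((w : ℝ) ^ 36) (levs L) ≤ 10 * (w : ℝ) ^ 40 →
    L.length ≤ 30 * w ^ 4 ∧ Om (val L r) ≤ w ^ 80 ∧
    Real.log (val L r) ≤ (w : ℝ) ^ 80 * Real.exp ((levs L).headD ((w : ℝ) ^ 36)) ∧
    (lev (val L r + 1) : ℝ) ≤ (levs L).headD ((w : ℝ) ^ 36) + w ∧ val L r ∈ Tot w := by
  filter_upwards [good_Om, lev_le_of_Om, eventually_ge_atTop 1] with w h1 h2 hw L r h ht
  have hw1 : (1 : ℝ) ≤ w := by exact_mod_cast hw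
  have t1 : TT 1 (levs L) ≤ 10 * (w : ℝ) ^ 40 := (le_max_left _ _).trans ht
  have t2 : (levs L).headD ((w : ℝ) ^ 36) ≤ 10 * (w : ℝ) ^ 40 := (le_max_right _ _).trans ht
  have hlen : L.length ≤ 30 * w ^ 4 := by
    have a := (good_length h).trans t1
    have b : (L.length : ℝ) * (w : ℝ) ^ 36 ≤ (30 * (w : ℝ) ^ 4) * (w : ℝ) ^ 36 := by
      have : (30 * (w : ℝ) ^ 4) * (w : ℝ) ^ 36 = 30 * (w : ℝ) ^ 40 := by ring
      linarith
    have c := le_of_mul_le_mul_right b (by positivity)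
    exact_mod_cast c
  have hO : Om (val L r) ≤ w ^ 80 := h1 L r h (by omega) (fun p hp => by
    have a := (good_lev_le_head h p hp).trans t2
    have b : (lev p : ℝ) ≤ 30 * (w : ℝ) ^ 40 := by
      have : (0 : ℝ) ≤ (w : ℝ) ^ 40 := by positivity
      linarith
    exact_mod_cast b)
  have h0 : 0 ≤ (levs L).headD ((w : ℝ) ^ 36) := le_trans (by positivity) (good_t0_le_head h)
  obtain ⟨h3, h4⟩ := h2 (val L r) _ h0 (val_pos h) hO (good_primes h)
  refine ⟨hlen, hO, h3, h4, mem_Tot'.2 ⟨good_isTot h, ?_⟩⟩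
  have a : (lev (val L r) : ℝ) ≤ lev (val L r + 1) := by exact_mod_cast lev_mono (Nat.le_succ _)
  have b : (w : ℝ) ≤ (w : ℝ) ^ 40 := le_self_pow₀ hw1 (by norm_num)
  have c : (lev (val L r) : ℝ) ≤ 19 * (w : ℝ) ^ 40 := by linarith
  exact_mod_cast c

theorem mem_Tot {w m : ℕ} : m ∈ Tot w ↔ IsTot m ∧ lev m ≤ 19 * w ^ 40 := by
  exact mem_Tot'

theorem one_le_SS (w : ℕ) : 1 ≤ SS w := by
  have h1 : 1 ∈ Tot w := mem_Tot.2 ⟨⟨1, one_pos, by simp⟩, by simp [lev]⟩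
  have := Finset.single_le_sum (f := fun m : ℕ => 1 / (m : ℝ)) (fun _ _ => by positivity) h1
  simpa [SS] using this

theorem MM_mono (w j : ℕ) : Monotone (MM w j) := by
  classical
  intro t t' htt
  unfold MM
  refine Finset.sum_le_sum_of_subset_of_nonneg ?_ (fun _ _ _ => by positivity)
  intro m hm
  unfold MSet at hm ⊢
  rw [Finset.mem_filter] at hm ⊢
  obtain ⟨h1, L, r, h2, h3, h4⟩ := hm
  exact ⟨h1, L, r, h2, h3, h4.trans htt⟩

theorem MM_nonneg (w j : ℕ) (t : ℝ) : 0 ≤ MM w j t := by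
  exact Finset.sum_nonneg (fun _ _ => by positivity)

theorem MM_le_SS (w j : ℕ) (t : ℝ) : MM w j t ≤ SS w := by
  classical
  unfold MM SS MSet
  exact Finset.sum_le_sum_of_subset_of_nonneg (Finset.filter_subset _ _)
    (fun _ _ _ => by positivity)

theorem one_le_MM {w : ℕ} {t : ℝ} (ht : (w : ℝ) ^ 36 ≤ t) : 1 ≤ MM w 0 t := by
  classical
  have h0 : 1 ∈ Tot w := mem_Tot.2 ⟨⟨1, one_pos, by simp⟩, by simp [lev]⟩
  have h1 : 1 ∈ MSet w 0 t := by
    unfold MSet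
    rw [Finset.mem_filter]
    refine ⟨h0, [], 1, good_nil_one w, by simp [val], ?_⟩
    have : (0 : ℝ) ≤ (w : ℝ) ^ 36 := by positivity
    simp only [tau, Tt, levs, List.map_nil, TT_nil, List.headD_nil]
    exact max_le (this.trans ht) ht
  have := Finset.single_le_sum (f := fun m : ℕ => 1 / (m : ℝ)) (fun _ _ => by positivity) h1
  simpa [MM] using this

/-- Structure of a bad value: split a preimage `n` into its big and small parts. -/
theorem bad_cases {w m : ℕ} (h : Bad w m) :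
    (∃ q : ℕ, q.Prime ∧ w ^ 36 < lev q ∧ q * (q - 1) ∣ m) ∨
    (∃ p m' : ℕ, p.Prime ∧ w ^ 36 < lev p ∧ ¬ Normal w p ∧ IsTot m' ∧ m = (p - 1) * m') ∨
    (∃ r m' : ℕ, 0 < r ∧ (∀ q : ℕ, q.Prime → q ∣ r → lev q ≤ w ^ 36) ∧ 10 * w ^ 36 < Om r ∧
      IsTot m' ∧ m = r * m') := by
  obtain ⟨n, hn, rfl, hb⟩ := h
  by_cases h1 : ∃ q : ℕ, q.Prime ∧ w ^ 36 < lev q ∧ q * q ∣ n
  · obtain ⟨q, hq, hl, hd⟩ := h1
    exact Or.inl ⟨q, hq, hl, mul_pred_dvd_totient hq hd⟩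
  push Not at h1
  right
  obtain ⟨L, ns, hL1, hL2, hns, rfl⟩ := split_big w n hn h1
  by_cases h2 : ∃ p ∈ L, ¬ Normal w p
  · obtain ⟨p, hp, hnp⟩ := h2
    left
    obtain ⟨n', hn', -, h4⟩ := peel_prime (hL2 p hp).1 hn
      ((List.dvd_prod hp).mul_right ns) (h1 p (hL2 p hp).1 (hL2 p hp).2)
    exact ⟨p, Nat.totient n', (hL2 p hp).1, (hL2 p hp).2, hnp, ⟨n', hn', rfl⟩, h4.2⟩
  push Not at h2
  right
  refine ⟨Nat.totient ns, Nat.totient L.prod, Nat.totient_pos.2 hns.1, smooth_totient_primes hns,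
    ?_, ⟨L.prod, List.prod_pos fun p hp => (hL2 p hp).1.pos, rfl⟩, ?_⟩
  · by_contra hc
    exact hb L (Nat.totient ns) ⟨⟨hL1, fun p hp => ⟨(hL2 p hp).1, (hL2 p hp).2, h2 p hp⟩,
      ns, hns, rfl, not_lt.1 hc⟩, ns, hns, rfl, rfl⟩
  · have a := totient_prod_mul hL1 hL2 hns
    have b := totient_prod_mul (ns := 1) hL1 hL2
      ⟨one_pos, fun q hq hd => absurd (Nat.dvd_one.1 hd) hq.one_lt.ne'⟩
    rw [mul_one] at b
    rw [a, b]
    simp [val, mul_comm]

/-- A totient value that is not bad has a good datum. -/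
theorem data_of_not_bad {w m : ℕ} (hm : IsTot m) (h : ¬ Bad w m) :
    ∃ L r, Good w L r ∧ val L r = m := by
  obtain ⟨n, hn, rfl⟩ := hm
  by_contra hc
  exact h ⟨n, hn, rfl, fun L r hr => hc ⟨L, r, hr.1, (rep_totient hr).symm⟩⟩

/-- Peeling the largest prime `p` of a preimage. -/
theorem peel_top {w v : ℕ} (hv : IsTot v) (h2 : 2 ≤ v) :
    ∃ p : ℕ, p.Prime ∧ (∀ q : ℕ, q.Prime → q ∣ v → q ≤ p) ∧
      (p * (p - 1) ∣ v ∨ ∃ m, IsTot m ∧ v = (p - 1) * m ∧
        (Bad w m ∨ ∃ L r, Good w L r ∧ val L r = m ∧ ∀ q ∈ L, q < p)) := by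
  obtain ⟨n, hn, rfl⟩ := hv
  have hn2 : 2 ≤ n := h2.trans (Nat.totient_le n)
  obtain ⟨p, hp, hpn, hmax, -⟩ := exists_largest_prime hn2
  refine ⟨p, hp, fun q hq hd => ?_, ?_⟩
  · obtain ⟨p', hp', hd', hle⟩ := (prime_dvd_totient hq hd).resolve_left hn.ne'
    exact hle.trans (hmax p' hp' hd')
  by_cases h1 : p * p ∣ n
  · exact Or.inl (mul_pred_dvd_totient hp h1)
  right
  obtain ⟨n', hn', h3, h4, h5⟩ := peel_prime hp hn hpn h1
  refine ⟨Nat.totient n', ⟨n', hn', rfl⟩, h5, ?_⟩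
  by_cases hb : Bad w (Nat.totient n')
  · exact Or.inl hb
  right
  by_contra hc
  refine hb ⟨n', hn', rfl, fun L r hr => hc ⟨L, r, hr.1, (rep_totient hr).symm, fun q hq => ?_⟩⟩
  obtain ⟨hg, ns, -, e, -⟩ := hr
  have hqd : q ∣ n' := e ▸ (List.dvd_prod hq).mul_right ns
  refine lt_of_le_of_ne (hmax q (hg.2.1 q hq).1 (h4 ▸ hqd.mul_left p)) ?_
  rintro rfl
  exact h3 hqd

end Vale.Agent.P031
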