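import Vale.Agent.P031.Basic
import Vale.Agent.P031.Tau

/-!
# Task Weight: the weight identity

With `Lam = [l_1 >= ... >= l_b]`, `log NN(q) = sum_j c_j [lev q <= l_j]`, `c_j = log (j+1) - log j`,
so `log (wt (NN Lam) a) = sum_j c_j om (l_j) a`. For a normal prime `p_i` of level `l_i`,
`om (l_j) (p_i - 1) = min l_j l_i +- E`, `sum_j c_j = log (b+1)`, and
`sum_(i=0..b) sum_j c_j min l_j l_i = TT 1 Lam + sum Lam` when `l_0 >= l_1`
(the coefficient of `l_i` is `(i+1) c_i + log i = aa i + 1`).
-/

open Finset Real Filter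

namespace Vale.Agent.P031

/-- weighted sum with the coefficients `log (j+1) - log j` -/
noncomputable def GG : ℕ → List ℕ → (ℕ → ℝ) → ℝ
  | _, [], _ => 0
  | i, l :: L, f => (Real.log (i + 1) - Real.log i) * f l + GG (i + 1) L f

theorem GG_congr {i : ℕ} {L : List ℕ} {f g : ℕ → ℝ} (h : ∀ l ∈ L, f l = g l) :
    GG i L f = GG i L g := by
  induction L generalizing i with
  | nil => rfl
  | cons a L ih =>
    simp only [GG]
    rw [h a (List.mem_cons_self ..), ih (fun l hl => h l (List.mem_cons_of_mem _ hl))]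

theorem GG_add (i : ℕ) (L : List ℕ) (f g : ℕ → ℝ) :
    GG i L (fun l => f l + g l) = GG i L f + GG i L g := by
  induction L generalizing i with
  | nil => simp [GG]
  | cons a L ih => simp only [GG]; rw [ih]; ring

theorem GG_zero (i : ℕ) (L : List ℕ) : GG i L (fun _ => 0) = 0 := by
  induction L generalizing i with
  | nil => simp [GG]
  | cons a L ih => simp only [GG]; rw [ih]; ring

theorem GG_ind {i : ℕ} {L : List ℕ} (hL : L.Pairwise (· ≥ ·)) (x : ℕ) :
    GG i L (fun l => if x ≤ l then 1 else 0) =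
      Real.log (i + (L.countP (fun l => decide (x ≤ l)) : ℝ)) - Real.log i := by
  induction L generalizing i with
  | nil => simp [GG]
  | cons a L ih =>
    simp only [GG]
    rw [ih hL.of_cons]
    by_cases h : x ≤ a
    · rw [List.countP_cons_of_pos (by simpa using h), if_pos h]
      push_cast
      rw [show (i : ℝ) + 1 + (L.countP (fun l => decide (x ≤ l)) : ℝ) =
        i + ((L.countP (fun l => decide (x ≤ l)) : ℝ) + 1) by ring]
      ring
    · have h0 : L.countP (fun l => decide (x ≤ l)) = 0 := by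
        rw [List.countP_eq_zero]
        intro l hl
        have := List.rel_of_pairwise_cons hL hl
        simp only [decide_eq_true_eq]
        omega
      rw [List.countP_cons_of_neg (by simpa using h), if_neg h, h0]
      simp

theorem log_wt_NN {L : List ℕ} (hL : L.Pairwise (· ≥ ·)) (a : ℕ) :
    Real.log (wt (NN L) a) = GG 1 L (fun l => (om l a : ℝ)) := by
  unfold wt om
  induction a.primeFactorsList with
  | nil => simp [GG_zero]
  | cons x F ih =>
    have hpos : ∀ q, 0 < NN L q := fun q => by unfold NN; positivity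
    have hp : 0 < (F.map (NN L)).prod := List.prod_pos (by
      intro y hy
      obtain ⟨q, -, rfl⟩ := List.mem_map.1 hy
      exact hpos q)
    rw [List.map_cons, List.prod_cons, Real.log_mul (hpos x).ne' hp.ne', ih]
    have h1 := GG_ind (i := 1) hL (lev x)
    simp only [Nat.cast_one, Real.log_one, sub_zero] at h1
    unfold NN
    rw [← h1, ← GG_add]
    apply GG_congr
    intro l _
    rw [List.countP_cons]
    by_cases h : lev x ≤ l <;> simp [h, add_comm]

theorem GG_close {i : ℕ} (hi : 1 ≤ i) {L : List ℕ} {f g : ℕ → ℝ} {E : ℝ}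
    (h : ∀ l, |f l - g l| ≤ E) :
    |GG i L f - GG i L g| ≤ E * (Real.log (i + L.length) - Real.log i) := by
  induction L generalizing i with
  | nil => simp [GG]
  | cons a L ih =>
    simp only [GG]
    have hi0 : (0 : ℝ) < i := by exact_mod_cast hi
    have hc : 0 ≤ Real.log (i + 1) - Real.log i :=
      sub_nonneg.2 (Real.log_le_log hi0 (by linarith))
    have h1 := ih (i := i + 1) (by omega)
    have h2 : |(Real.log (i + 1) - Real.log i) * (f a - g a)| ≤
        (Real.log (i + 1) - Real.log i) * E := by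
      rw [abs_mul, abs_of_nonneg hc]
      exact mul_le_mul_of_nonneg_left (h a) hc
    rw [List.length_cons]
    push_cast at h1 ⊢
    rw [show (i : ℝ) + 1 + (L.length : ℝ) = i + ((L.length : ℝ) + 1) by ring] at h1
    rw [abs_le] at h1 h2 ⊢
    constructor <;> nlinarith [h1.1, h1.2, h2.1, h2.2]

theorem GG_min {i : ℕ} {L : List ℕ} (hL : L.Pairwise (· ≥ ·)) :
    GG i L (fun l => (i : ℝ) * l + (L.map (fun x => ((min l x : ℕ) : ℝ))).sum) =
      TT i (L.map (fun x : ℕ => (x : ℝ))) + (L.map (fun x : ℕ => (x : ℝ))).sum -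
        Real.log i * (L.map (fun x : ℕ => (x : ℝ))).sum := by
  induction L generalizing i with
  | nil => simp [GG]
  | cons a L ih =>
    have h1 : (L.map (fun x => ((min a x : ℕ) : ℝ))) = L.map (fun x : ℕ => (x : ℝ)) := by
      apply List.map_congr_left
      intro x hx
      rw [min_eq_right (List.rel_of_pairwise_cons hL hx)]
    have h2 : GG (i + 1) L (fun l => (i : ℝ) * l +
        (((min l a : ℕ) : ℝ) + (L.map (fun x => ((min l x : ℕ) : ℝ))).sum)) =
        GG (i + 1) L (fun l => ((i + 1 : ℕ) : ℝ) * l +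
          (L.map (fun x => ((min l x : ℕ) : ℝ))).sum) := by
      apply GG_congr
      intro l hl
      rw [min_eq_left (List.rel_of_pairwise_cons hL hl)]
      push_cast; ring
    simp only [GG, List.map_cons, List.sum_cons, TT_cons]
    rw [h2, ih hL.of_cons, h1, min_self]
    unfold aa
    push_cast
    ring

theorem om_val_close (w l : ℕ) (M : List ℕ) (hn : ∀ q ∈ M, q.Prime ∧ Normal w q) :
    val M 1 ≠ 0 ∧ |(om l (val M 1) : ℝ) - (M.map (fun q => ((min l (lev q) : ℕ) : ℝ))).sum| ≤
      M.length * (w : ℝ) ^ 24 := by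
  induction M with
  | nil => simp [val, om]
  | cons a M ih =>
    obtain ⟨h0, h1⟩ := ih (fun q hq => hn q (List.mem_cons_of_mem _ hq))
    obtain ⟨ha, hna⟩ := hn a (List.mem_cons_self ..)
    have h2 := ha.two_le
    have e : val (a :: M) 1 = (a - 1) * val M 1 := by simp [val]
    have ha0 : a - 1 ≠ 0 := by omega
    refine ⟨by rw [e]; exact mul_ne_zero ha0 h0, ?_⟩
    rw [e, om_mul l ha0 h0, List.map_cons, List.sum_cons, List.length_cons]
    have b1 : (om l (a - 1) : ℝ) ≤ ((min l (lev a) : ℕ) : ℝ) + (w : ℝ) ^ 24 := by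
      exact_mod_cast (hna l).1
    have b2 : ((min l (lev a) : ℕ) : ℝ) ≤ (om l (a - 1) : ℝ) + (w : ℝ) ^ 24 := by
      exact_mod_cast (hna l).2
    rw [Nat.cast_add, Nat.cast_add, Nat.cast_one]
    rw [abs_le] at h1 ⊢
    constructor <;> linarith [h1.1, h1.2]

theorem weight_bounds (w p : ℕ) (L : List ℕ) (hs : (p :: L).Pairwise (· > ·))
    (hn : ∀ q ∈ p :: L, q.Prime ∧ Normal w q) :
    |Real.log (wt (NN (L.map lev)) (val (p :: L) 1)) - (TT 1 (levs L) + (levs L).sum)|
      ≤ ((L.length : ℝ) + 1) * (w : ℝ) ^ 24 * Real.log ((L.length : ℝ) + 1) := by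
  have hL : (L.map lev).Pairwise (· ≥ ·) :=
    List.pairwise_map.2 (hs.of_cons.imp fun h => lev_mono h.le)
  rw [log_wt_NN hL]
  have h1 := GG_min (i := 1) hL
  have e : (L.map lev).map (fun x : ℕ => (x : ℝ)) = levs L := by simp [levs, Function.comp_def]
  rw [e] at h1
  simp only [Nat.cast_one, Real.log_one, zero_mul, sub_zero] at h1
  have h2 : GG 1 (L.map lev) (fun l => ((p :: L).map (fun q => ((min l (lev q) : ℕ) : ℝ))).sum) =
      TT 1 (levs L) + (levs L).sum := by
    rw [← h1]
    apply GG_congr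
    intro l hl
    obtain ⟨q, hq, rfl⟩ := List.mem_map.1 hl
    rw [List.map_cons, List.sum_cons,
      min_eq_left (lev_mono (List.rel_of_pairwise_cons hs hq).le), List.map_map, one_mul]
    rfl
  rw [← h2]
  have h3 := GG_close (i := 1) le_rfl (L := L.map lev) (fun l => (om_val_close w l (p :: L) hn).2)
  simp only [Nat.cast_one, Real.log_one, sub_zero, List.length_map, List.length_cons,
    Nat.cast_add] at h3
  rw [add_comm (1 : ℝ)] at h3
  exact h3

end Vale.Agent.P031
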