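import Vale.Agent.P031.Sieve
import Vale.Agent.P031.Weight
import Vale.Agent.P031.Data
import Vale.Agent.P031.Core
import Vale.Agent.P031.Asym

/-! # Collisions: reduced keys of a fixed shape -/

open Finset Real Filter

namespace Vale.Agent.P031

theorem prod_fin_getD {M : Type*} [CommMonoid M] (L : List ℕ) {n : ℕ} (h : L.length = n)
    (f : ℕ → M) : ∏ i : Fin n, f (L.getD i 0) = (L.map f).prod := by
  subst h
  rw [← Fin.prod_univ_fun_getElem]
  apply Finset.prod_congr rfl
  intro i _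
  simp

theorem sum_fin_getD {M : Type*} [AddCommMonoid M] (L : List ℕ) {n : ℕ} (h : L.length = n)
    (f : ℕ → M) : ∑ i : Fin n, f (L.getD i 0) = (L.map f).sum := by
  subst h
  rw [← Fin.sum_univ_fun_getElem]
  apply Finset.sum_congr rfl
  intro i _
  simp

theorem getD_mem (L : List ℕ) {n : ℕ} (h : L.length = n) (i : Fin n) : L.getD i 0 ∈ L := by
  subst h
  simp

theorem getD_map_lev (L : List ℕ) {n : ℕ} (h : L.length = n) (i : Fin n) :
    (L.map lev).getD i 0 = lev (L.getD i 0) := by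
  subst h
  simp

theorem eq_of_getD {L L' : List ℕ} {n : ℕ} (h : L.length = n) (h' : L'.length = n)
    (e : ∀ i : Fin n, L.getD i 0 = L'.getD i 0) : L = L' := by
  subst h
  apply List.ext_getElem h'.symm
  intro i h1 h2
  have := e ⟨i, h1⟩
  simpa [h1, h2] using this

theorem sum_ite_eq_countP (L : List ℕ) (p : ℕ → Prop) [DecidablePred p] :
    (L.map (fun l => if p l then (1 : ℝ) else 0)).sum = L.countP (fun l => decide (p l)) := by
  induction L with
  | nil => simp
  | cons x L ih =>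
    rw [List.map_cons, List.sum_cons, ih, List.countP_cons]
    by_cases hx : p x <;> simp [hx, add_comm]

/-- A normal prime minus one has a large prime factor. -/
theorem big_prime_factor {w q : ℕ} (hw : 1 ≤ w) (hq : q.Prime) (hn : Normal w q)
    (h1 : 1 ≤ lev q) (h2 : lev q ≤ 22 * w ^ 40) :
    ∃ P : ℕ, P.Prime ∧ P ∣ q - 1 ∧ Real.exp (lev q) / (200 * (w : ℝ) ^ 40) ≤ Real.log P := by
  have hq3 : 3 ≤ q := by
    by_contra hc
    have : q = 2 := by have := hq.two_le; omega
    subst this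
    have : lev 2 ≤ 0 := by
      rw [lev_le_iff]; have := Real.log_two_lt_d9; simp; linarith
    omega
  obtain ⟨P, hP, hd, -, hl⟩ := exists_largest_prime (a := q - 1) (by omega)
  refine ⟨P, hP, hd, ?_⟩
  have hO := Om_le_of_normal hq hn
  have h24 : w ^ 24 ≤ w ^ 40 := Nat.pow_le_pow_right hw (by norm_num)
  have hO' : (Om (q - 1) : ℝ) ≤ 23 * (w : ℝ) ^ 40 := by
    exact_mod_cast (by omega : Om (q - 1) ≤ 23 * w ^ 40)
  have hq' : (3 : ℝ) ≤ q := by exact_mod_cast hq3
  have h3 : Real.log q ≤ 2 * Real.log ((q - 1 : ℕ) : ℝ) := by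
    rw [Nat.cast_sub (by omega), Nat.cast_one]
    have : Real.log q ≤ Real.log (((q : ℝ) - 1) ^ 2) :=
      Real.log_le_log (by linarith) (by nlinarith)
    rw [Real.log_pow] at this
    exact_mod_cast this
  have h4 := exp_lev_sub_one_lt h1
  have h5 : Real.exp (lev q) = Real.exp ((lev q : ℝ) - 1) * Real.exp 1 := by
    rw [← Real.exp_add]; ring_nf
  have h6 : Real.exp 1 ≤ 3 := by have := Real.exp_one_lt_d9; linarith
  have h7 : 0 ≤ Real.log P := Real.log_natCast_nonneg P
  have hN : (0 : ℝ) < (w : ℝ) ^ 40 := by positivity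
  rw [div_le_iff₀ (by positivity)]
  have h8 := mul_le_mul_of_nonneg_right hO' h7
  have h9 := mul_le_mul_of_nonneg_left h6 (Real.exp_pos ((lev q : ℝ) - 1)).le
  have h10 := mul_nonneg hN.le h7
  linarith

theorem om_val_le {w : ℕ} (t : ℕ) (L : List ℕ) (h : ∀ q ∈ L, q.Prime ∧ Normal w q) :
    val L 1 ≠ 0 ∧ om t (val L 1) ≤ L.length * (t + w ^ 24) := by
  induction L with
  | nil => simp [val, om]
  | cons x L ih =>
    obtain ⟨h1, h2⟩ := ih (fun q hq => h q (by simp [hq]))
    obtain ⟨h3, h4⟩ := h x (by simp)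
    have h5 : x - 1 ≠ 0 := by have := h3.two_le; omega
    rw [val_cons, om_mul t h5 h1]
    refine ⟨mul_ne_zero h5 h1, ?_⟩
    have h6 := (h4 t).1
    have h7 : min t (lev x) ≤ t := min_le_left _ _
    rw [List.length_cons, add_mul]
    omega

theorem val_eq_mul (L : List ℕ) (r : ℕ) : val L r = val L 1 * r := by simp [val]

/-- The weight of the right-hand side of a reduced key. -/
theorem right_weight {w c p A r : ℕ} {L : List ℕ} (hg : Good w (p :: L) r) (hA : A ∣ p - 1)
    {n : ℕ} (hn : L.length = n) :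
    wt (fun q => ((Finset.univ.filter (fun j : Fin n ⊕ Bool => lev q ≤
        Sum.elim (fun i : Fin n => (L.map lev).getD i 0) (fun b => if b then c else w ^ 36) j)).card
          : ℝ)) (A * val L r)
      ≤ Real.exp (TT 1 (levs L) + (levs L).sum + (n + 1) * (w : ℝ) ^ 24 * Real.log (n + 1)
          + ((w : ℝ) ^ 36 + (w : ℝ) ^ 24) + 10 * (w : ℝ) ^ 36 * Real.log (n + 2)) := by
  set f : ℕ → ℝ := fun q => ((Finset.univ.filter (fun j : Fin n ⊕ Bool => lev q ≤
        Sum.elim (fun i : Fin n => (L.map lev).getD i 0) (fun b => if b then c else w ^ 36) j)).card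
          : ℝ) with hf
  have hf0 : ∀ q, 0 ≤ f q := fun q => Nat.cast_nonneg _
  have hn0 : (0 : ℝ) ≤ n := Nat.cast_nonneg n
  have hcnt : ∀ q, ((L.map lev).countP (fun l => decide (lev q ≤ l)) : ℝ) ≤ n := by
    intro q
    have := List.countP_le_length (p := fun l => decide (lev q ≤ l)) (l := L.map lev)
    rw [List.length_map, hn] at this
    exact_mod_cast this
  have hf1 : ∀ q, f q ≤ NN (L.map lev) q + if lev q ≤ w ^ 36 then 1 else 0 := by
    intro q
    simp only [hf, Finset.card_filter]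
    push_cast
    rw [Fintype.sum_sum_type, Fintype.sum_bool]
    show (∑ i : Fin n, if lev q ≤ (L.map lev).getD i 0 then (1 : ℝ) else 0) +
      ((if lev q ≤ c then (1 : ℝ) else 0) + (if lev q ≤ w ^ 36 then (1 : ℝ) else 0)) ≤ _
    rw [sum_fin_getD (L.map lev) (by simpa using hn) (fun l => if lev q ≤ l then (1 : ℝ) else 0),
      sum_ite_eq_countP]
    unfold NN
    have : (if lev q ≤ c then (1 : ℝ) else 0) ≤ 1 := by split_ifs <;> norm_num
    linarith
  have hNN1 : ∀ q, 1 ≤ NN (L.map lev) q := by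
    intro q; unfold NN; linarith [Nat.cast_nonneg (α := ℝ)
      ((L.map lev).countP (fun l => decide (lev q ≤ l)))]
  have hf2 : ∀ q, f q ≤ n + 2 := by
    intro q
    have h1 := hf1 q
    have h2 := hcnt q
    have : (if lev q ≤ w ^ 36 then (1 : ℝ) else 0) ≤ 1 := by split_ifs <;> norm_num
    unfold NN at h1
    linarith
  have hf3 : ∀ q, f q ≤ NN (L.map lev) q * if lev q ≤ w ^ 36 then 1 + 1 / ((n : ℝ) + 1) else 1 := by
    intro q
    have h1 := hf1 q
    split_ifs at h1 ⊢ with h
    · have h2 : NN (L.map lev) q = n + 1 := by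
        unfold NN
        rw [List.countP_eq_length.2, List.length_map, hn, add_comm]
        intro l hl
        obtain ⟨x, hx, rfl⟩ := List.mem_map.1 hl
        have := (hg.2.1 x (by simp [hx])).2.1
        simp only [decide_eq_true_eq]; omega
      rw [h2] at h1 ⊢
      have : ((n : ℝ) + 1) * (1 + 1 / ((n : ℝ) + 1)) = n + 1 + 1 := by field_simp
      linarith
    · linarith
  have hpn : ∀ q ∈ p :: L, q.Prime ∧ Normal w q := fun q hq => ⟨(hg.2.1 q hq).1, (hg.2.1 q hq).2.2⟩
  obtain ⟨hv0, hom⟩ := om_val_le (w ^ 36) (p :: L) hpn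
  have hdvd : A * val L 1 ∣ val (p :: L) 1 := by
    rw [val_cons]; exact mul_dvd_mul_right hA _
  have hAv : A * val L 1 ≠ 0 := ne_zero_of_dvd_ne_zero hv0 hdvd
  have hr : r ≠ 0 := (small_pos hg.2.2).ne'
  rw [val_eq_mul, ← mul_assoc, wt_mul _ hAv hr]
  have hu : (1 : ℝ) ≤ 1 + 1 / ((n : ℝ) + 1) := by
    have : (0 : ℝ) ≤ 1 / ((n : ℝ) + 1) := by positivity
    linarith
  have b1 : wt f (A * val L 1) ≤ Real.exp (TT 1 (levs L) + (levs L).sum +
      (n + 1) * (w : ℝ) ^ 24 * Real.log (n + 1)) * Real.exp ((w : ℝ) ^ 36 + (w : ℝ) ^ 24) := by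
    refine (wt_le_wt hf0 (fun q _ _ => hf3 q)).trans ?_
    refine (wt_le_of_dvd (fun q => one_le_mul_of_one_le_of_one_le (hNN1 q)
      (by split_ifs; exacts [hu, le_rfl])) hdvd hv0).trans ?_
    rw [wt_mul_fun, wt_ite]
    apply mul_le_mul _ _ (by positivity) (Real.exp_pos _).le
    · have h1 := (abs_le.1 (weight_bounds w p L hg.1 hpn)).2
      have h2 : 1 ≤ wt (NN (L.map lev)) (val (p :: L) 1) := by
        have := wt_le_of_dvd hNN1 (one_dvd _) hv0
        rwa [wt_one] at this
      rw [hn] at h1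
      rw [← Real.log_le_iff_le_exp (by linarith)]
      linarith
    · refine (pow_le_pow_right₀ hu hom).trans ?_
      have h1 : 1 + 1 / ((n : ℝ) + 1) ≤ Real.exp (1 / ((n : ℝ) + 1)) := by
        have := Real.add_one_le_exp (1 / ((n : ℝ) + 1)); linarith
      refine (pow_le_pow_left₀ (by linarith) h1 _).trans (le_of_eq ?_)
      rw [← Real.exp_nat_mul, List.length_cons, hn]
      congr 1
      push_cast
      field_simp
  have b2 : wt f r ≤ Real.exp (10 * (w : ℝ) ^ 36 * Real.log (n + 2)) := by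
    refine (wt_le_wt (z' := fun _ => (n : ℝ) + 2) hf0 (fun q _ _ => hf2 q)).trans ?_
    rw [wt_const]
    obtain ⟨ns, -, -, h3⟩ := hg.2.2
    refine (pow_le_pow_right₀ (by linarith) h3).trans (le_of_eq ?_)
    rw [← Real.exp_log (show (0 : ℝ) < n + 2 by linarith), ← Real.exp_nat_mul, Real.log_exp]
    congr 1
    push_cast
    ring
  refine (mul_le_mul b1 b2 (wt_nonneg hf0 _) (by positivity)).trans (le_of_eq ?_)
  rw [← Real.exp_add, ← Real.exp_add]

end Vale.Agent.P031
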