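import Vale.Agent.P031.Coll1

/-! # Collisions: the bound for a fixed shape -/

open Finset Real Filter

namespace Vale.Agent.P031

/-- Conditions on a key `((A, L, r), (A', L', r'))`. -/
def KeyOk (w c : ℕ) (k : (ℕ × List ℕ × ℕ) × (ℕ × List ℕ × ℕ)) : Prop :=
  Good w k.1.2.1 k.1.2.2 ∧ (∃ p', Good w (p' :: k.2.2.1) k.2.2.2 ∧ k.2.1 ∣ p' - 1) ∧
  0 < k.1.1 ∧ 0 < k.2.1 ∧ k.1.1 * val k.1.2.1 k.1.2.2 = k.2.1 * val k.2.2.1 k.2.2.2 ∧
  lev (k.1.1 * val k.1.2.1 k.1.2.2 + 1) ≤ c ∧ k.1.2.1.length ≤ 100 * w ^ 4 ∧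
  k.2.2.1.length ≤ 100 * w ^ 4 ∧ TT 1 (levs k.2.2.1) + (w : ℝ) ^ 38 ≤ c + 2

/-- The boxes attached to a triple. -/
def boxes (n : ℕ) (t : ℕ × List ℕ × ℕ) : Fin n ⊕ Bool → ℕ :=
  Sum.elim (fun i : Fin n => t.2.1.getD i 0 - 1) (fun b => if b then t.1 else t.2.2)

/-- The caps attached to a list of levels. -/
def caps (w c n : ℕ) (Lam : List ℕ) : Fin n ⊕ Bool → ℕ :=
  Sum.elim (fun i : Fin n => Lam.getD i 0) (fun b => if b then c else w ^ 36)

theorem prod_boxes {n : ℕ} {t : ℕ × List ℕ × ℕ} (h : t.2.1.length = n) :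
    ∏ i, boxes n t i = t.1 * val t.2.1 t.2.2 := by
  rw [Fintype.prod_sum_type, Fintype.prod_bool]
  show (∏ i : Fin n, (t.2.1.getD i 0 - 1)) * (t.1 * t.2.2) = _
  rw [prod_fin_getD t.2.1 h (fun q => q - 1), val]
  ring

theorem boxes_inj {w n : ℕ} {t t' : ℕ × List ℕ × ℕ} (h : t.2.1.length = n)
    (h' : t'.2.1.length = n) (g : Good w t.2.1 t.2.2) (g' : Good w t'.2.1 t'.2.2)
    (e : boxes n t = boxes n t') : t = t' := by
  have e1 : t.1 = t'.1 := congrFun e (Sum.inr true)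
  have e2 : t.2.2 = t'.2.2 := congrFun e (Sum.inr false)
  refine Prod.ext e1 (Prod.ext (eq_of_getD h h' (fun i => ?_)) e2)
  have e3 : t.2.1.getD i 0 - 1 = t'.2.1.getD i 0 - 1 := congrFun e (Sum.inl i)
  have a := (g.2.1 _ (getD_mem _ h i)).1.two_le
  have b := (g'.2.1 _ (getD_mem _ h' i)).1.two_le
  omega

theorem boxes_ok {w c n : ℕ} {t : ℕ × List ℕ × ℕ} (h : t.2.1.length = n)
    (g : Good w t.2.1 t.2.2) (hA : 0 < t.1) (hc : lev (t.1 * val t.2.1 t.2.2 + 1) ≤ c)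
    (i : Fin n ⊕ Bool) :
    0 < boxes n t i ∧ boxes n t i ≤ ⌊Real.exp (Real.exp c)⌋₊ ∧
      ∀ q : ℕ, q.Prime → q ∣ boxes n t i → lev q ≤ caps w c n (t.2.1.map lev) i := by
  have hu : 0 < t.1 * val t.2.1 t.2.2 := Nat.mul_pos hA (val_pos g)
  have hd : boxes n t i ∣ t.1 * val t.2.1 t.2.2 := by
    rw [← prod_boxes h]; exact Finset.dvd_prod_of_mem _ (Finset.mem_univ i)
  have h0 := Nat.pos_of_dvd_of_pos hd hu
  have hle := Nat.le_of_dvd hu hd
  have h1 : boxes n t i ∈ upTo c := mem_upTo.2 ⟨h0, (lev_mono (by omega)).trans hc⟩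
  refine ⟨h0, (Finset.mem_Icc.1 h1).2, ?_⟩
  intro q hq hqd
  rcases i with i | b
  · show lev q ≤ (t.2.1.map lev).getD i 0
    rw [getD_map_lev _ h]
    have := Nat.le_of_dvd h0 hqd
    have e : boxes n t (Sum.inl i) = t.2.1.getD i 0 - 1 := rfl
    exact lev_mono (by omega)
  · cases b
    · exact small_primes g.2.2 q hq hqd
    · have := Nat.le_of_dvd h0 hqd
      exact (lev_mono (by omega)).trans hc

theorem boxes_row {w c n : ℕ} (hw : 1 ≤ w) (hcN : c ≤ 21 * w ^ 40) {t : ℕ × List ℕ × ℕ}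
    (h : t.2.1.length = n)
    (g : Good w t.2.1 t.2.2) (hA : 0 < t.1) (hc : lev (t.1 * val t.2.1 t.2.2 + 1) ≤ c)
    (i : Fin n) :
    (boxes n t (Sum.inl i) + 1).Prime ∧ ∃ P : ℕ, P.Prime ∧ P ∣ boxes n t (Sum.inl i) ∧
      Real.exp (Real.exp (caps w c n (t.2.1.map lev) (Sum.inl i) : ℕ) / (200 * (w : ℝ) ^ 40))
        ≤ P := by
  have e : boxes n t (Sum.inl i) = t.2.1.getD i 0 - 1 := rfl
  have e' : caps w c n (t.2.1.map lev) (Sum.inl i) = lev (t.2.1.getD i 0) := getD_map_lev _ h i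
  obtain ⟨a1, a2, a3⟩ := g.2.1 _ (getD_mem _ h i)
  have hu : 0 < t.1 * val t.2.1 t.2.2 := Nat.mul_pos hA (val_pos g)
  have hd : boxes n t (Sum.inl i) ∣ t.1 * val t.2.1 t.2.2 := by
    rw [← prod_boxes h]; exact Finset.dvd_prod_of_mem _ (Finset.mem_univ _)
  have hle := Nat.le_of_dvd hu hd
  have h2 := a1.two_le
  have h3 : lev (t.2.1.getD i 0) ≤ c := (lev_mono (by omega)).trans hc
  rw [e, e', Nat.sub_add_cancel (by omega)]
  refine ⟨a1, ?_⟩
  obtain ⟨P, b1, b2, b3⟩ := big_prime_factor hw a1 a3 (by omega) (by omega)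
  exact ⟨P, b1, b2, (Real.le_log_iff_exp_le (by exact_mod_cast b1.pos)).1 b3⟩

theorem getD_mem' {Lam : List ℕ} (i : Fin Lam.length) : Lam.getD i 0 ∈ Lam := getD_mem _ rfl i

theorem shape_bound : ∀ᶠ w : ℕ in atTop, ∀ c : ℕ, c ≤ 21 * w ^ 40 → ∀ (Lam Lam' : List ℕ)
    (S : Finset ((ℕ × List ℕ × ℕ) × (ℕ × List ℕ × ℕ))),
    (∀ k ∈ S, KeyOk w c k ∧ (∀ q ∈ k.1.2.1, q ∉ k.2.2.1) ∧ k.1.2.1.map lev = Lam ∧
      k.2.2.1.map lev = Lam') →
    ∑ k ∈ S, (1 / ((k.1.1 * val k.1.2.1 k.1.2.2 : ℕ) : ℝ)) ≤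
      Real.exp (2 * c - (w : ℝ) ^ 38 + 12 * (w : ℝ) ^ 37) := by
  classical
  obtain ⟨C, hC0, hC⟩ := smooth_sum_le
  filter_upwards [ev_pow40 sieve2r, ev_pow40 sieve3r, ev_poly_le_exp 200 160,
    ev_poly_le_exp (200 * Real.exp C) 480, ev_poly_le_exp (102 * 102) 8, ev_ge 1000, ev_ge C]
    with w hs2 hs3 hw1 hw2 hw3 hw4 hw5
  intro c hc Lam Lam' S hS
  rcases S.eq_empty_or_nonempty with rfl | ⟨k0, hk0⟩
  · simpa using (Real.exp_pos _).le
  have hw : 1 ≤ w := by exact_mod_cast (by linarith : (1 : ℝ) ≤ w)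
  have hwR : (1 : ℝ) ≤ w := by linarith
  push_cast at hs2 hs3
  obtain ⟨N, hN⟩ : ∃ N : ℝ, N = (w : ℝ) ^ 40 := ⟨_, rfl⟩
  have hN1 : 1 ≤ N := by rw [hN]; exact one_le_pow₀ hwR
  rw [← hN] at hs2 hs3
  let yy : ℕ → ℝ := fun l => Real.exp (Real.exp l / (200 * N))
  let bb : ℕ → ℝ := fun l => N ^ 11 / (Real.exp l / (200 * N))
  have hbb : ∀ l, 0 ≤ bb l := fun l => by simp only [bb]; positivity
  have hyy1 : ∀ l, 1 ≤ yy l := fun l => Real.one_le_exp (by positivity)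
  have hyy2 : ∀ l, Real.log (yy l) = Real.exp l / (200 * N) := fun l => Real.log_exp _
  have hyy3 : ∀ l : ℕ, w ^ 36 < l → N ^ 3 ≤ Real.log (yy l) := by
    intro l hl
    rw [hyy2, le_div_iff₀ (by positivity)]
    have h1 : (w : ℝ) ≤ l := by
      have : w ≤ w ^ 36 := Nat.le_self_pow (by norm_num) w
      exact_mod_cast (by omega : w ≤ l)
    have h2 := Real.exp_le_exp.2 h1
    have h3 : N ^ 3 * (200 * N) = 200 * (w : ℝ) ^ 160 := by rw [hN]; ring
    linarith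
  have hM : ∀ A : ℕ, A ≤ ⌊Real.exp (Real.exp c)⌋₊ → 1 ≤ A → Real.log A ≤ Real.exp (29 * N) := by
    intro A h1 h2
    have h3 := (mem_upTo.1 (Finset.mem_Icc.2 ⟨h2, h1⟩ : A ∈ upTo c)).2
    refine ((lev_le_iff _ _).1 h3).trans (Real.exp_le_exp.2 ?_)
    have : (c : ℝ) ≤ 21 * (w : ℝ) ^ 40 := by exact_mod_cast hc
    linarith
  have hlen : ∀ k ∈ S, k.1.2.1.length = Lam.length := fun k hk => by
    rw [← (hS k hk).2.2.1, List.length_map]
  have hlen' : ∀ k ∈ S, k.2.2.1.length = Lam'.length := fun k hk => by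
    rw [← (hS k hk).2.2.2, List.length_map]
  have hg' : ∀ k ∈ S, Good w k.2.2.1 k.2.2.2 := fun k hk => by
    obtain ⟨p', h, -⟩ := (hS k hk).1.2.1
    exact good_tail h
  have hLam : ∀ l ∈ Lam, w ^ 36 < l := by
    intro l hl
    rw [← (hS k0 hk0).2.2.1] at hl
    obtain ⟨x, hx, rfl⟩ := List.mem_map.1 hl
    exact ((hS k0 hk0).1.1.2.1 x hx).2.1
  have hLam' : ∀ l ∈ Lam', w ^ 36 < l := by
    intro l hl
    rw [← (hS k0 hk0).2.2.2] at hl
    obtain ⟨x, hx, rfl⟩ := List.mem_map.1 hl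
    exact ((hg' k0 hk0).2.1 x hx).2.1
  have hlevs : ∀ k ∈ S, levs k.2.2.1 = Lam'.map (fun l : ℕ => (l : ℝ)) := fun k hk => by
    rw [← (hS k hk).2.2.2, List.map_map]; rfl
  obtain ⟨T, hT⟩ : ∃ T, T = TT 1 (Lam'.map (fun l : ℕ => (l : ℝ))) := ⟨_, rfl⟩
  obtain ⟨Sg, hSg⟩ : ∃ Sg, Sg = (Lam'.map (fun l : ℕ => (l : ℝ))).sum := ⟨_, rfl⟩
  have hTc : T + (w : ℝ) ^ 38 ≤ c + 2 := by
    rw [hT, ← hlevs k0 hk0]; exact (hS k0 hk0).1.2.2.2.2.2.2.2.2
  obtain ⟨a, ha⟩ : ∃ a, a = Lam.length := ⟨_, rfl⟩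
  obtain ⟨b, hb⟩ : ∃ b, b = Lam'.length := ⟨_, rfl⟩
  have haK : a ≤ 100 * w ^ 4 := by
    rw [ha, ← hlen k0 hk0]; exact (hS k0 hk0).1.2.2.2.2.2.2.1
  have hbK : b ≤ 100 * w ^ 4 := by
    rw [hb, ← hlen' k0 hk0]; exact (hS k0 hk0).1.2.2.2.2.2.2.2.1
  rw [← ha] at hlen
  rw [← hb] at hlen'
  have H := core (caps w c a Lam) (caps w c b Lam') (fun i => yy (caps w c a Lam i))
    (fun i => bb (caps w c a Lam i)) (fun i => Real.exp ((caps w c a Lam i : ℕ) + C))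
    (fun j => yy (caps w c b Lam' j)) (fun j => bb (caps w c b Lam' j))
    ⌊Real.exp (Real.exp c)⌋₊
    (Real.exp (T + Sg + (b + 1) * (w : ℝ) ^ 24 * Real.log (b + 1)
          + ((w : ℝ) ^ 36 + (w : ℝ) ^ 24) + 10 * (w : ℝ) ^ 36 * Real.log (b + 2)))
    (Real.exp_pos _).le (fun i => hbb _) (fun i => hbb _) (fun i A hA => hC _ A hA)
    (Finset.univ.map Function.Embedding.inl) (Finset.univ.map Function.Embedding.inl) ?_ ?_ ?_
    (S.image (fun k => (boxes a k.1, boxes b k.2))) ?_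
  · rw [Finset.sum_image] at H
    swap
    · intro k hk k' hk' e
      simp only [Prod.mk.injEq] at e
      exact Prod.ext (boxes_inj (hlen k hk) (hlen k' hk') (hS k hk).1.1 (hS k' hk').1.1 e.1)
        (boxes_inj (hlen' k hk) (hlen' k' hk') (hg' k hk) (hg' k' hk') e.2)
    refine le_trans (le_of_eq (Finset.sum_congr rfl (fun k hk => ?_))) (H.trans ?_)
    · simp only [prod_boxes (hlen k hk)]
    rw [Finset.prod_map, Finset.prod_map, Fintype.prod_sum_type, Fintype.prod_bool,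
      Finset.card_map, Finset.card_map]
    simp only [Fintype.card_sum, Fintype.card_fin, Fintype.card_bool, Finset.card_univ]
    show (((a + 2 : ℕ) : ℝ) * ((b + 2 : ℕ) : ℝ)) ^ (a + b) * (∏ i : Fin a, bb (Lam.getD i 0)) *
      (∏ j : Fin b, bb (Lam'.getD j 0)) * _ *
      ((∏ i : Fin a, Real.exp ((Lam.getD i 0 : ℕ) + C)) *
        (Real.exp ((c : ℝ) + C) * Real.exp (((w ^ 36 : ℕ) : ℝ) + C))) ≤ _
    have haR : (a : ℝ) ≤ 100 * (w : ℝ) ^ 4 := by exact_mod_cast haK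
    have hbR : (b : ℝ) ≤ 100 * (w : ℝ) ^ 4 := by exact_mod_cast hbK
    have ha0 : (0 : ℝ) ≤ a := Nat.cast_nonneg _
    have hb0 : (0 : ℝ) ≤ b := Nat.cast_nonneg _
    have hw4' : 1 ≤ (w : ℝ) ^ 4 := one_le_pow₀ hwR
    have hab : ((a : ℝ) + 2) * (b + 2) ≤ Real.exp w := by
      refine le_trans ?_ hw3
      calc ((a : ℝ) + 2) * (b + 2) ≤ (102 * (w : ℝ) ^ 4) * (102 * (w : ℝ) ^ 4) :=
            mul_le_mul (by linarith) (by linarith) (by linarith) (by linarith)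
        _ = _ := by ring
    have hC1 : 1 ≤ Real.exp C := Real.one_le_exp hC0
    have hN12 : 200 * N ^ 12 * Real.exp C ≤ Real.exp w := by
      refine le_trans (le_of_eq ?_) hw2
      rw [hN]; ring
    have f1 : (((a + 2 : ℕ) : ℝ) * ((b + 2 : ℕ) : ℝ)) ^ (a + b) ≤ Real.exp ((a + b) * w) := by
      push_cast
      refine (pow_le_pow_left₀ (by positivity) hab _).trans (le_of_eq ?_)
      rw [← Real.exp_nat_mul]; push_cast; rfl
    have f2 : (∏ i : Fin a, bb (Lam.getD i 0)) *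
        (∏ i : Fin a, Real.exp ((Lam.getD i 0 : ℕ) + C)) ≤ Real.exp (a * w) := by
      rw [← Finset.prod_mul_distrib, Real.exp_nat_mul]
      refine (Finset.prod_le_prod (g := fun _ => Real.exp w)
        (fun i _ => mul_nonneg (hbb _) (Real.exp_pos _).le) ?_).trans (by simp)
      intro i _
      refine le_trans (le_of_eq ?_) hN12
      simp only [bb]
      rw [Real.exp_add]
      field_simp
    have f3 : (∏ j : Fin b, bb (Lam'.getD j 0)) ≤ Real.exp (b * w - Sg) := by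
      rw [hSg, ← sum_fin_getD Lam' hb.symm (fun l : ℕ => (l : ℝ))]
      have : (b : ℝ) * w - ∑ i : Fin b, (Lam'.getD i 0 : ℝ) =
          ∑ i : Fin b, ((w : ℝ) - (Lam'.getD i 0 : ℝ)) := by
        rw [Finset.sum_sub_distrib]; simp
      rw [this, Real.exp_sum]
      apply Finset.prod_le_prod (fun i _ => hbb _)
      intro i _
      simp only [bb]
      rw [Real.exp_sub, div_div_eq_mul_div]
      apply div_le_div_of_nonneg_right _ (Real.exp_pos _).le
      have : 200 * N ^ 12 ≤ 200 * N ^ 12 * Real.exp C :=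
        le_mul_of_one_le_right (by positivity) hC1
      calc N ^ 11 * (200 * N) = 200 * N ^ 12 := by ring
        _ ≤ _ := this.trans hN12
    have hl2 : Real.log (b + 2) ≤ w := by
      rw [Real.log_le_iff_le_exp (by linarith)]
      nlinarith
    have hl1 : Real.log (b + 1) ≤ w := (Real.log_le_log (by linarith) (by linarith)).trans hl2
    have hl0 : 0 ≤ Real.log (b + 1) := Real.log_nonneg (by linarith)
    have p1 : 0 ≤ ∏ i : Fin a, bb (Lam.getD i 0) := Finset.prod_nonneg (fun i _ => hbb _)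
    have p2 : 0 ≤ ∏ j : Fin b, bb (Lam'.getD j 0) := Finset.prod_nonneg (fun i _ => hbb _)
    have p3 : 0 ≤ ∏ i : Fin a, Real.exp ((Lam.getD i 0 : ℕ) + C) :=
      Finset.prod_nonneg (fun i _ => (Real.exp_pos _).le)
    generalize (∏ i : Fin a, bb (Lam.getD i 0)) = x1 at f2 p1 ⊢
    generalize (∏ j : Fin b, bb (Lam'.getD j 0)) = x2 at f3 p2 ⊢
    generalize (∏ i : Fin a, Real.exp ((Lam.getD i 0 : ℕ) + C)) = x3 at f2 p3 ⊢
    have p0 : 0 ≤ (((a + 2 : ℕ) : ℝ) * ((b + 2 : ℕ) : ℝ)) ^ (a + b) := by positivity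
    generalize (((a + 2 : ℕ) : ℝ) * ((b + 2 : ℕ) : ℝ)) ^ (a + b) = x0 at f1 p0 ⊢
    obtain ⟨FF, hFF⟩ : ∃ FF, FF = T + Sg + (b + 1) * (w : ℝ) ^ 24 * Real.log (b + 1)
          + ((w : ℝ) ^ 36 + (w : ℝ) ^ 24) + 10 * (w : ℝ) ^ 36 * Real.log (b + 2) := ⟨_, rfl⟩
    rw [← hFF]
    calc _ = x0 * (x1 * x3) * x2 * (Real.exp FF * Real.exp ((c : ℝ) + C) *
            Real.exp (((w ^ 36 : ℕ) : ℝ) + C)) := by ring
      _ ≤ Real.exp ((a + b) * w) * Real.exp (a * w) * Real.exp (b * w - Sg) *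
            (Real.exp FF * Real.exp ((c : ℝ) + C) * Real.exp (((w ^ 36 : ℕ) : ℝ) + C)) := by
          gcongr
      _ ≤ _ := by
          simp only [← Real.exp_add]
          apply Real.exp_le_exp.2
          push_cast
          have n1 : 10 * (w : ℝ) ^ 36 * Real.log (b + 2) ≤ 10 * (w : ℝ) ^ 36 * w :=
            mul_le_mul_of_nonneg_left hl2 (by positivity)
          have n2 : (b + 1) * (w : ℝ) ^ 24 * Real.log (b + 1) ≤
              (101 * (w : ℝ) ^ 4) * (w : ℝ) ^ 24 * w :=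
            mul_le_mul (mul_le_mul_of_nonneg_right (by linarith) (by positivity)) hl1 hl0
              (by positivity)
          have n3 : (a : ℝ) * w ≤ 100 * (w : ℝ) ^ 4 * w :=
            mul_le_mul_of_nonneg_right haR (by positivity)
          have n4 : (b : ℝ) * w ≤ 100 * (w : ℝ) ^ 4 * w :=
            mul_le_mul_of_nonneg_right hbR (by positivity)
          have m1 : (w : ℝ) ^ 4 * w ≤ (w : ℝ) ^ 36 := by
            rw [← pow_succ]; exact pow_le_pow_right₀ hwR (by norm_num)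
          have m2 : (w : ℝ) ^ 4 * (w : ℝ) ^ 24 * w ≤ (w : ℝ) ^ 36 := by
            rw [← pow_add, ← pow_succ]; exact pow_le_pow_right₀ hwR (by norm_num)
          have m3 : (w : ℝ) ^ 24 ≤ (w : ℝ) ^ 36 := pow_le_pow_right₀ hwR (by norm_num)
          have m4 : (w : ℝ) ≤ (w : ℝ) ^ 36 := le_self_pow₀ hwR (by norm_num)
          have m5 : (w : ℝ) ^ 37 = (w : ℝ) ^ 36 * w := pow_succ _ _
          have m6 : (w : ℝ) ^ 36 * 1000 ≤ (w : ℝ) ^ 36 * w :=
            mul_le_mul_of_nonneg_left hw4 (by positivity)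
          rw [hFF]
          linarith
  · intro i hi A Ps h1 h2 h3
    obtain ⟨i, -, rfl⟩ := Finset.mem_map.1 hi
    have hl : w ^ 36 < caps w c a Lam (Function.Embedding.inl i) := hLam _ (getD_mem _ ha.symm i)
    have := hs2 _ A Ps (hyy1 _) (hyy3 _ hl) h1 (hM A h2 h1) (fun P hP =>
      ⟨(h3 P hP).1, (h3 P hP).2.1, (h3 P hP).2.2.1, hM P (h3 P hP).2.2.2 (h3 P hP).1.pos⟩)
    rwa [hyy2] at this
  · intro i hi A Ps h1 h2 h3
    obtain ⟨i, -, rfl⟩ := Finset.mem_map.1 hi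
    have hl : w ^ 36 < caps w c b Lam' (Function.Embedding.inl i) := hLam' _ (getD_mem _ hb.symm i)
    have := hs2 _ A Ps (hyy1 _) (hyy3 _ hl) h1 (hM A h2 h1) (fun P hP =>
      ⟨(h3 P hP).1, (h3 P hP).2.1, (h3 P hP).2.2.1, hM P (h3 P hP).2.2.2 (h3 P hP).1.pos⟩)
    rwa [hyy2] at this
  · intro i hi j hj A A' Ps h1 h2 h1' h2' hne h3
    obtain ⟨i, -, rfl⟩ := Finset.mem_map.1 hi
    have hl : w ^ 36 < caps w c a Lam (Function.Embedding.inl i) := hLam _ (getD_mem _ ha.symm i)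
    generalize caps w c a Lam (Function.Embedding.inl i) = l at h3 hl ⊢
    generalize caps w c b Lam' j = l' at h3 ⊢
    have hm : yy l ≤ yy (max l l') := by
      apply Real.exp_le_exp.2
      apply div_le_div_of_nonneg_right _ (by positivity)
      exact Real.exp_le_exp.2 (by exact_mod_cast le_max_left _ _)
    have := hs3 (yy (max l l')) A A' Ps (hyy1 _) (hyy3 _ (hl.trans_le (le_max_left _ _))) h1
      (hM A h2 h1) h1' (hM A' h2' h1') hne (fun P hP =>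
      ⟨(h3 P hP).1, (h3 P hP).2.1, (h3 P hP).2.2.1, by
        rcases max_choice l l' with h | h <;> rw [h]
        exacts [(h3 P hP).2.2.2.1, (h3 P hP).2.2.2.2.1],
        hM P (h3 P hP).2.2.2.2.2 (h3 P hP).1.pos⟩)
    refine this.trans ?_
    rw [hyy2]
    simp only [bb]
    rw [div_mul_div_comm]
    apply div_le_div₀ (by positivity) _ (by positivity)
    · rw [sq]
      apply mul_le_mul _ _ (by positivity) (by positivity)
      · apply div_le_div_of_nonneg_right _ (by positivity)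
        exact Real.exp_le_exp.2 (by exact_mod_cast le_max_left _ _)
      · apply div_le_div_of_nonneg_right _ (by positivity)
        exact Real.exp_le_exp.2 (by exact_mod_cast le_max_right _ _)
    · exact le_mul_of_one_le_right (by positivity) (one_le_pow₀ hN1)
  · intro xy hxy
    obtain ⟨k, hk, rfl⟩ := Finset.mem_image.1 hxy
    obtain ⟨⟨g1, ⟨p', g2, g3⟩, g4, g5, g6, g7, -, -, -⟩, g8, g9, g10⟩ := hS k hk
    have g7' := g7
    rw [g6] at g7'
    refine ⟨?_, ?_, ?_, ?_, ?_, ?_, ?_⟩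
    · simp only [prod_boxes (hlen k hk), prod_boxes (hlen' k hk), g6]
    · rw [← g9]; exact boxes_ok (hlen k hk) g1 g4 g7
    · rw [← g10]; exact boxes_ok (hlen' k hk) (hg' k hk) g5 g7'
    · intro i hi
      obtain ⟨i, -, rfl⟩ := Finset.mem_map.1 hi
      have := boxes_row hw hc (hlen k hk) g1 g4 g7 i
      rwa [g9, ← hN] at this
    · intro i hi
      obtain ⟨i, -, rfl⟩ := Finset.mem_map.1 hi
      have := boxes_row hw hc (hlen' k hk) (hg' k hk) g5 g7' i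
      rwa [g10, ← hN] at this
    · intro i hi j hj e
      obtain ⟨i, -, rfl⟩ := Finset.mem_map.1 hi
      obtain ⟨j, -, rfl⟩ := Finset.mem_map.1 hj
      have e' : k.1.2.1.getD i 0 - 1 = k.2.2.1.getD j 0 - 1 := e
      have m1 := getD_mem _ (hlen k hk) i
      have m2 := getD_mem _ (hlen' k hk) j
      have a1 := (g1.2.1 _ m1).1.two_le
      have a2 := ((hg' k hk).2.1 _ m2).1.two_le
      have e'' : k.1.2.1.getD i 0 = k.2.2.1.getD j 0 := by omega
      exact g8 _ m1 (e'' ▸ m2)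
    · simp only [prod_boxes (hlen' k hk)]
      have := right_weight (c := c) g2 g3 (hlen' k hk)
      rw [hlevs k hk, ← hT, ← hSg, g10] at this
      exact this

end Vale.Agent.P031
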