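import Vale.Agent.P031.Coll2

/-! # Collisions: summing over shapes and common primes -/

open Finset Real Filter

namespace Vale.Agent.P031

theorem sub_one_dvd_val {q : ℕ} {L : List ℕ} (h : q ∈ L) (r : ℕ) : q - 1 ∣ val L r :=
  Dvd.dvd.mul_right (List.dvd_prod (List.mem_map.2 ⟨q, h, rfl⟩)) r

theorem KeyOk.lev_le {w c : ℕ} {k : (ℕ × List ℕ × ℕ) × (ℕ × List ℕ × ℕ)} (h : KeyOk w c k) :
    (∀ q ∈ k.1.2.1, lev q ≤ c) ∧ ∀ q ∈ k.2.2.1, lev q ≤ c := by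
  obtain ⟨g1, ⟨p', g2, g3⟩, g4, g5, g6, g7, -, -, -⟩ := h
  have hu : 0 < k.1.1 * val k.1.2.1 k.1.2.2 := Nat.mul_pos g4 (val_pos g1)
  constructor
  · intro q hq
    have := Nat.le_of_dvd hu (Dvd.dvd.mul_left (sub_one_dvd_val hq _) _)
    exact (lev_mono (by omega)).trans g7
  · intro q hq
    have := Nat.le_of_dvd (g6 ▸ hu) (Dvd.dvd.mul_left (sub_one_dvd_val hq k.2.2.2) k.2.1)
    exact (lev_mono (by omega)).trans g7

theorem card_lists_le (J c : ℕ) (S : Finset (List ℕ))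
    (hS : ∀ L ∈ S, L.length ≤ J ∧ ∀ x ∈ L, x ≤ c) : (S.card : ℝ) ≤ ((c : ℝ) + 2) ^ J := by
  have := sum_lists_le (fun _ : ℕ => (1 : ℝ)) (Finset.range (c + 1)) (fun _ _ => zero_le_one) J S
    (fun L hL => ⟨(hS L hL).1, fun x hx => Finset.mem_range.2 (by
      have := (hS L hL).2 x hx; omega)⟩)
  simp only [List.map_const', List.prod_replicate, one_pow, Finset.sum_const, nsmul_eq_mul,
    mul_one, Finset.card_range] at this
  push_cast at this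
  rwa [show (1 : ℝ) + (c + 1) = c + 2 by ring] at this

theorem red_bound : ∀ᶠ w : ℕ in atTop, ∀ c : ℕ, c ≤ 21 * w ^ 40 → ∀
    (S : Finset ((ℕ × List ℕ × ℕ) × (ℕ × List ℕ × ℕ))),
    (∀ k ∈ S, KeyOk w c k ∧ (∀ q ∈ k.1.2.1, q ∉ k.2.2.1)) →
    ∑ k ∈ S, (1 / ((k.1.1 * val k.1.2.1 k.1.2.2 : ℕ) : ℝ)) ≤
      Real.exp (2 * c - (w : ℝ) ^ 38 + 13 * (w : ℝ) ^ 37) := by
  classical
  filter_upwards [shape_bound, ev_poly_le_exp 23 40, ev_ge 200] with w h hw1 hw2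
  intro c hc S hS
  have hwR : (1 : ℝ) ≤ w := by linarith
  let T1 := S.image (fun k => k.1.2.1.map lev)
  let T2 := S.image (fun k => k.2.2.1.map lev)
  have hcR : (c : ℝ) + 2 ≤ Real.exp w := by
    have h1 : (c : ℝ) ≤ 21 * (w : ℝ) ^ 40 := by exact_mod_cast hc
    have h2 : 1 ≤ (w : ℝ) ^ 40 := one_le_pow₀ hwR
    linarith
  have hpow : ((c : ℝ) + 2) ^ (100 * w ^ 4) ≤ Real.exp (100 * (w : ℝ) ^ 5) := by
    refine (pow_le_pow_left₀ (by positivity) hcR _).trans (le_of_eq ?_)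
    rw [← Real.exp_nat_mul]; congr 1; push_cast; ring
  have c1 : (T1.card : ℝ) ≤ Real.exp (100 * (w : ℝ) ^ 5) := by
    refine (card_lists_le (100 * w ^ 4) c T1 ?_).trans hpow
    intro L hL
    obtain ⟨k, hk, rfl⟩ := Finset.mem_image.1 hL
    refine ⟨by rw [List.length_map]; exact (hS k hk).1.2.2.2.2.2.2.1, fun x hx => ?_⟩
    obtain ⟨q, hq, rfl⟩ := List.mem_map.1 hx
    exact (hS k hk).1.lev_le.1 q hq
  have c2 : (T2.card : ℝ) ≤ Real.exp (100 * (w : ℝ) ^ 5) := by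
    refine (card_lists_le (100 * w ^ 4) c T2 ?_).trans hpow
    intro L hL
    obtain ⟨k, hk, rfl⟩ := Finset.mem_image.1 hL
    refine ⟨by rw [List.length_map]; exact (hS k hk).1.2.2.2.2.2.2.2.1, fun x hx => ?_⟩
    obtain ⟨q, hq, rfl⟩ := List.mem_map.1 hx
    exact (hS k hk).1.lev_le.2 q hq
  rw [← Finset.sum_fiberwise_of_maps_to (t := T1 ×ˢ T2)
    (g := fun k => (k.1.2.1.map lev, k.2.2.1.map lev))
    (fun k hk => Finset.mem_product.2 ⟨Finset.mem_image_of_mem _ hk, Finset.mem_image_of_mem _ hk⟩)]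
  refine (Finset.sum_le_card_nsmul _ _ (Real.exp (2 * c - (w : ℝ) ^ 38 + 12 * (w : ℝ) ^ 37))
    ?_).trans ?_
  · rintro ⟨Lam, Lam'⟩ _
    apply h c hc Lam Lam'
    intro k hk
    obtain ⟨h1, h2⟩ := Finset.mem_filter.1 hk
    simp only [Prod.mk.injEq] at h2
    exact ⟨(hS k h1).1, (hS k h1).2, h2.1, h2.2⟩
  · rw [nsmul_eq_mul, Finset.card_product]
    push_cast
    refine (mul_le_mul_of_nonneg_right (mul_le_mul c1 c2 (Nat.cast_nonneg _) (Real.exp_pos _).le)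
      (Real.exp_pos _).le).trans ?_
    rw [← Real.exp_add, ← Real.exp_add]
    apply Real.exp_le_exp.2
    have m1 : (w : ℝ) ^ 5 ≤ (w : ℝ) ^ 36 := pow_le_pow_right₀ hwR (by norm_num)
    have m5 : (w : ℝ) ^ 37 = (w : ℝ) ^ 36 * w := pow_succ _ _
    have m6 : (w : ℝ) ^ 36 * 200 ≤ (w : ℝ) ^ 36 * w :=
      mul_le_mul_of_nonneg_left hw2 (by positivity)
    linarith

theorem val_filter (L : List ℕ) (r : ℕ) (p : ℕ → Bool) :
    val L r = val (L.filter p) 1 * val (L.filter (fun x => !p x)) r := by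
  have := ((List.filter_append_perm p L).map (· - 1)).prod_eq
  rw [List.map_append, List.prod_append] at this
  simp only [val, mul_one]
  rw [← this, mul_assoc]

theorem inv_val_eq (L : List ℕ) :
    1 / ((val L 1 : ℕ) : ℝ) = (L.map (fun q => 1 / ((q - 1 : ℕ) : ℝ))).prod := by
  induction L with
  | nil => simp [val]
  | cons x L ih =>
    rw [val_cons, List.map_cons, List.prod_cons, ← ih, Nat.cast_mul, one_div_mul_one_div]

theorem inv_pred_le {q : ℕ} (hq : 2 ≤ q) : 1 / ((q - 1 : ℕ) : ℝ) ≤ 2 * (1 / (q : ℝ)) := by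
  have : (2 : ℝ) ≤ q := by exact_mod_cast hq
  rw [Nat.cast_sub (by omega), Nat.cast_one, mul_one_div, div_le_div_iff₀ (by linarith)
    (by linarith)]
  linarith

/-- Reciprocal sum of `val L 1` over short lists of primes. -/
theorem sum_inv_val_le : ∃ C : ℝ, 0 ≤ C ∧ ∀ (J c : ℕ) (S : Finset (List ℕ)),
    (∀ L ∈ S, L.length ≤ J ∧ ∀ q ∈ L, q.Prime ∧ lev q ≤ c) →
    ∑ L ∈ S, 1 / ((val L 1 : ℕ) : ℝ) ≤ (1 + 2 * (c + C)) ^ J := by
  obtain ⟨C, hC0, hC⟩ := mertens_le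
  refine ⟨C, hC0, fun J c S hS => ?_⟩
  simp only [inv_val_eq]
  refine (sum_lists_le _ ((upTo c).filter Nat.Prime) (fun _ _ => by positivity) J S
    (fun L hL => ⟨(hS L hL).1, fun q hq => Finset.mem_filter.2 ⟨mem_upTo.2
      ⟨((hS L hL).2 q hq).1.pos, ((hS L hL).2 q hq).2⟩, ((hS L hL).2 q hq).1⟩⟩)).trans ?_
  apply pow_le_pow_left₀ (by positivity)
  have h1 := hC c ((upTo c).filter Nat.Prime) (fun p hp =>
    ⟨(Finset.mem_filter.1 hp).2, (mem_upTo.1 (Finset.mem_filter.1 hp).1).2⟩)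
  have h2 : ∑ q ∈ (upTo c).filter Nat.Prime, 1 / ((q - 1 : ℕ) : ℝ) ≤
      ∑ q ∈ (upTo c).filter Nat.Prime, 2 * (1 / (q : ℝ)) :=
    Finset.sum_le_sum (fun q hq => inv_pred_le (Finset.mem_filter.1 hq).2.two_le)
  rw [← Finset.mul_sum] at h2
  linarith

theorem key_bound : ∀ᶠ w : ℕ in atTop, ∀ c : ℕ, c ≤ 21 * w ^ 40 → ∀
    (S : Finset ((ℕ × List ℕ × ℕ) × (ℕ × List ℕ × ℕ))), (∀ k ∈ S, KeyOk w c k) →
    ∑ k ∈ S, (1 / ((k.1.1 * val k.1.2.1 k.1.2.2 : ℕ) : ℝ)) ≤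
      Real.exp (2 * c - (w : ℝ) ^ 38 + 14 * (w : ℝ) ^ 37) := by
  classical
  obtain ⟨C, hC0, hC⟩ := sum_inv_val_le
  filter_upwards [red_bound, ev_poly_le_exp (43 + 2 * C) 40, ev_ge 200] with w h hw1 hw2
  intro c hc S hS
  have hwR : (1 : ℝ) ≤ w := by linarith
  let com : (ℕ × List ℕ × ℕ) × (ℕ × List ℕ × ℕ) → List ℕ := fun k =>
    k.1.2.1.filter (fun x => decide (x ∈ k.2.2.1))
  let red : (ℕ × List ℕ × ℕ) × (ℕ × List ℕ × ℕ) → (ℕ × List ℕ × ℕ) × (ℕ × List ℕ × ℕ) := fun k =>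
    ((k.1.1, k.1.2.1.filter (fun x => !decide (x ∈ k.2.2.1)), k.1.2.2),
      (k.2.1, k.2.2.1.filter (fun x => !decide (x ∈ k.1.2.1)), k.2.2.2))
  have hg' : ∀ k ∈ S, Good w k.2.2.1 k.2.2.2 := fun k hk => by
    obtain ⟨p', h, -⟩ := (hS k hk).2.1
    exact good_tail h
  have e1 : ∀ k, k.1.1 * val k.1.2.1 k.1.2.2 =
      val (com k) 1 * ((red k).1.1 * val (red k).1.2.1 (red k).1.2.2) := by
    intro k
    simp only [com, red]
    rw [val_filter k.1.2.1 k.1.2.2 (fun x => decide (x ∈ k.2.2.1))]; ring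
  have e2 : ∀ k ∈ S, k.2.1 * val k.2.2.1 k.2.2.2 =
      val (com k) 1 * ((red k).2.1 * val (red k).2.2.1 (red k).2.2.2) := by
    intro k hk
    have : com k = k.2.2.1.filter (fun x => decide (x ∈ k.1.2.1)) := by
      apply List.Pairwise.eq_of_mem_iff (r := (· > ·)) ((hS k hk).1.1.filter _)
        ((hg' k hk).1.filter _)
      intro a; simp [and_comm]
    rw [this]
    simp only [red]
    rw [val_filter k.2.2.1 k.2.2.2 (fun x => decide (x ∈ k.1.2.1))]; ring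
  have hinj : Set.InjOn (fun k => (com k, red k)) S := by
    intro k hk k' hk' e
    simp only [Prod.mk.injEq, red, com] at e
    obtain ⟨f1, ⟨f2, f3, f4⟩, f5, f6, f7⟩ := e
    have m1 : ∀ a, (a ∈ k.1.2.1 ∧ a ∈ k.2.2.1) ↔ (a ∈ k'.1.2.1 ∧ a ∈ k'.2.2.1) := by
      intro a; simpa using congrArg (a ∈ ·) f1
    have m3 : ∀ a, (a ∈ k.1.2.1 ∧ a ∉ k.2.2.1) ↔ (a ∈ k'.1.2.1 ∧ a ∉ k'.2.2.1) := by
      intro a; simpa using congrArg (a ∈ ·) f3
    have m6 : ∀ a, (a ∈ k.2.2.1 ∧ a ∉ k.1.2.1) ↔ (a ∈ k'.2.2.1 ∧ a ∉ k'.1.2.1) := by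
      intro a; simpa using congrArg (a ∈ ·) f6
    refine Prod.ext (Prod.ext f2 (Prod.ext ?_ f4)) (Prod.ext f5 (Prod.ext ?_ f7))
    · apply List.Pairwise.eq_of_mem_iff (r := (· > ·)) (hS k hk).1.1 (hS k' hk').1.1
      intro a
      have := m1 a; have := m3 a; tauto
    · apply List.Pairwise.eq_of_mem_iff (r := (· > ·)) (hg' k hk).1 (hg' k' hk').1
      intro a
      have := m1 a; have := m6 a; tauto
  have hred : ∀ z ∈ S.image red, KeyOk w c z ∧ (∀ q ∈ z.1.2.1, q ∉ z.2.2.1) := by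
    intro z hz
    obtain ⟨k, hk, rfl⟩ := Finset.mem_image.1 hz
    obtain ⟨g1, ⟨p', g2, g3⟩, g4, g5, g6, g7, g8, g9, g10⟩ := hS k hk
    have hu : 0 < k.1.1 * val k.1.2.1 k.1.2.2 := Nat.mul_pos g4 (val_pos g1)
    have hcom : 0 < val (com k) 1 := by
      rw [e1] at hu; exact Nat.pos_of_mul_pos_right hu
    refine ⟨⟨good_sublist g1 List.filter_sublist, ⟨p', good_sublist g2
      (List.filter_sublist.cons_cons _), g3⟩, g4, g5, ?_, ?_, (List.length_filter_le _ _).trans g8,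
      (List.length_filter_le _ _).trans g9, ?_⟩, ?_⟩
    · apply Nat.eq_of_mul_eq_mul_left hcom
      rw [← e1, ← e2 k hk, g6]
    · refine (lev_mono ?_).trans g7
      rw [e1 k]
      exact Nat.succ_le_succ (Nat.le_mul_of_pos_left _ hcom)
    · have : TT 1 (levs (red k).2.2.1) ≤ TT 1 (levs k.2.2.1) :=
        TT_sublist le_rfl (List.filter_sublist.map _) (levs_nonneg _)
      linarith
    · intro q hq hq'
      simp only [red, List.mem_filter] at hq hq'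
      simp [hq'.1] at hq
  have h1 : ∑ k ∈ S, (1 / ((k.1.1 * val k.1.2.1 k.1.2.2 : ℕ) : ℝ)) =
      ∑ z ∈ S.image (fun k => (com k, red k)), (1 / ((val z.1 1 : ℕ) : ℝ)) *
        (1 / ((z.2.1.1 * val z.2.1.2.1 z.2.1.2.2 : ℕ) : ℝ)) := by
    rw [Finset.sum_image hinj]
    apply Finset.sum_congr rfl
    intro k _
    rw [e1 k, Nat.cast_mul, one_div_mul_one_div]
  have h2 : S.image (fun k => (com k, red k)) ⊆ S.image com ×ˢ S.image red := by
    intro z hz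
    obtain ⟨k, hk, rfl⟩ := Finset.mem_image.1 hz
    exact Finset.mem_product.2 ⟨Finset.mem_image_of_mem _ hk, Finset.mem_image_of_mem _ hk⟩
  rw [h1]
  refine (Finset.sum_le_sum_of_subset_of_nonneg h2 (fun _ _ _ => by positivity)).trans ?_
  rw [Finset.sum_product, ← Finset.sum_mul_sum (S.image com) (S.image red)
    (fun L => 1 / ((val L 1 : ℕ) : ℝ)) (fun z => 1 / ((z.1.1 * val z.1.2.1 z.1.2.2 : ℕ) : ℝ))]
  have h3 := hC (100 * w ^ 4) c (S.image com) (by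
    intro L hL
    obtain ⟨k, hk, rfl⟩ := Finset.mem_image.1 hL
    refine ⟨(List.length_filter_le _ _).trans (hS k hk).2.2.2.2.2.2.1, fun q hq => ?_⟩
    have hq' := List.mem_of_mem_filter hq
    exact ⟨((hS k hk).1.2.1 q hq').1, (hS k hk).lev_le.1 q hq'⟩)
  have hcR : 1 + 2 * ((c : ℝ) + C) ≤ Real.exp w := by
    have h1 : (c : ℝ) ≤ 21 * (w : ℝ) ^ 40 := by exact_mod_cast hc
    have h2 : 1 ≤ (w : ℝ) ^ 40 := one_le_pow₀ hwR
    nlinarith
  have hpow : (1 + 2 * ((c : ℝ) + C)) ^ (100 * w ^ 4) ≤ Real.exp (100 * (w : ℝ) ^ 5) := by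
    refine (pow_le_pow_left₀ (by positivity) hcR _).trans (le_of_eq ?_)
    rw [← Real.exp_nat_mul]; congr 1; push_cast; ring
  refine (mul_le_mul (h3.trans hpow) (h c hc _ hred)
    (Finset.sum_nonneg (fun _ _ => by positivity)) (Real.exp_pos _).le).trans ?_
  rw [← Real.exp_add]
  apply Real.exp_le_exp.2
  have m1 : (w : ℝ) ^ 5 ≤ (w : ℝ) ^ 36 := pow_le_pow_right₀ hwR (by norm_num)
  have m5 : (w : ℝ) ^ 37 = (w : ℝ) ^ 36 * w := pow_succ _ _
  have m6 : (w : ℝ) ^ 36 * 200 ≤ (w : ℝ) ^ 36 * w :=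
    mul_le_mul_of_nonneg_left hw2 (by positivity)
  have m7 : (0 : ℝ) ≤ (w : ℝ) ^ 5 := by positivity
  linarith

end Vale.Agent.P031
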