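import Vale.Agent.P031.Exc

/-!
# Task Dbl: the doubling bound

For `m` in `Tot w` not exceptional with datum `(L, r)` (`data_of_not_bad`), `J = 1300`:
`L.drop J` has head level at most `max (60 N / J) t0` (not `Viol`, `TT_sublist`, `TT_ge_length`),
so `val (L.drop J) r` is a totient of level `<= N / 20` (`lev_le_of_Om`); hence
`SS <= exp (-w) SS + (1 + 2 (20 N + C))^J S0` where `S0` is the reciprocal sum of totients of level
`<= N/20` (`sum_lists_le`, `sum_inv_le_of_cover`, `mertens_le`). A non exceptional `m` of level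
`<= N/20` lies in `MSet 0 (N/4)` because `TT 1 (l :: L') <= l + 3 TT 1 L'`. So
`S0 <= MM w 0 (N/4) + exp (-w) SS`.
-/

open Finset Real Filter

namespace Vale.Agent.P031

theorem val_take_drop (L : List ℕ) (r J : ℕ) :
    val L r = val (L.take J) 1 * val (L.drop J) r := by
  conv_lhs => rw [← List.take_append_drop J L]
  simp only [val, List.map_append, List.prod_append, mul_one, mul_assoc]

theorem head_drop_le {w : ℕ} {L : List ℕ} {r : ℕ} (h : Good w L r) (J : ℕ) {B : ℝ}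
    (hB : TT 1 (levs L) ≤ B) (h0 : (J + 1) * (w : ℝ) ^ 36 ≤ 3 * B) :
    (J + 1) * (levs (L.drop J)).headD ((w : ℝ) ^ 36) ≤ 3 * B := by
  rcases hd : L.drop J with _ | ⟨q, R⟩
  · simpa [levs] using h0
  · have e : L = L.take J ++ q :: R := by rw [← hd, List.take_append_drop]
    have hlen : J < L.length := by
      by_contra hc
      rw [List.drop_eq_nil_of_le (not_lt.1 hc)] at hd
      simp at hd
    have hs : (L.take J ++ [q]).Sublist L := by
      conv_rhs => rw [e]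
      exact List.Sublist.append_left (by simp) _
    have h1 : TT 1 (levs (L.take J ++ [q])) ≤ TT 1 (levs L) :=
      TT_sublist le_rfl (hs.map _) (levs_nonneg _)
    have hp := h.1
    rw [e, List.pairwise_append] at hp
    have h2 := TT_ge_length (i := 1) le_rfl (L := levs (L.take J ++ [q])) (u := lev q)
      (Nat.cast_nonneg _) (by
        intro x hx
        obtain ⟨y, hy, rfl⟩ := List.mem_map.1 hx
        rcases List.mem_append.1 hy with hy | hy
        · exact_mod_cast lev_mono (hp.2.2 y hy q (by simp)).le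
        · rw [List.mem_singleton.1 hy])
    have h3 : (levs (L.take J ++ [q])).length = J + 1 := by
      simp [levs, hlen.le]
    rw [h3] at h2
    push_cast at h2
    show (J + 1) * (lev q : ℝ) ≤ _
    linarith

theorem not_exc {w m : ℕ} (hm : IsTot m) (h : ¬ Exc w m) :
    Om m ≤ w ^ 80 ∧ ∃ L r, Good w L r ∧ val L r = m ∧
      TT 1 (levs L.tail) ≤ lev m + (w : ℝ) ^ 38 := by
  unfold Exc at h
  push Not at h
  obtain ⟨L, r, g, e⟩ := data_of_not_bad hm h.1
  refine ⟨h.2.2, L, r, g, e, ?_⟩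
  cases L with
  | nil => simp [levs]; positivity
  | cons p L =>
    by_contra hc
    exact h.2.1 ⟨p, L, r, g, e, not_le.1 hc⟩

theorem doubling_aux (J : ℕ) (hJ : (J : ℝ) = 1299) : ∀ᶠ w : ℕ in atTop,
    SS w ≤ ((w : ℝ) ^ 40) ^ (2 * (J + 1) + 1) * MM w 0 ((w : ℝ) ^ 40 / 4) := by
  classical
  obtain ⟨C, hC0, hC⟩ := sum_inv_val_le
  filter_upwards [exc_sum, lev_le_of_Om, ev_ge (41 + 2 * C), ev_ge 1000,
    ev_poly_le_exp 4 (80 * (J + 1))] with w hexc hlev hw1 hw2 hw3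
  have hw : (1 : ℝ) ≤ w := by linarith
  have hN : 1 ≤ w ^ 40 := Nat.one_le_pow _ _ (by exact_mod_cast (by linarith : (0 : ℝ) < w))
  have m0 : (0 : ℝ) ≤ (w : ℝ) ^ 36 := by positivity
  have m1 : (w : ℝ) ≤ (w : ℝ) ^ 36 := le_self_pow₀ hw (by norm_num)
  have m2 : (w : ℝ) ^ 36 ≤ (w : ℝ) ^ 38 := pow_le_pow_right₀ hw (by norm_num)
  have m3 : 1000 * (w : ℝ) ^ 38 ≤ (w : ℝ) ^ 40 := by
    rw [show (w : ℝ) ^ 40 = w * w * (w : ℝ) ^ 38 by ring]
    apply mul_le_mul_of_nonneg_right _ (by positivity)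
    nlinarith
  let S0 := (Tot w).filter (fun m => (lev m : ℝ) ≤ (w : ℝ) ^ 40 / 20)
  let G := (Tot w).filter (fun m => ¬ Exc w m)
  have hdata : ∀ m : ℕ, ∃ L : List ℕ, m ∈ G → (L.length ≤ (J + 1) ∧
      ∀ q ∈ L, q.Prime ∧ lev q ≤ 20 * w ^ 40) ∧ ∃ b ∈ S0, m = val L 1 * b := by
    intro m
    by_cases hm : m ∈ G
    swap
    · exact ⟨[], fun h => absurd h hm⟩
    obtain ⟨h1, h2⟩ := Finset.mem_filter.1 hm
    obtain ⟨h3, h4⟩ := mem_Tot.1 h1
    obtain ⟨h5, L, r, g, e, h6⟩ := not_exc h3 h2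
    have hm0 := isTot_pos h3
    have h4' : (lev m : ℝ) ≤ 19 * (w : ℝ) ^ 40 := by exact_mod_cast h4
    have hd : val (L.drop (J + 1)) r ∣ m := by
      rw [← e, val_take_drop L r (J + 1)]; exact dvd_mul_left _ _
    have g' : Good w (L.drop (J + 1)) r := good_sublist g (List.drop_sublist _ _)
    refine ⟨L.take (J + 1), fun _ => ⟨⟨List.length_take_le _ _, fun q hq => ?_⟩, val (L.drop (J + 1)) r,
      Finset.mem_filter.2 ⟨mem_Tot.2 ⟨good_isTot g', (lev_mono (Nat.le_of_dvd hm0 hd)).trans h4⟩,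
        ?_⟩, by rw [← e]; exact val_take_drop L r (J + 1)⟩⟩
    · have hq' := List.mem_of_mem_take hq
      refine ⟨(g.2.1 q hq').1, ?_⟩
      have d1 := Nat.le_of_dvd hm0 (e ▸ sub_one_dvd_val hq' r)
      have d3 := lev_succ_le m
      have d4 : lev q ≤ lev (m + 1) := lev_mono (by omega)
      omega
    · have h7 := head_drop_le (good_sublist g (List.tail_sublist L)) J
        (B := 20 * (w : ℝ) ^ 40) (by linarith) (by rw [hJ]; linarith)
      rw [List.drop_tail, hJ] at h7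
      have h8 := (hlev _ _ (m0.trans (good_t0_le_head g')) (val_pos g')
        ((Om_le_of_dvd hd hm0.ne').trans h5) (good_primes g')).2
      have h9 : (lev (val (L.drop (J + 1)) r) : ℝ) ≤ lev (val (L.drop (J + 1)) r + 1) := by
        exact_mod_cast lev_mono (Nat.le_succ _)
      linarith
  choose LL hLL using hdata
  have h1 := sum_inv_le_of_cover G (G.image LL) S0 (fun L => val L 1) (fun m hm =>
    ⟨LL m, Finset.mem_image_of_mem _ hm, (hLL m hm).2⟩)
  have h2 := hC (J + 1) (20 * w ^ 40) (G.image LL) (by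
    intro L hL
    obtain ⟨m, hm, rfl⟩ := Finset.mem_image.1 hL
    exact (hLL m hm).1)
  have h3 : (1 + 2 * (((20 * w ^ 40 : ℕ) : ℝ) + C)) ^ (J + 1) ≤ ((w : ℝ) ^ 80) ^ (J + 1) := by
    apply pow_le_pow_left₀ (by positivity)
    have a1 : (1 : ℝ) ≤ (w : ℝ) ^ 40 := one_le_pow₀ hw
    have a2 : (w : ℝ) ^ 80 = (w : ℝ) ^ 40 * (w : ℝ) ^ 40 := by ring
    have a3 : (w : ℝ) ^ 40 * (41 + 2 * C) ≤ (w : ℝ) ^ 40 * (w : ℝ) ^ 40 :=
      mul_le_mul_of_nonneg_left (by linarith) (by positivity)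
    push_cast
    nlinarith
  have h4 : ∑ m ∈ S0, (1 / (m : ℝ)) ≤ MM w 0 ((w : ℝ) ^ 40 / 4) + Real.exp (-(w : ℝ)) * SS w := by
    apply sum_le_of_or (p := fun m => ¬ Exc w m) (q := fun m => Exc w m) (fun m _ => em' _)
    · intro T hT
      apply Finset.sum_le_sum_of_subset_of_nonneg _ (fun _ _ _ => by positivity)
      intro m hm
      obtain ⟨a1, a2⟩ := hT m hm
      obtain ⟨a3, a4⟩ := Finset.mem_filter.1 a1
      obtain ⟨h5, L, r, g, e, h6⟩ := not_exc (mem_Tot.1 a3).1 a2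
      refine Finset.mem_filter.2 ⟨a3, L, r, g, e, ?_⟩
      show max _ _ ≤ _
      cases L with
      | nil =>
        apply max_le
        · show (0 : ℝ) ≤ _
          linarith
        · show (w : ℝ) ^ 36 ≤ _
          linarith
      | cons p L =>
        have hm0 := isTot_pos (mem_Tot.1 a3).1
        have d1 := Nat.le_of_dvd hm0 (e ▸ sub_one_dvd_val (List.mem_cons_self (a := p) (l := L)) r)
        have d3 := lev_succ_le m
        have d4 : lev p ≤ lev (m + 1) := lev_mono (by omega)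
        have d5 : (lev p : ℝ) ≤ lev m + 1 := by exact_mod_cast d4.trans d3
        have d6 := TT_succ_le (i := 1) le_rfl (levs_nonneg L)
        have d7 := mul_le_mul_of_nonneg_right aa_one_le (Nat.cast_nonneg (α := ℝ) (lev p))
        rw [List.tail_cons] at h6
        apply max_le
        · show aa 1 * (lev p : ℝ) + TT (1 + 1) (levs L) ≤ _
          linarith
        · show (lev p : ℝ) ≤ _
          linarith
    · intro T hT
      refine le_trans (Finset.sum_le_sum_of_subset_of_nonneg ?_ (fun _ _ _ => by positivity)) hexc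
      intro m hm
      exact Finset.mem_filter.2 ⟨(Finset.mem_filter.1 (hT m hm).1).1, (hT m hm).2⟩
  have h5 : SS w = ∑ m ∈ (Tot w).filter (fun m => Exc w m), (1 / (m : ℝ)) +
      ∑ m ∈ G, (1 / (m : ℝ)) := (Finset.sum_filter_add_sum_filter_not _ _ _).symm
  obtain ⟨Q, hQ⟩ : ∃ Q, Q = ((w : ℝ) ^ 80) ^ (J + 1) := ⟨_, rfl⟩
  have hQ1 : 1 ≤ Q := by rw [hQ]; exact one_le_pow₀ (one_le_pow₀ hw)
  rw [← hQ] at h3
  have h6 := h1.trans (mul_le_mul (h2.trans h3) h4 (Finset.sum_nonneg (fun _ _ => by positivity))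
    (by linarith))
  have h7 : Q * Real.exp (-(w : ℝ)) ≤ 1 / 4 := by
    rw [Real.exp_neg, ← div_eq_mul_inv, div_le_iff₀ (Real.exp_pos _), hQ, ← pow_mul]
    linarith
  have h8 : Real.exp (-(w : ℝ)) ≤ Q * Real.exp (-(w : ℝ)) :=
    le_mul_of_one_le_left (Real.exp_pos _).le hQ1
  have hS := one_le_SS w
  have h9 := mul_le_mul_of_nonneg_right h7 (zero_le_one.trans hS)
  have h10 := mul_le_mul_of_nonneg_right (h8.trans h7) (zero_le_one.trans hS)
  have h11 : ((w : ℝ) ^ 40) ^ (2 * (J + 1) + 1) = (w : ℝ) ^ 40 * Q := by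
    rw [hQ, ← pow_mul, ← pow_mul, ← pow_add]
    congr 1; ring
  have h12 : 0 ≤ Q * MM w 0 ((w : ℝ) ^ 40 / 4) := mul_nonneg (by linarith) (MM_nonneg _ _ _)
  have h13 : 2 * (Q * MM w 0 ((w : ℝ) ^ 40 / 4)) ≤ (w : ℝ) ^ 40 * (Q * MM w 0 ((w : ℝ) ^ 40 / 4)) :=
    mul_le_mul_of_nonneg_right (by linarith) h12
  rw [h11, mul_assoc]
  rw [mul_add, ← mul_assoc] at h6
  linarith


theorem doubling : ∃ A : ℕ, ∀ᶠ w : ℕ in atTop,
    SS w ≤ ((w : ℝ) ^ 40) ^ A * MM w 0 ((w : ℝ) ^ 40 / 4) := by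
  exact ⟨_, doubling_aux 1299 (by norm_num)⟩

end Vale.Agent.P031
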