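import Mathlib

/-!
# P031 (Erdos-Hall): internal definitions of the proof of V(cx)/V(x) -> c

Parameters, for a large natural number `w`:
`E = w^24` (normality error), `t0 = w^36` (big/small prime cut), `B = 10 w^36`,
`Delta = w^38`, `N = w^40` (size of log log x), `N^2 = w^80` (cap for Omega).
-/

open Finset Real

namespace Vale.Agent.P031

/-- The level `ceil (log log n)` of a natural number. -/
noncomputable def lev (n : ℕ) : ℕ := ⌈Real.log (Real.log n)⌉₊

/-- Positive integers of level at most `t`. -/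
noncomputable def upTo (t : ℕ) : Finset ℕ := Finset.Icc 1 ⌊Real.exp (Real.exp t)⌋₊

/-- Number of prime factors of `a`, with multiplicity. -/
def Om (a : ℕ) : ℕ := a.primeFactorsList.length

/-- Number of prime factors of `a` of level at most `t`, with multiplicity. -/
noncomputable def om (t a : ℕ) : ℕ := a.primeFactorsList.countP (fun q => decide (lev q ≤ t))

/-- The completely multiplicative function with value `z q` at the prime `q`. -/
noncomputable def wt (z : ℕ → ℝ) (a : ℕ) : ℝ := (a.primeFactorsList.map z).prod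

/-- `p - 1` has the expected number of prime factors up to every level. -/
def Normal (w p : ℕ) : Prop :=
  ∀ t : ℕ, om t (p - 1) ≤ min t (lev p) + w ^ 24 ∧ min t (lev p) ≤ om t (p - 1) + w ^ 24

/-- All prime factors are small. -/
def Smooth (w n : ℕ) : Prop := 0 < n ∧ ∀ q : ℕ, q.Prime → q ∣ n → lev q ≤ w ^ 36

/-- Totient of a smooth number, with few prime factors. -/
def Small (w r : ℕ) : Prop := ∃ ns, Smooth w ns ∧ r = Nat.totient ns ∧ Om r ≤ 10 * w ^ 36

/-- A good datum: a strictly decreasing list of big normal primes and a small part. -/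
def Good (w : ℕ) (L : List ℕ) (r : ℕ) : Prop :=
  L.Pairwise (· > ·) ∧ (∀ p ∈ L, p.Prime ∧ w ^ 36 < lev p ∧ Normal w p) ∧ Small w r

/-- The totient value of a datum. -/
def val (L : List ℕ) (r : ℕ) : ℕ := (L.map (· - 1)).prod * r

/-- Ford's coefficients `a_i`. -/
noncomputable def aa (i : ℕ) : ℝ := (i + 1) * Real.log (i + 1) - i * Real.log i - 1

/-- `TT i [x_0, x_1, ...] = a_i x_0 + a_(i+1) x_1 + ...`. -/
noncomputable def TT : ℕ → List ℝ → ℝ
  | _, [] => 0
  | i, x :: L => aa i * x + TT (i + 1) L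

/-- The least admissible level above the list `L`. -/
noncomputable def Tt (t0 : ℝ) (L : List ℝ) : ℝ := max (TT 1 L) (L.headD t0)

/-- The least admissible level `j + 1` steps above the list `L`. -/
noncomputable def tau (t0 : ℝ) : ℕ → List ℝ → ℝ
  | 0, L => Tt t0 L
  | j + 1, L => tau t0 j (Tt t0 L :: L)

/-- The list of levels, as reals. -/
noncomputable def levs (L : List ℕ) : List ℝ := L.map (fun p => (lev p : ℝ))

/-- One plus the number of entries of `Lam` that are at least the level of `q`. -/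
noncomputable def NN (Lam : List ℕ) (q : ℕ) : ℝ :=
  1 + (Lam.countP (fun l => decide (lev q ≤ l)) : ℝ)

/-- Totient values. -/
def IsTot (m : ℕ) : Prop := ∃ n, 0 < n ∧ Nat.totient n = m

/-- `v` has a good datum violating the top simplex inequality. -/
def Viol (w v : ℕ) : Prop :=
  ∃ p L r, Good w (p :: L) r ∧ val (p :: L) r = v ∧ (lev v : ℝ) + (w : ℝ) ^ 38 < TT 1 (levs L)

/-- The integer `n` is represented by the good datum `(L, r)`. -/
def Rep (w n : ℕ) (L : List ℕ) (r : ℕ) : Prop :=
  Good w L r ∧ ∃ ns, Smooth w ns ∧ n = L.prod * ns ∧ r = Nat.totient ns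

/-- `m` has a preimage that is not represented by a good datum. -/
def Bad (w m : ℕ) : Prop := ∃ n, 0 < n ∧ Nat.totient n = m ∧ ∀ L r, ¬ Rep w n L r

/-- Exceptional values. -/
def Exc (w m : ℕ) : Prop := Bad w m ∨ Viol w m ∨ w ^ 80 < Om m

open Classical in
/-- Totient values of level at most `19 N`. -/
noncomputable def Tot (w : ℕ) : Finset ℕ := (upTo (19 * w ^ 40)).filter IsTot

/-- Sum of reciprocals of the totient values of level at most `19 N`. -/
noncomputable def SS (w : ℕ) : ℝ := ∑ m ∈ Tot w, (1 / (m : ℝ))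

open Classical in
/-- The totient values having a good datum with `tau_j` at most `t`. -/
noncomputable def MSet (w j : ℕ) (t : ℝ) : Finset ℕ :=
  (Tot w).filter (fun m => ∃ L r, Good w L r ∧ val L r = m ∧ tau ((w : ℝ) ^ 36) j (levs L) ≤ t)

/-- Sum of reciprocals over `MSet`. -/
noncomputable def MM (w j : ℕ) (t : ℝ) : ℝ := ∑ m ∈ MSet w j t, (1 / (m : ℝ))

open Classical in
/-- The number of totient values up to `x`. -/
noncomputable def VV (x : ℝ) : ℕ := ((Finset.Icc 1 ⌊x⌋₊).filter IsTot).card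

/-- A colliding pair of data, both satisfying the top inequality with room to spare. -/
def Coll (w : ℕ) (d : (ℕ × List ℕ × ℕ) × (ℕ × List ℕ × ℕ)) : Prop :=
  Good w (d.1.1 :: d.1.2.1) d.1.2.2 ∧ Good w (d.2.1 :: d.2.2.1) d.2.2.2 ∧
  val (d.1.1 :: d.1.2.1) d.1.2.2 = val (d.2.1 :: d.2.2.1) d.2.2.2 ∧ d.1.1 ≠ d.2.1 ∧
  Tt ((w : ℝ) ^ 36) (levs d.1.2.1) + (w : ℝ) ^ 38 ≤ lev d.1.1 ∧
  Tt ((w : ℝ) ^ 36) (levs d.2.2.1) + (w : ℝ) ^ 38 ≤ lev d.2.1

end Vale.Agent.P031
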