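import Vale.Agent.P031.Mertens
import Vale.Agent.P031.Asym

/-!
# Shared counting tools for the tasks Normal and Viol
-/

open Finset Real Filter

namespace Vale.Agent.P031

theorem count_split (S A : Finset ℕ) (F : ℕ → Finset ℕ)
    (h : ∀ n ∈ S, ∃ a ∈ A, ∃ P ∈ F a, n = a * P) :
    (S.card : ℝ) ≤ ∑ a ∈ A, ((F a).card : ℝ) := by
  classical
  have h1 : S ⊆ A.biUnion (fun a => (F a).image (fun P => a * P)) := by
    intro n hn
    obtain ⟨a, ha, P, hP, rfl⟩ := h n hn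
    exact Finset.mem_biUnion.2 ⟨a, ha, Finset.mem_image.2 ⟨P, hP, rfl⟩⟩
  have h2 : S.card ≤ ∑ a ∈ A, (F a).card :=
    (Finset.card_le_card h1).trans (Finset.card_biUnion_le.trans
      (Finset.sum_le_sum fun a _ => Finset.card_image_le))
  exact_mod_cast h2

theorem sum_cover {ι : Type*} (A : Finset ℕ) (I : Finset ι) (R : ι → ℕ → Prop) (f : ℕ → ℝ)
    (hf : ∀ a, 0 ≤ f a) (h : ∀ a ∈ A, ∃ i ∈ I, R i a) (B : ℝ)
    (hB : ∀ i ∈ I, ∀ A' : Finset ℕ, (∀ a ∈ A', a ∈ A ∧ R i a) → ∑ a ∈ A', f a ≤ B) :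
    ∑ a ∈ A, f a ≤ I.card * B := by
  classical
  have h1 : ∑ a ∈ A, f a ≤ ∑ a ∈ A, ∑ i ∈ I, if R i a then f a else 0 := by
    apply Finset.sum_le_sum
    intro a ha
    obtain ⟨i, hi, hR⟩ := h a ha
    have := Finset.single_le_sum (f := fun i => if R i a then f a else 0) (s := I)
      (fun j _ => by by_cases hj : R j a <;> simp [hj, hf a]) hi
    simpa [hR] using this
  rw [Finset.sum_comm] at h1
  refine h1.trans ?_
  rw [← nsmul_eq_mul]
  apply Finset.sum_le_card_nsmul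
  intro i hi
  rw [← Finset.sum_filter]
  exact hB i hi _ (fun a ha => Finset.mem_filter.1 ha)

theorem split_largest {X : ℝ} {K m : ℕ} (hX : 1 ≤ X) (hm1 : Real.sqrt X < m) (hm2 : (m : ℝ) ≤ X)
    (hK : Om m ≤ K) (hK1 : 0 < K) :
    ∃ a P : ℕ, P.Prime ∧ m = a * P ∧ a ∈ Finset.Icc 1 ⌊X⌋₊ ∧ P ∈ Finset.Icc 1 ⌊X / a⌋₊ ∧
      Real.log X / (2 * K) ≤ Real.log (X / a) := by
  have hs : 1 ≤ Real.sqrt X := Real.one_le_sqrt.2 hX
  have hm : 2 ≤ m := by
    have : (1 : ℝ) < m := by linarith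
    have : 1 < m := by exact_mod_cast this
    omega
  obtain ⟨P, hP, ⟨a, ha⟩, -, hlog⟩ := exists_largest_prime hm
  have ha0 : 0 < a := by
    rcases Nat.eq_zero_or_pos a with rfl | h
    · omega
    · exact h
  have ha0' : (0 : ℝ) < a := by exact_mod_cast ha0
  have hP1 : (1 : ℝ) ≤ P := by exact_mod_cast hP.one_le
  have hmr : (m : ℝ) = P * a := by rw [ha]; push_cast; ring
  have hPX : (P : ℝ) ≤ X / a := by rw [le_div_iff₀ ha0']; linarith
  refine ⟨a, P, hP, by rw [ha, mul_comm], ?_, ?_, ?_⟩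
  · rw [Finset.mem_Icc]
    exact ⟨ha0, Nat.le_floor (by nlinarith)⟩
  · rw [Finset.mem_Icc]
    exact ⟨hP.one_le, Nat.le_floor hPX⟩
  · have h1 : Real.log (Real.sqrt X) ≤ Real.log m := Real.log_le_log (by linarith) hm1.le
    rw [Real.log_sqrt (by linarith)] at h1
    have h2 : Real.log P ≤ Real.log (X / a) := Real.log_le_log (by linarith) hPX
    have h3 : 0 ≤ Real.log P := Real.log_nonneg hP1
    have hK' : (Om m : ℝ) ≤ K := by exact_mod_cast hK
    have hK1' : (0 : ℝ) < K := by exact_mod_cast hK1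
    rw [div_le_iff₀ (by positivity)]
    nlinarith [mul_le_mul_of_nonneg_right hK' h3, mul_le_mul_of_nonneg_left h2 hK1'.le]

/-- The level of `X`. -/
theorem lev_le_ceil {X : ℝ} {m : ℕ} (hm : (m : ℝ) ≤ X) (hX : 0 < Real.log X) :
    lev m ≤ ⌈Real.log (Real.log X)⌉₊ := by
  rw [lev_le_iff]
  have h1 : Real.log m ≤ Real.log X := by
    rcases Nat.eq_zero_or_pos m with rfl | h
    · simpa using hX.le
    · exact Real.log_le_log (by exact_mod_cast h) hm
  refine h1.trans ?_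
  rw [← Real.log_le_iff_le_exp hX]
  exact Nat.le_ceil _

theorem ceil_le_lev {X : ℝ} {m : ℕ} (hX1 : 1 ≤ X) (hm : Real.sqrt X ≤ m) (hX : 1 ≤ Real.log X) :
    ⌈Real.log (Real.log X)⌉₊ ≤ lev m + 2 := by
  have hs : 1 ≤ Real.sqrt X := Real.one_le_sqrt.2 hX1
  have h1 : Real.log (Real.sqrt X) ≤ Real.log m := Real.log_le_log (by linarith) hm
  rw [Real.log_sqrt (by linarith)] at h1
  rw [Nat.ceil_le, Real.log_le_iff_le_exp (by linarith)]
  have h2 := log_le_exp_lev m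
  push_cast
  rw [Real.exp_add]
  have h3 : (2 : ℝ) ≤ Real.exp 2 := by have := Real.add_one_le_exp (2 : ℝ); linarith
  have h4 := Real.exp_pos (lev m : ℝ)
  nlinarith

theorem ceil_le_25 {X : ℝ} {N : ℕ} (hX : 0 < Real.log X)
    (h : Real.log X ≤ Real.exp (25 * (N : ℝ))) : ⌈Real.log (Real.log X)⌉₊ ≤ 25 * N := by
  rw [Nat.ceil_le, Real.log_le_iff_le_exp hX]
  push_cast
  exact h

theorem num_sqrt {L u : ℝ} (hL : 288 ≤ L) (hu : Real.exp u ≤ L) :
    Real.exp (L / 2) ≤ Real.exp (-u) * Real.exp L / L / 3 := by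
  have hL0 : 0 < L := by linarith
  have h1 : (L / 2) ^ 3 / 6 ≤ Real.exp (L / 2) := by
    have := Real.pow_div_factorial_le_exp (L / 2) (by positivity) 3
    simpa [Nat.factorial] using this
  have h2 : 3 * L * Real.exp u ≤ Real.exp (L / 2) := by
    have : 3 * L * Real.exp u ≤ 3 * L * L := by nlinarith
    nlinarith [mul_nonneg (sub_nonneg.2 hL) (sq_nonneg L)]
  have h3 : Real.exp L = Real.exp (L / 2) * Real.exp (L / 2) := by
    rw [← Real.exp_add]; ring_nf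
  have h4 := Real.exp_pos (L / 2)
  have h5 := Real.exp_pos u
  rw [h3, Real.exp_neg, le_div_iff₀ (by norm_num), le_div_iff₀ hL0, inv_mul_eq_div,
    le_div_iff₀ h5]
  nlinarith

theorem num_many {C L : ℝ} {w : ℝ} {T : ℕ} (hw : 1000 ≤ w) (hC : C ≤ w) (hL0 : 0 < L)
    (hL : L ≤ Real.exp (25 * w ^ 40)) (hT : (T : ℝ) ≤ 25 * w ^ 40) :
    Real.exp (3 / 2 * T - 2 / 5 * w ^ 80 + C) ≤ Real.exp (-w ^ 3) / L / 3 := by
  rw [le_div_iff₀ (by norm_num), le_div_iff₀ hL0]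
  have h3 : (3 : ℝ) ≤ Real.exp 2 := by have := Real.add_one_le_exp (2 : ℝ); linarith
  have h1 : Real.exp (3 / 2 * T - 2 / 5 * w ^ 80 + C) * 3 * L ≤
      Real.exp (3 / 2 * T - 2 / 5 * w ^ 80 + C) * Real.exp 2 * Real.exp (25 * w ^ 40) := by
    gcongr
  refine h1.trans ?_
  rw [← Real.exp_add, ← Real.exp_add, Real.exp_le_exp]
  have hw1 : 1 ≤ w := by linarith
  have a1 : w ≤ w ^ 40 := by simpa using pow_le_pow_right₀ hw1 (by norm_num : 1 ≤ 40)
  have a2 : w ^ 3 ≤ w ^ 40 := pow_le_pow_right₀ hw1 (by norm_num)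
  have a3 : w ^ 80 = w ^ 40 * w ^ 40 := by ring
  rw [a3]
  generalize w ^ 40 = N at *
  generalize w ^ 3 = M at *
  nlinarith

theorem count_three : ∀ᶠ w : ℕ in atTop, ∀ X : ℝ, 1 ≤ X → Real.exp ((w : ℝ) ^ 3) ≤ Real.log X →
    Real.log X ≤ Real.exp (25 * (w : ℝ) ^ 40) → ∀ S : Finset ℕ, S ⊆ Finset.Icc 1 ⌊X⌋₊ →
    ((S.filter (fun m : ℕ => Real.sqrt X < m ∧ Om m ≤ w ^ 80)).card : ℝ)
      ≤ Real.exp (-(w : ℝ) ^ 3) * X / Real.log X / 3 →
    (S.card : ℝ) ≤ Real.exp (-(w : ℝ) ^ 3) * X / Real.log X := by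
  classical
  obtain ⟨C, hC0, hC⟩ := many_factors_sum_le
  filter_upwards [ev_ge C, ev_ge 1000] with w hwC hw X hX hL1 hL2 S hS h3
  have hX0 : 0 < X := by linarith
  have hL : 288 ≤ Real.log X := by
    have a1 := Real.add_one_le_exp ((w : ℝ) ^ 3)
    have a2 : (w : ℝ) ≤ (w : ℝ) ^ 3 := by
      simpa using pow_le_pow_right₀ (by linarith : (1 : ℝ) ≤ w) (by norm_num : 1 ≤ 3)
    linarith
  have hL0 : 0 < Real.log X := by linarith
  have hsub : S ⊆ (Finset.Icc 1 ⌊Real.sqrt X⌋₊ ∪ S.filter (fun m => w ^ 80 < Om m)) ∪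
      S.filter (fun m : ℕ => Real.sqrt X < m ∧ Om m ≤ w ^ 80) := by
    intro m hm
    simp only [Finset.mem_union, Finset.mem_filter, Finset.mem_Icc]
    by_cases h1 : Real.sqrt X < m
    · by_cases h2 : Om m ≤ w ^ 80
      · exact Or.inr ⟨hm, h1, h2⟩
      · exact Or.inl (Or.inr ⟨hm, not_le.1 h2⟩)
    · exact Or.inl (Or.inl ⟨(Finset.mem_Icc.1 (hS hm)).1, Nat.le_floor (not_lt.1 h1)⟩)
  have hcard : S.card ≤ (Finset.Icc 1 ⌊Real.sqrt X⌋₊).card +
      (S.filter (fun m => w ^ 80 < Om m)).card +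
      (S.filter (fun m : ℕ => Real.sqrt X < m ∧ Om m ≤ w ^ 80)).card :=
    (Finset.card_le_card hsub).trans ((Finset.card_union_le _ _).trans
      (Nat.add_le_add_right (Finset.card_union_le _ _) _))
  have h1 : ((Finset.Icc 1 ⌊Real.sqrt X⌋₊).card : ℝ) ≤
      Real.exp (-(w : ℝ) ^ 3) * X / Real.log X / 3 := by
    rw [Nat.card_Icc, Nat.add_sub_cancel]
    refine (Nat.floor_le (Real.sqrt_nonneg X)).trans ?_
    have := num_sqrt hL hL1
    rw [Real.exp_log hX0] at this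
    rwa [Real.sqrt_eq_rpow, Real.rpow_def_of_pos hX0, mul_one_div]
  have h2 : ((S.filter (fun m => w ^ 80 < Om m)).card : ℝ) ≤
      Real.exp (-(w : ℝ) ^ 3) * X / Real.log X / 3 := by
    have b1 : ((S.filter (fun m => w ^ 80 < Om m)).card : ℝ) ≤
        X * ∑ a ∈ S.filter (fun m => w ^ 80 < Om m), (1 / (a : ℝ)) := by
      rw [Finset.mul_sum, Finset.card_eq_sum_ones]
      push_cast
      apply Finset.sum_le_sum
      intro a ha
      have ha' := Finset.mem_Icc.1 (hS (Finset.mem_filter.1 ha).1)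
      have : (a : ℝ) ≤ X := (Nat.le_floor_iff hX0.le).1 ha'.2
      have ha0 : (0 : ℝ) < a := by exact_mod_cast ha'.1
      rw [mul_one_div, le_div_iff₀ ha0]
      linarith
    have b2 := hC ⌈Real.log (Real.log X)⌉₊ (w ^ 80) (S.filter (fun m => w ^ 80 < Om m)) (by
      intro a ha
      have ha' := Finset.mem_Icc.1 (hS (Finset.mem_filter.1 ha).1)
      have : (a : ℝ) ≤ X := (Nat.le_floor_iff hX0.le).1 ha'.2
      exact ⟨ha'.1, fun q _ hq => (lev_mono (Nat.le_of_dvd ha'.1 hq)).trans (lev_le_ceil this hL0),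
        (Finset.mem_filter.1 ha).2⟩)
    have b3 : ((⌈Real.log (Real.log X)⌉₊ : ℕ) : ℝ) ≤ 25 * (w : ℝ) ^ 40 := by
      have := ceil_le_25 (N := w ^ 40) hL0 (by push_cast; exact hL2)
      exact_mod_cast this
    have b4 := num_many hw hwC hL0 hL2 b3
    push_cast at b2
    calc _ ≤ X * (Real.exp (-(w : ℝ) ^ 3) / Real.log X / 3) :=
          b1.trans (mul_le_mul_of_nonneg_left (b2.trans b4) hX0.le)
      _ = _ := by ring
  have hcard' : (S.card : ℝ) ≤ (Finset.Icc 1 ⌊Real.sqrt X⌋₊).card +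
      (S.filter (fun m => w ^ 80 < Om m)).card +
      (S.filter (fun m : ℕ => Real.sqrt X < m ∧ Om m ≤ w ^ 80)).card := by exact_mod_cast hcard
  linarith

theorem chern : ∃ C : ℝ, 0 ≤ C ∧ ∀ (s : ℝ) (t T : ℕ) (A : Finset ℕ), |s| ≤ 1 / 4 → t ≤ T →
    (∀ a ∈ A, 0 < a ∧ ∀ q : ℕ, q.Prime → q ∣ a → lev q ≤ T) →
    ∑ a ∈ A, Real.exp (s * om t a) / a ≤ Real.exp (T + (s + s ^ 2) * t + C) := by
  classical
  obtain ⟨C, hC0, hC⟩ := mertens_lev
  refine ⟨2 * C + 5, by linarith, fun s t T A hs ht hA => ?_⟩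
  have hs' := abs_le.1 hs
  have he1 : |Real.exp s - 1 - s| ≤ s ^ 2 := Real.abs_exp_sub_one_sub_id_le (by linarith)
  have he2 := abs_le.1 he1
  have he3 : s ^ 2 ≤ 1 / 16 := by nlinarith
  have he0 := Real.exp_pos s
  set z : ℕ → ℝ := fun q => if lev q ≤ t then Real.exp s else 1 with hz
  have hz1 : ∀ q, 0 ≤ z q ∧ z q ≤ 3 / 2 := by
    intro q
    by_cases hq : lev q ≤ t
    · simp only [hz, hq, if_true]; constructor <;> linarith
    · simp only [hz, hq, if_false]; constructor <;> norm_num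
  have h1 := euler_bound z ((upTo T).filter Nat.Prime) A (fun q hq => (Finset.mem_filter.1 hq).2)
    (fun q hq => ⟨(hz1 q).1, by
      have : (2 : ℝ) ≤ q := by exact_mod_cast (Finset.mem_filter.1 hq).2.two_le
      linarith [(hz1 q).2]⟩)
    (fun a ha => ⟨(hA a ha).1, fun q hq hqa =>
      Finset.mem_filter.2 ⟨mem_upTo.2 ⟨hq.pos, (hA a ha).2 q hq hqa⟩, hq⟩⟩)
  have h2 : ∀ a, wt z a = Real.exp (s * om t a) := by
    intro a
    rw [hz, wt_ite, ← Real.exp_nat_mul, mul_comm]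
  simp only [h2] at h1
  refine h1.trans (Real.exp_le_exp.2 ?_)
  have h3 : ∑ q ∈ (upTo T).filter Nat.Prime, (z q / q) ^ 2 ≤ 9 / 4 := by
    have : ∑ q ∈ (upTo T).filter Nat.Prime, (z q / q) ^ 2 ≤
        ∑ q ∈ (upTo T).filter Nat.Prime, 9 / 4 * (1 / (q : ℝ)) ^ 2 := by
      apply Finset.sum_le_sum
      intro q _
      rw [div_eq_mul_one_div, mul_pow]
      apply mul_le_mul_of_nonneg_right _ (by positivity)
      nlinarith [(hz1 q).1, (hz1 q).2]
    rw [← Finset.mul_sum] at this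
    linarith [sum_inv_sq_primes_le T]
  have h4 : ∑ q ∈ (upTo T).filter Nat.Prime, z q / q =
      ∑ q ∈ (upTo T).filter Nat.Prime, (1 / (q : ℝ)) +
        (Real.exp s - 1) * ∑ q ∈ (upTo t).filter Nat.Prime, (1 / (q : ℝ)) := by
    have e : (upTo t).filter Nat.Prime = ((upTo T).filter Nat.Prime).filter (fun q => lev q ≤ t) := by
      ext q
      simp only [Finset.mem_filter, mem_upTo]
      constructor
      · rintro ⟨⟨a, b⟩, c⟩; exact ⟨⟨⟨a, b.trans ht⟩, c⟩, b⟩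
      · rintro ⟨⟨⟨a, _⟩, c⟩, b⟩; exact ⟨⟨a, b⟩, c⟩
    rw [e, Finset.sum_filter (fun q => lev q ≤ t), Finset.mul_sum, ← Finset.sum_add_distrib]
    apply Finset.sum_congr rfl
    intro q _
    by_cases hq : lev q ≤ t
    · simp only [hz, hq, if_true]; ring
    · simp only [hz, hq, if_false]; ring
  have h5 := abs_le.1 (hC T)
  have h6 := hC t
  rw [h4]
  generalize ∑ q ∈ (upTo t).filter Nat.Prime, (1 / (q : ℝ)) = Mt at *
  have h7 : (Real.exp s - 1) * (Mt - t) ≤ C := by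
    refine (le_abs_self _).trans ?_
    rw [abs_mul]
    have : |Real.exp s - 1| ≤ 1 := abs_le.2 ⟨by linarith, by linarith⟩
    nlinarith [abs_nonneg (Mt - t), abs_nonneg (Real.exp s - 1)]
  have h8 : (Real.exp s - 1) * t ≤ (s + s ^ 2) * t :=
    mul_le_mul_of_nonneg_right (by linarith) (Nat.cast_nonneg t)
  nlinarith

theorem chern_tail : ∃ C : ℝ, 0 ≤ C ∧ ∀ (θ D : ℝ) (T : ℕ) (A : Finset ℕ), 0 ≤ θ → θ ≤ 1 / 4 →
    (∀ a ∈ A, 0 < a ∧ (∀ q : ℕ, q.Prime → q ∣ a → lev q ≤ T) ∧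
      ∃ t : ℕ, t ≤ T ∧ D ≤ |(om t a : ℝ) - t|) →
    ∑ a ∈ A, (1 / (a : ℝ)) ≤ 2 * (T + 1) * Real.exp (T + θ ^ 2 * T - θ * D + C) := by
  obtain ⟨C, hC0, hC⟩ := chern
  refine ⟨C, hC0, fun θ D T A h0 h1 hA => ?_⟩
  have key := sum_cover A (Finset.range (T + 1) ×ˢ ({1, -1} : Finset ℝ))
    (fun i a => D ≤ i.2 * ((om i.1 a : ℝ) - i.1)) (fun a => 1 / (a : ℝ))
    (fun a => by positivity) (by
      intro a ha
      obtain ⟨-, -, t, ht, hD⟩ := hA a ha
      rcases le_abs.1 hD with h | h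
      · exact ⟨(t, 1), by simp [ht], by simpa using h⟩
      · exact ⟨(t, -1), by simp [ht], by simpa using h⟩)
    (Real.exp (T + θ ^ 2 * T - θ * D + C)) (by
      rintro ⟨t, e⟩ hi A' hA'
      have ht : t ≤ T := by
        have := (Finset.mem_product.1 hi).1
        simpa [Nat.lt_succ_iff] using this
      have he : e = 1 ∨ e = -1 := by simpa using (Finset.mem_product.1 hi).2
      have he2 : e ^ 2 = 1 := by rcases he with rfl | rfl <;> norm_num
      have he3 : |e * θ| ≤ 1 / 4 := by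
        rcases he with rfl | rfl
        · rw [one_mul, abs_of_nonneg h0]; exact h1
        · rw [neg_one_mul, abs_neg, abs_of_nonneg h0]; exact h1
      have b1 := hC (e * θ) t T A' he3 ht
        (fun a ha => ⟨(hA a (hA' a ha).1).1, (hA a (hA' a ha).1).2.1⟩)
      have b2 : ∑ a ∈ A', (1 / (a : ℝ)) ≤
          Real.exp (-(e * θ * t) - θ * D) * ∑ a ∈ A', Real.exp (e * θ * om t a) / a := by
        rw [Finset.mul_sum]
        apply Finset.sum_le_sum
        intro a ha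
        rw [← mul_div_assoc, ← Real.exp_add]
        apply div_le_div_of_nonneg_right _ (Nat.cast_nonneg a)
        apply Real.one_le_exp
        have := mul_le_mul_of_nonneg_left (hA' a ha).2 h0
        simp only at this
        nlinarith
      refine b2.trans ((mul_le_mul_of_nonneg_left b1 (Real.exp_pos _).le).trans ?_)
      rw [← Real.exp_add, Real.exp_le_exp, mul_pow, he2, one_mul]
      have : (t : ℝ) ≤ T := by exact_mod_cast ht
      nlinarith [mul_le_mul_of_nonneg_left this (sq_nonneg θ)])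
  refine key.trans (le_of_eq ?_)
  rw [Finset.card_product, Finset.card_range, Finset.card_pair (by norm_num)]
  push_cast
  ring

theorem sum_num {w : ℕ} (hw : (2 : ℝ) ≤ w) (hp : 220 * (w : ℝ) ^ 40 ≤ Real.exp w) :
    10 * Real.exp (-(w : ℝ) ^ 3) * (((20 * w ^ 40 : ℕ) : ℝ) + 2) ≤ Real.exp (-(w : ℝ) ^ 2) := by
  have hw1 : (1 : ℝ) ≤ w := by linarith
  have h40 : (1 : ℝ) ≤ (w : ℝ) ^ 40 := one_le_pow₀ hw1
  have h1 : Real.exp (-(w : ℝ) ^ 3) * Real.exp w ≤ Real.exp (-(w : ℝ) ^ 2) := by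
    rw [← Real.exp_add, Real.exp_le_exp]
    nlinarith [mul_nonneg (sub_nonneg.2 hw) (sq_nonneg (w : ℝ))]
  push_cast
  have h2 := Real.exp_pos (-(w : ℝ) ^ 3)
  nlinarith [mul_le_mul_of_nonneg_left hp h2.le, mul_le_mul_of_nonneg_left h40 h2.le]

end Vale.Agent.P031
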