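import Vale.Agent.P031.Mertens
import Vale.Agent.P031.Weight
import Vale.Agent.P031.Data
import Vale.Agent.P031.Normal1

/-!
# Task Viol: values violating the top simplex inequality are rare

Proof of `viol_count` (N = w^40, E = w^24, K = 100 w^4, sigma = log log X): the set is empty unless
`log X >= exp (t0) / 2`. Drop `Om v > N^2` (`many_factors_sum_le`). Truncate `L` to its first `K`
entries `L0` (if it is longer, `TT 1 (levs L0) >= K t0 / 3 >= sigma + Delta`); in all cases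
`TT 1 (levs L0) >= sigma - 1 + Delta`, and `val (p :: L0) 1` divides `v`. Fix
`Lam = L0.map lev` (at most `(26 N + 2)^K` choices, `sum_lists_le` with `f = 1`). Let
`z q = NN Lam q` if `lev q > E`, `1` otherwise. By `weight_bounds` and normality at level `E`,
`log (wt z v) >= TT + sum Lam - w^31`. Write `v = a P`, `P` the largest prime factor,
`log P >= log X / (2 N^2)`, `wt z v <= (K+1) wt z a`, at most `5 (X/a) 2 N^2 / log X` choices of
`P` (`pi_le`), and `euler_bound` with Mertens gives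
`sum wt z a / a <= exp (sigma + sum Lam + (K+2) C)`. Hence the count for a fixed `Lam` is at most
`X exp (- TT + w^32) <= (X / log X) exp (- Delta + w^33)`.
-/

open Finset Real Filter

namespace Vale.Agent.P031

/-- The truncated Rankin weight. -/
noncomputable def zz (E : ℕ) (Lam : List ℕ) (q : ℕ) : ℝ := if lev q ≤ E then 1 else NN Lam q

theorem one_le_NN (Lam : List ℕ) (q : ℕ) : 1 ≤ NN Lam q := by
  unfold NN
  linarith [(Nat.cast_nonneg (Lam.countP (fun l => decide (lev q ≤ l))) : (0 : ℝ) ≤ _)]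

theorem NN_le (Lam : List ℕ) (q : ℕ) : NN Lam q ≤ Lam.length + 1 := by
  unfold NN
  have : ((Lam.countP (fun l => decide (lev q ≤ l)) : ℕ) : ℝ) ≤ Lam.length := by
    exact_mod_cast List.countP_le_length
  linarith

theorem one_le_zz (E : ℕ) (Lam : List ℕ) (q : ℕ) : 1 ≤ zz E Lam q := by
  unfold zz
  split_ifs
  · exact le_rfl
  · exact one_le_NN Lam q

theorem zz_le_NN (E : ℕ) (Lam : List ℕ) (q : ℕ) : zz E Lam q ≤ NN Lam q := by
  unfold zz
  split_ifs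
  · exact one_le_NN Lam q
  · exact le_rfl

theorem one_le_wt {z : ℕ → ℝ} (hz : ∀ q, 1 ≤ z q) (a : ℕ) : 1 ≤ wt z a := by
  have := wt_le_wt (z := fun _ => 1) (z' := z) (a := a) (fun _ => zero_le_one)
    (fun q _ _ => hz q)
  rwa [wt_const, one_pow] at this

theorem log_wt_NN_le (E : ℕ) (Lam : List ℕ) (u : ℕ) :
    Real.log (wt (NN Lam) u) ≤
      Real.log (wt (zz E Lam) u) + om E u * Real.log (Lam.length + 1) := by
  have h1 : wt (NN Lam) u ≤ wt (zz E Lam) u * ((Lam.length : ℝ) + 1) ^ om E u := by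
    rw [← wt_ite, ← wt_mul_fun]
    apply wt_le_wt (fun q => zero_le_one.trans (one_le_NN Lam q))
    intro q _ _
    unfold zz
    split_ifs
    · rw [one_mul]; exact NN_le Lam q
    · rw [mul_one]
  have h2 := one_le_wt (one_le_NN Lam) u
  have h3 := one_le_wt (one_le_zz E Lam) u
  refine (Real.log_le_log (by linarith) h1).trans (le_of_eq ?_)
  rw [Real.log_mul (by linarith) (by positivity), Real.log_pow]

theorem sum_min_le (E : ℕ) (M : List ℕ) :
    (M.map (fun q => ((min E (lev q) : ℕ) : ℝ))).sum ≤ M.length * (E : ℝ) := by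
  induction M with
  | nil => simp
  | cons x M ih =>
    have : ((min E (lev x) : ℕ) : ℝ) ≤ E := by exact_mod_cast min_le_left _ _
    rw [List.map_cons, List.sum_cons, List.length_cons]
    push_cast at *
    linarith

theorem viol_wt {w p K : ℕ} {L : List ℕ} {r : ℕ} (h : Good w (p :: L) r) (hK : L.length ≤ K) :
    TT 1 (levs L) + (levs L).sum - 3 * ((K : ℝ) + 1) ^ 2 * (w : ℝ) ^ 24 ≤
      Real.log (wt (zz (w ^ 24) (L.map lev)) (val (p :: L) 1)) := by
  have hn : ∀ q ∈ p :: L, q.Prime ∧ Normal w q := fun q hq => ⟨(h.2.1 q hq).1, (h.2.1 q hq).2.2⟩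
  have h1 := (abs_le.1 (weight_bounds w p L h.1 hn)).1
  have h2 := (abs_le.1 (om_val_close w (w ^ 24) (p :: L) hn).2).2
  have h3 := sum_min_le (w ^ 24) (p :: L)
  have h4 := log_wt_NN_le (w ^ 24) (L.map lev) (val (p :: L) 1)
  rw [List.length_map] at h4
  rw [List.length_cons] at h2 h3
  have hK' : (L.length : ℝ) ≤ K := by exact_mod_cast hK
  have hl0 : (0 : ℝ) ≤ L.length := Nat.cast_nonneg _
  have h5 : Real.log ((L.length : ℝ) + 1) ≤ K + 1 := by
    have := Real.log_le_sub_one_of_pos (by linarith : (0 : ℝ) < L.length + 1)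
    linarith
  have h6 : 0 ≤ Real.log ((L.length : ℝ) + 1) := Real.log_nonneg (by linarith)
  have hE : (0 : ℝ) ≤ (w : ℝ) ^ 24 := by positivity
  push_cast at h2 h3
  have h7 : (om (w ^ 24) (val (p :: L) 1) : ℝ) ≤ 2 * ((K + 1) * (w : ℝ) ^ 24) := by
    nlinarith [mul_le_mul_of_nonneg_right hK' hE]
  have h8 : (om (w ^ 24) (val (p :: L) 1) : ℝ) * Real.log ((L.length : ℝ) + 1) ≤
      2 * ((K + 1) * (w : ℝ) ^ 24) * (K + 1) := by gcongr
  have h9 : ((L.length : ℝ) + 1) * (w : ℝ) ^ 24 * Real.log ((L.length : ℝ) + 1) ≤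
      (K + 1) * (w : ℝ) ^ 24 * (K + 1) := by gcongr
  nlinarith

theorem viol_data {w v T : ℕ} (hw : 1 ≤ w) (hv : Viol w v) (h1 : lev v ≤ T) (h2 : T ≤ lev v + 2)
    (h3 : T ≤ 25 * w ^ 40) :
    ∃ Lam : List ℕ, Lam.length ≤ 100 * w ^ 4 ∧ (∀ l ∈ Lam, l ≤ T) ∧
      (T : ℝ) - 2 + (w : ℝ) ^ 38 + (Lam.map (fun l : ℕ => (l : ℝ))).sum -
        3 * (100 * (w : ℝ) ^ 4 + 1) ^ 2 * (w : ℝ) ^ 24 ≤ Real.log (wt (zz (w ^ 24) Lam) v) := by
  obtain ⟨p, L, r, hg, rfl, hT⟩ := hv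
  have hs : (p :: L.take (100 * w ^ 4)).Sublist (p :: L) := (List.take_sublist _ _).cons_cons p
  have hg0 := good_sublist hg hs
  have hlen : (L.take (100 * w ^ 4)).length ≤ 100 * w ^ 4 := List.length_take_le _ _
  have hv0 := val_pos hg
  have hdvd : val (p :: L.take (100 * w ^ 4)) 1 ∣ val (p :: L) r := by
    unfold val
    rw [mul_one]
    exact ((hs.map _).prod_dvd_prod).mul_right r
  have a1 := viol_wt hg0 hlen
  have a2 := wt_le_of_dvd (one_le_zz (w ^ 24) ((L.take (100 * w ^ 4)).map lev)) hdvd hv0.ne'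
  have a3 := one_le_wt (one_le_zz (w ^ 24) ((L.take (100 * w ^ 4)).map lev))
    (val (p :: L.take (100 * w ^ 4)) 1)
  have a4 := Real.log_le_log (by linarith) a2
  have h2' : (T : ℝ) ≤ lev (val (p :: L) r) + 2 := by exact_mod_cast h2
  have h3' : (T : ℝ) ≤ 25 * (w : ℝ) ^ 40 := by exact_mod_cast h3
  have a5 : (T : ℝ) - 2 + (w : ℝ) ^ 38 ≤ TT 1 (levs (L.take (100 * w ^ 4))) := by
    rcases le_total L.length (100 * w ^ 4) with h | h
    · rw [List.take_of_length_le h]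
      linarith
    · have b1 := good_length (good_tail hg0)
      rw [List.length_take_of_le h] at b1
      have hw' : (1 : ℝ) ≤ w := by exact_mod_cast hw
      have b2 : (w : ℝ) ^ 38 ≤ (w : ℝ) ^ 40 := pow_le_pow_right₀ hw' (by norm_num)
      have b3 : (0 : ℝ) ≤ (w : ℝ) ^ 40 := by positivity
      have b4 : (((100 * w ^ 4 : ℕ) : ℝ)) * (w : ℝ) ^ 36 = 100 * (w : ℝ) ^ 40 := by
        push_cast; ring
      rw [b4] at b1
      linarith
  refine ⟨(L.take (100 * w ^ 4)).map lev, by rwa [List.length_map], ?_, ?_⟩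
  · intro l hl
    obtain ⟨q, hq, rfl⟩ := List.mem_map.1 hl
    have b1 : p > q := (List.pairwise_cons.1 hg.1).1 q (List.mem_of_mem_take hq)
    have b2 : p - 1 ≤ val (p :: L) r := Nat.le_of_dvd hv0 (by rw [val_cons]; exact dvd_mul_right _ _)
    exact (lev_mono (by omega)).trans h1
  · have e : ((L.take (100 * w ^ 4)).map lev).map (fun l : ℕ => (l : ℝ)) =
        levs (L.take (100 * w ^ 4)) := by
      unfold levs
      rw [List.map_map]; rfl
    rw [e]
    push_cast at a1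
    linarith

theorem sum_NN_le : ∃ C : ℝ, 0 ≤ C ∧ ∀ (T : ℕ) (Lam : List ℕ),
    ∑ q ∈ (upTo T).filter Nat.Prime, NN Lam q / q ≤
      T + (Lam.map (fun l : ℕ => (l : ℝ))).sum + (Lam.length + 1) * C := by
  classical
  obtain ⟨C, hC0, hC⟩ := mertens_le
  refine ⟨C, hC0, fun T Lam => ?_⟩
  induction Lam with
  | nil =>
    have := hC T ((upTo T).filter Nat.Prime) (fun p hp =>
      ⟨(Finset.mem_filter.1 hp).2, (mem_upTo.1 (Finset.mem_filter.1 hp).1).2⟩)
    simpa [NN] using this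
  | cons l Lam ih =>
    have h1 := hC l (((upTo T).filter Nat.Prime).filter (fun q => lev q ≤ l)) (fun p hp =>
      ⟨(Finset.mem_filter.1 (Finset.mem_filter.1 hp).1).2, (Finset.mem_filter.1 hp).2⟩)
    have h2 : ∑ q ∈ (upTo T).filter Nat.Prime, NN (l :: Lam) q / q =
        ∑ q ∈ (upTo T).filter Nat.Prime, NN Lam q / q +
          ∑ q ∈ ((upTo T).filter Nat.Prime).filter (fun q => lev q ≤ l), (1 / (q : ℝ)) := by
      rw [Finset.sum_filter (fun q => lev q ≤ l), ← Finset.sum_add_distrib]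
      apply Finset.sum_congr rfl
      intro q _
      unfold NN
      rw [List.countP_cons]
      by_cases hq : lev q ≤ l
      · simp only [hq, decide_true, if_true]; push_cast; ring
      · simp [hq]
    rw [h2, List.map_cons, List.sum_cons, List.length_cons]
    push_cast
    linarith

theorem viol_euler : ∃ C : ℝ, 0 ≤ C ∧ ∀ (w T : ℕ) (Lam : List ℕ) (A : Finset ℕ), 2 ≤ w →
    Lam.length ≤ 100 * w ^ 4 → (∀ a ∈ A, 0 < a ∧ ∀ q : ℕ, q.Prime → q ∣ a → lev q ≤ T) →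
    ∑ a ∈ A, wt (zz (w ^ 24) Lam) a / a ≤ Real.exp (T + (Lam.map (fun l : ℕ => (l : ℝ))).sum +
      (100 * (w : ℝ) ^ 4 + 1) * C + 2 * (100 * (w : ℝ) ^ 4 + 1) ^ 2) := by
  classical
  obtain ⟨C, hC0, hC⟩ := sum_NN_le
  refine ⟨C, hC0, fun w T Lam A hw hlen hA => ?_⟩
  have hlen' : (Lam.length : ℝ) ≤ 100 * (w : ℝ) ^ 4 := by exact_mod_cast hlen
  have hz : ∀ q, zz (w ^ 24) Lam q ≤ 100 * (w : ℝ) ^ 4 + 1 := fun q =>
    (zz_le_NN _ _ _).trans ((NN_le _ _).trans (by linarith))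
  have hz0 : ∀ q, 0 ≤ zz (w ^ 24) Lam q := fun q => zero_le_one.trans (one_le_zz _ _ _)
  have h1 := euler_bound (zz (w ^ 24) Lam) ((upTo T).filter Nat.Prime) A
    (fun q hq => (Finset.mem_filter.1 hq).2)
    (fun q hq => ⟨hz0 q, by
      have hq2 : (2 : ℝ) ≤ q := by exact_mod_cast (Finset.mem_filter.1 hq).2.two_le
      by_cases h : lev q ≤ w ^ 24
      · simp only [zz, h, if_true]; linarith
      · have b1 := exp_lt_log_of_lt_lev (not_le.1 h)
        have b2 := Real.log_le_sub_one_of_pos (by linarith : (0 : ℝ) < q)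
        have b3 := Real.add_one_le_exp ((w ^ 24 : ℕ) : ℝ)
        have hw' : (2 : ℝ) ≤ w := by exact_mod_cast hw
        have b4 : (2 : ℝ) ^ 20 ≤ (w : ℝ) ^ 20 := pow_le_pow_left₀ (by norm_num) hw' 20
        have b5 : ((w ^ 24 : ℕ) : ℝ) = (w : ℝ) ^ 20 * (w : ℝ) ^ 4 := by push_cast; ring
        have b6 := mul_le_mul_of_nonneg_right b4 (by positivity : 0 ≤ (w : ℝ) ^ 4)
        have b7 : (0 : ℝ) ≤ (w : ℝ) ^ 4 := by positivity
        linarith [hz q]⟩)
    (fun a ha => ⟨(hA a ha).1, fun q hq hqa =>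
      Finset.mem_filter.2 ⟨mem_upTo.2 ⟨hq.pos, (hA a ha).2 q hq hqa⟩, hq⟩⟩)
  refine h1.trans (Real.exp_le_exp.2 ?_)
  have h3 : ∑ q ∈ (upTo T).filter Nat.Prime, (zz (w ^ 24) Lam q / q) ^ 2 ≤
      (100 * (w : ℝ) ^ 4 + 1) ^ 2 := by
    have : ∑ q ∈ (upTo T).filter Nat.Prime, (zz (w ^ 24) Lam q / q) ^ 2 ≤
        ∑ q ∈ (upTo T).filter Nat.Prime, (100 * (w : ℝ) ^ 4 + 1) ^ 2 * (1 / (q : ℝ)) ^ 2 := by
      apply Finset.sum_le_sum
      intro q _
      rw [div_eq_mul_one_div, mul_pow]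
      exact mul_le_mul_of_nonneg_right (pow_le_pow_left₀ (hz0 q) (hz q) 2) (by positivity)
    rw [← Finset.mul_sum] at this
    refine this.trans ?_
    exact mul_le_of_le_one_right (by positivity) (sum_inv_sq_primes_le T)
  have h4 : ∑ q ∈ (upTo T).filter Nat.Prime, zz (w ^ 24) Lam q / q ≤
      ∑ q ∈ (upTo T).filter Nat.Prime, NN Lam q / q :=
    Finset.sum_le_sum fun q _ => div_le_div_of_nonneg_right (zz_le_NN _ _ _) (Nat.cast_nonneg q)
  have h5 := hC T Lam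
  have h6 : ((Lam.length : ℝ) + 1) * C ≤ (100 * (w : ℝ) ^ 4 + 1) * C := by gcongr
  linarith

theorem viol_num {w C : ℝ} (hw : 1000 ≤ w) (hC0 : 0 ≤ C) (hC : C ≤ w) :
    w + 100 * w ^ 4 * w + (2 - w ^ 38 + 3 * (100 * w ^ 4 + 1) ^ 2 * w ^ 24 +
      (100 * w ^ 4 + 1) * C + 2 * (100 * w ^ 4 + 1) ^ 2) ≤ -w ^ 3 := by
  have hw1 : 1 ≤ w := by linarith
  have p : ∀ n : ℕ, n ≤ 32 → w ^ n ≤ w ^ 32 := fun n hn => pow_le_pow_right₀ hw1 hn
  have a0 : 1 ≤ w ^ 4 := one_le_pow₀ hw1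
  have a1 : 100 * w ^ 4 + 1 ≤ 101 * w ^ 4 := by linarith
  have a2 : (100 * w ^ 4 + 1) ^ 2 ≤ (101 * w ^ 4) ^ 2 := pow_le_pow_left₀ (by positivity) a1 2
  have a3 : 3 * (100 * w ^ 4 + 1) ^ 2 * w ^ 24 ≤ 30603 * w ^ 32 := by
    calc _ ≤ 3 * (101 * w ^ 4) ^ 2 * w ^ 24 := by gcongr
      _ = _ := by ring
  have a4 : (100 * w ^ 4 + 1) * C ≤ 101 * w ^ 5 := by
    calc _ ≤ (101 * w ^ 4) * w := by gcongr
      _ = _ := by ring
  have a5 : (101 * w ^ 4) ^ 2 = 10201 * w ^ 8 := by ring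
  have a6 : 100 * w ^ 4 * w = 100 * w ^ 5 := by ring
  have a7 : 1000000 * w ^ 32 ≤ w ^ 38 := by
    have b1 : (1000 : ℝ) ^ 2 ≤ w ^ 2 := pow_le_pow_left₀ (by norm_num) hw 2
    have b2 : w ^ 2 ≤ w ^ 6 := pow_le_pow_right₀ hw1 (by norm_num)
    calc _ ≤ w ^ 6 * w ^ 32 := by gcongr; linarith
      _ = _ := by ring
  have q0 := p 0 (by norm_num)
  have q1 := p 1 (by norm_num)
  have q3 := p 3 (by norm_num)
  have q5 := p 5 (by norm_num)
  have q8 := p 8 (by norm_num)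
  rw [pow_zero] at q0
  rw [pow_one] at q1
  linarith

theorem viol_recip : ∀ᶠ w : ℕ in atTop, ∀ (T : ℕ) (A : Finset ℕ), T ≤ 25 * w ^ 40 →
    (∀ a ∈ A, 0 < a ∧ (∀ q : ℕ, q.Prime → q ∣ a → lev q ≤ T) ∧
      ∃ Lam : List ℕ, Lam.length ≤ 100 * w ^ 4 ∧ (∀ l ∈ Lam, l ≤ T) ∧
        Real.exp ((T : ℝ) - 2 + (w : ℝ) ^ 38 + (Lam.map (fun l : ℕ => (l : ℝ))).sum -
          3 * (100 * (w : ℝ) ^ 4 + 1) ^ 2 * (w : ℝ) ^ 24) ≤
          (100 * (w : ℝ) ^ 4 + 1) * wt (zz (w ^ 24) Lam) a) →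
    30 * (w : ℝ) ^ 80 * ∑ a ∈ A, (1 / (a : ℝ)) ≤ Real.exp (-(w : ℝ) ^ 3) := by
  classical
  obtain ⟨C, hC0, hC⟩ := viol_euler
  filter_upwards [ev_ge C, ev_ge 1000, ev_poly_le_exp 27 40, ev_poly_le_exp 3030 84]
    with w hwC hw hp1 hp2 T A hT hA
  have hw1 : (1 : ℝ) ≤ w := by linarith
  have hw2 : 2 ≤ w := by exact_mod_cast (by linarith : (2 : ℝ) ≤ w)
  choose! Lam hL1 hL2 hL3 using fun a ha => (hA a ha).2.2
  set B := (100 * (w : ℝ) ^ 4 + 1) * Real.exp (2 - (w : ℝ) ^ 38 +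
    3 * (100 * (w : ℝ) ^ 4 + 1) ^ 2 * (w : ℝ) ^ 24 + (100 * (w : ℝ) ^ 4 + 1) * C +
      2 * (100 * (w : ℝ) ^ 4 + 1) ^ 2) with hB
  have k1 := sum_cover A (A.image Lam) (fun i a => Lam a = i) (fun a => 1 / (a : ℝ))
    (fun a => by positivity) (fun a ha => ⟨Lam a, Finset.mem_image_of_mem _ ha, rfl⟩) B (by
      intro i hi A' hA'
      obtain ⟨a0, ha0, rfl⟩ := Finset.mem_image.1 hi
      have b1 := hC w T (Lam a0) A' hw2 (hL1 a0 ha0)
        (fun a ha => ⟨(hA a (hA' a ha).1).1, (hA a (hA' a ha).1).2.1⟩)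
      set u := (T : ℝ) - 2 + (w : ℝ) ^ 38 + ((Lam a0).map (fun l : ℕ => (l : ℝ))).sum -
          3 * (100 * (w : ℝ) ^ 4 + 1) ^ 2 * (w : ℝ) ^ 24 with hu
      have b2 : ∑ a ∈ A', (1 / (a : ℝ)) ≤ (100 * (w : ℝ) ^ 4 + 1) * Real.exp (-u) *
          ∑ a ∈ A', wt (zz (w ^ 24) (Lam a0)) a / a := by
        rw [Finset.mul_sum]
        apply Finset.sum_le_sum
        intro a ha
        rw [← mul_div_assoc]
        apply div_le_div_of_nonneg_right _ (Nat.cast_nonneg a)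
        have := hL3 a (hA' a ha).1
        rw [(hA' a ha).2, ← hu] at this
        rw [Real.exp_neg, mul_right_comm, ← div_eq_mul_inv, one_le_div (Real.exp_pos u)]
        exact this
      refine b2.trans ((mul_le_mul_of_nonneg_left b1 (by positivity)).trans (le_of_eq ?_))
      rw [hB, mul_assoc, ← Real.exp_add, hu]
      congr 2
      ring)
  have k2 := sum_lists_le (fun _ : ℕ => (1 : ℝ)) (Finset.range (T + 1)) (fun _ _ => zero_le_one)
    (100 * w ^ 4) (A.image Lam) (by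
      intro i hi
      obtain ⟨a0, ha0, rfl⟩ := Finset.mem_image.1 hi
      exact ⟨hL1 a0 ha0, fun x hx => Finset.mem_range.2 (Nat.lt_succ_of_le (hL2 a0 ha0 x hx))⟩)
  have k3 : ((A.image Lam).card : ℝ) ≤ Real.exp (100 * (w : ℝ) ^ 4 * w) := by
    have e : 100 * (w : ℝ) ^ 4 = ((100 * w ^ 4 : ℕ) : ℝ) := by push_cast; ring
    rw [e, Real.exp_nat_mul]
    refine le_trans (le_of_eq (by simp)) (k2.trans (pow_le_pow_left₀ (by positivity) ?_ _))
    have hT' : (T : ℝ) ≤ 25 * (w : ℝ) ^ 40 := by exact_mod_cast hT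
    have := one_le_pow₀ (n := 40) hw1
    simp only [Finset.sum_const, Finset.card_range, nsmul_eq_mul, mul_one]
    push_cast
    linarith
  have k4 : 30 * (w : ℝ) ^ 80 * (100 * (w : ℝ) ^ 4 + 1) ≤ Real.exp w := by
    have := one_le_pow₀ (n := 4) hw1
    calc _ ≤ 30 * (w : ℝ) ^ 80 * (101 * (w : ℝ) ^ 4) := by gcongr; linarith
      _ = 3030 * (w : ℝ) ^ 84 := by ring
      _ ≤ _ := hp2
  have k5 := Real.exp_le_exp.2 (viol_num hw hC0 hwC)
  rw [Real.exp_add, Real.exp_add] at k5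
  refine le_trans ?_ k5
  have hB0 : 0 ≤ B := by positivity
  refine (mul_le_mul_of_nonneg_left (k1.trans (mul_le_mul_of_nonneg_right k3 hB0))
    (by positivity)).trans ?_
  have k6 : ∀ a b c d e : ℝ, 0 ≤ c → 0 ≤ d → a * b ≤ e → a * (c * (b * d)) ≤ e * c * d := by
    intro a b c d e hc hd h
    have := mul_le_mul_of_nonneg_right h (mul_nonneg hc hd)
    linarith
  exact k6 _ _ _ _ _ (Real.exp_pos _).le (Real.exp_pos _).le k4

theorem viol_big {w v : ℕ} (hv : Viol w v) :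
    2 ≤ v ∧ Real.exp ((w : ℝ) ^ 36) - 1 ≤ Real.log v := by
  obtain ⟨p, L, r, hg, rfl, -⟩ := hv
  have hv0 := val_pos hg
  have b2 : p - 1 ≤ val (p :: L) r := Nat.le_of_dvd hv0 (by rw [val_cons]; exact dvd_mul_right _ _)
  obtain ⟨hp, hl, -⟩ := hg.2.1 p List.mem_cons_self
  have b1 := exp_lt_log_of_lt_lev hl
  have b3 := Real.one_le_exp (Nat.cast_nonneg (w ^ 36) : (0 : ℝ) ≤ _)
  have hl2 : Real.log 2 < 1 := by have := Real.log_two_lt_d9; linarith
  have h3 : 3 ≤ p := by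
    by_contra h
    have : p = 2 := by have := hp.two_le; omega
    rw [this] at b1
    push_cast at b1 b3
    linarith
  refine ⟨by omega, ?_⟩
  have b4 : (p : ℝ) ≤ 2 * val (p :: L) r := by exact_mod_cast (by omega : p ≤ 2 * val (p :: L) r)
  have b5 := Real.log_le_log (by exact_mod_cast hp.pos) b4
  rw [Real.log_mul (by norm_num) (by exact_mod_cast hv0.ne')] at b5
  push_cast at b1
  linarith

theorem viol_fiber {N L Z X a c : ℝ} (hN : 0 < N) (hL : 0 < L) (hX : 0 ≤ X) (ha : 0 < a)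
    (hZ : L / (2 * N) ≤ Z) (h : c ≤ 5 * (X / a) / Z) :
    c ≤ X / L / 3 * (30 * N) * (1 / a) := by
  calc c ≤ 5 * (X / a) / Z := h
    _ ≤ 5 * (X / a) / (L / (2 * N)) := by gcongr
    _ = _ := by field_simp; ring

open Classical in
theorem viol_count : ∀ᶠ w : ℕ in atTop, ∀ X : ℝ, 1 ≤ X →
    Real.log X ≤ Real.exp (25 * (w : ℝ) ^ 40) →
    (((Finset.Icc 1 ⌊X⌋₊).filter (fun v : ℕ => Real.sqrt X < v ∧ Viol w v)).card : ℝ)
      ≤ Real.exp (-(w : ℝ) ^ 3) * X / Real.log X := by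
  filter_upwards [count_three, viol_recip, ev_ge 2] with w h3 hrec hw X hX hL2
  have hw1 : (1 : ℝ) ≤ w := by linarith
  have hw0 : 0 < w := by exact_mod_cast (by linarith : (0 : ℝ) < w)
  have hX0 : 0 < X := by linarith
  set S := (Finset.Icc 1 ⌊X⌋₊).filter (fun v : ℕ => Real.sqrt X < v ∧ Viol w v) with hS
  rcases S.eq_empty_or_nonempty with h | ⟨v0, hv0⟩
  · rw [h, Finset.card_empty, Nat.cast_zero]
    have := Real.log_nonneg hX
    positivity
  have hL3 : Real.exp ((w : ℝ) ^ 3) ≤ Real.log X := by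
    obtain ⟨b1, -, b2⟩ := Finset.mem_filter.1 hv0
    have b3 := viol_big b2
    have b4 : (v0 : ℝ) ≤ X := (Nat.le_floor_iff hX0.le).1 (Finset.mem_Icc.1 b1).2
    have b5 := Real.log_le_log (by exact_mod_cast (by omega : 0 < v0)) b4
    have b6 : (w : ℝ) ^ 3 + 1 ≤ (w : ℝ) ^ 36 := by
      have c1 : (2 : ℝ) ≤ (w : ℝ) ^ 33 := hw.trans (by
        simpa using pow_le_pow_right₀ hw1 (by norm_num : 1 ≤ 33))
      have c2 : (w : ℝ) ^ 36 = (w : ℝ) ^ 33 * (w : ℝ) ^ 3 := by ring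
      have c3 := one_le_pow₀ (n := 3) hw1
      nlinarith [mul_le_mul_of_nonneg_right c1 (by positivity : 0 ≤ (w : ℝ) ^ 3)]
    have b7 := Real.exp_le_exp.2 b6
    rw [Real.exp_add] at b7
    have b8 := Real.add_one_le_exp (1 : ℝ)
    have b9 := Real.one_le_exp (by positivity : 0 ≤ (w : ℝ) ^ 3)
    nlinarith [b3.2]
  have hL5 : 1 ≤ Real.log X := (Real.one_le_exp (by positivity)).trans hL3
  have hL0 : 0 < Real.log X := by linarith
  refine h3 X hX hL3 hL2 S (Finset.filter_subset _ _) ?_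
  set T := ⌈Real.log (Real.log X)⌉₊ with hT
  have hT1 : T ≤ 25 * w ^ 40 := ceil_le_25 (N := w ^ 40) hL0 (by push_cast; exact hL2)
  set A := (Finset.Icc 1 ⌊X⌋₊).filter
    (fun a : ℕ => Real.log X / (2 * (w : ℝ) ^ 80) ≤ Real.log (X / a) ∧
      ∃ Lam : List ℕ, Lam.length ≤ 100 * w ^ 4 ∧ (∀ l ∈ Lam, l ≤ T) ∧
        Real.exp ((T : ℝ) - 2 + (w : ℝ) ^ 38 + (Lam.map (fun l : ℕ => (l : ℝ))).sum -
          3 * (100 * (w : ℝ) ^ 4 + 1) ^ 2 * (w : ℝ) ^ 24) ≤
          (100 * (w : ℝ) ^ 4 + 1) * wt (zz (w ^ 24) Lam) a) with hA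
  have c1 := count_split (S.filter (fun m : ℕ => Real.sqrt X < m ∧ Om m ≤ w ^ 80)) A
    (fun a => (Finset.Icc 1 ⌊X / a⌋₊).filter Nat.Prime) (by
      intro m hm
      obtain ⟨hm1, hm2, hm3⟩ := Finset.mem_filter.1 hm
      obtain ⟨hm4, -, hm6⟩ := Finset.mem_filter.1 hm1
      have hm7 : (m : ℝ) ≤ X := (Nat.le_floor_iff hX0.le).1 (Finset.mem_Icc.1 hm4).2
      obtain ⟨Lam, l1, l2, l3⟩ := viol_data hw0 hm6 (lev_le_ceil hm7 hL0)
        (ceil_le_lev hX hm2.le hL5) hT1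
      obtain ⟨a, P, hP, rfl, ha, hPa, hlog⟩ := split_largest hX hm2 hm7 hm3 (by positivity)
      refine ⟨a, Finset.mem_filter.2 ⟨ha, ?_, Lam, l1, l2, ?_⟩, P,
        Finset.mem_filter.2 ⟨hPa, hP⟩, rfl⟩
      · exact_mod_cast hlog
      · have d1 := one_le_wt (one_le_zz (w ^ 24) Lam) (a * P)
        have d2 := one_le_wt (one_le_zz (w ^ 24) Lam) a
        refine ((Real.le_log_iff_exp_le (by linarith)).1 l3).trans ?_
        rw [wt_mul _ (by have := (Finset.mem_Icc.1 ha).1; omega) hP.pos.ne', wt_prime _ hP,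
          mul_comm]
        apply mul_le_mul_of_nonneg_right _ (by linarith)
        have l1' : (Lam.length : ℝ) ≤ 100 * (w : ℝ) ^ 4 := by exact_mod_cast l1
        exact (zz_le_NN _ _ _).trans ((NN_le _ _).trans (by linarith)))
  have c2 : ∀ a ∈ A, (((Finset.Icc 1 ⌊X / a⌋₊).filter Nat.Prime).card : ℝ) ≤
      X / Real.log X / 3 * (30 * (w : ℝ) ^ 80) * (1 / a) := by
    intro a ha
    obtain ⟨ha1, ha2, -⟩ := Finset.mem_filter.1 ha
    have ha5 : (0 : ℝ) < a := by exact_mod_cast (Finset.mem_Icc.1 ha1).1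
    have ha6 : 1 < X / a := (Real.log_pos_iff (by positivity)).1
      (lt_of_lt_of_le (by positivity) ha2)
    exact viol_fiber (by positivity) hL0 hX0.le ha5 ha2 (pi_le ha6)
  have c3 := hrec T A hT1 (by
      intro a ha
      obtain ⟨ha1, -, ha2⟩ := Finset.mem_filter.1 ha
      have ha3 := Finset.mem_Icc.1 ha1
      have ha4 : (a : ℝ) ≤ X := (Nat.le_floor_iff hX0.le).1 ha3.2
      exact ⟨ha3.1, fun q _ hq => (lev_mono (Nat.le_of_dvd ha3.1 hq)).trans (lev_le_ceil ha4 hL0),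
        ha2⟩)
  refine c1.trans ((Finset.sum_le_sum c2).trans ?_)
  rw [← Finset.mul_sum, mul_assoc]
  refine (mul_le_mul_of_nonneg_left c3 (by positivity)).trans (le_of_eq ?_)
  ring

theorem viol_sum : ∀ᶠ w : ℕ in atTop, ∀ S : Finset ℕ,
    (∀ v ∈ S, lev v ≤ 20 * w ^ 40 ∧ Viol w v) →
    ∑ v ∈ S, (1 / (v : ℝ)) ≤ Real.exp (-(w : ℝ) ^ 2) := by
  classical
  filter_upwards [viol_count, ev_ge 2, ev_poly_le_exp 220 40] with w hc hw hp S hS
  have hw1 : (1 : ℝ) ≤ w := by linarith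
  have h40 : (1 : ℝ) ≤ (w : ℝ) ^ 40 := one_le_pow₀ hw1
  have key := dyadic_log S (fun p => p) (Real.exp (-(w : ℝ) ^ 3)) (20 * w ^ 40)
    (Real.exp_pos _).le (fun v hv => ⟨(viol_big (hS v hv).2).1, (hS v hv).1⟩) (by
      intro X hX hL
      refine le_trans ?_ (hc X (by linarith) ?_)
      · have : S.filter (fun i : ℕ => X < 2 * (i : ℝ) ∧ (i : ℝ) ≤ X) ⊆
            (Finset.Icc 1 ⌊X⌋₊).filter (fun v : ℕ => Real.sqrt X < v ∧ Viol w v) := by
          intro q hq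
          obtain ⟨hq1, hq2, hq3⟩ := Finset.mem_filter.1 hq
          have b1 := (viol_big (hS q hq1).2).1
          have b2 : (2 : ℝ) ≤ q := by exact_mod_cast b1
          refine Finset.mem_filter.2 ⟨Finset.mem_Icc.2 ⟨by omega, Nat.le_floor hq3⟩, ?_,
            (hS q hq1).2⟩
          rw [Real.sqrt_lt' (by linarith)]
          nlinarith
        exact_mod_cast Finset.card_le_card this
      · refine hL.trans (Real.exp_le_exp.2 ?_)
        push_cast
        linarith)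
  exact key.trans (sum_num hw hp)

end Vale.Agent.P031
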