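import Vale.Agent.P031.Normal
import Vale.Agent.P031.Viol
import Vale.Agent.P031.Coll3

/-!
# Task Exc: exceptional values have small reciprocal sum

`bad_cases` with `sum_inv_le_of_cover` (first case: `B = upTo (19 N)`, `smooth_sum_le`,
`sum_inv_mul_pred_le`; second case: `abn_sum`, `1/(p-1) <= 2/p`, `B = Tot w`; third case:
`many_factors_sum_le` with `t = t0`, `B = 10 t0`), `viol_sum`, `many_factors_sum_le`, `one_le_SS`.
-/

open Finset Real Filter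

namespace Vale.Agent.P031

theorem sum_le_of_or {S : Finset ℕ} {p q : ℕ → Prop} {f : ℕ → ℝ} {a b : ℝ}
    (h : ∀ m ∈ S, p m ∨ q m) (ha : ∀ T : Finset ℕ, (∀ m ∈ T, m ∈ S ∧ p m) → ∑ m ∈ T, f m ≤ a)
    (hb : ∀ T : Finset ℕ, (∀ m ∈ T, m ∈ S ∧ q m) → ∑ m ∈ T, f m ≤ b) : ∑ m ∈ S, f m ≤ a + b := by
  classical
  rw [← Finset.sum_filter_add_sum_filter_not S p]
  apply add_le_add
  · exact ha _ (fun m hm => Finset.mem_filter.1 hm)
  · exact hb _ (fun m hm => ⟨(Finset.mem_filter.1 hm).1,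
      (h m (Finset.mem_filter.1 hm).1).resolve_left (Finset.mem_filter.1 hm).2⟩)

theorem isTot_pos {m : ℕ} (h : IsTot m) : 0 < m := by
  obtain ⟨n, hn, rfl⟩ := h
  exact Nat.totient_pos.2 hn

theorem exp_neg_sq_le : ∀ᶠ w : ℕ in atTop,
    10 * Real.exp (-(w : ℝ) ^ 2) ≤ Real.exp (-(w : ℝ)) := by
  filter_upwards [ev_ge 10] with w hw
  have h1 : Real.exp (-(w : ℝ)) = Real.exp (-(w : ℝ) ^ 2) * Real.exp ((w : ℝ) ^ 2 - w) := by
    rw [← Real.exp_add]; congr 1; ring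
  have h2 := Real.add_one_le_exp ((w : ℝ) ^ 2 - w)
  have h3 : 10 ≤ Real.exp ((w : ℝ) ^ 2 - w) := by nlinarith
  rw [h1, mul_comm]
  exact mul_le_mul_of_nonneg_left h3 (Real.exp_pos _).le

theorem square_sum : ∀ᶠ w : ℕ in atTop, ∀ T : Finset ℕ,
    (∀ m ∈ T, 0 < m ∧ lev m ≤ 19 * w ^ 40 ∧
      ∃ q : ℕ, q.Prime ∧ w ^ 36 < lev q ∧ q * (q - 1) ∣ m) →
    ∑ m ∈ T, (1 / (m : ℝ)) ≤ Real.exp (-(w : ℝ) ^ 2) := by
  classical
  obtain ⟨C, hC0, hC⟩ := smooth_sum_le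
  filter_upwards [ev_poly_le_exp 22 40, ev_ge C, ev_ge 1] with w hw1 hw2 hw3
  intro T hT
  have hw : 1 ≤ w := by exact_mod_cast hw3
  have h1 := sum_inv_le_of_cover T ((upTo (19 * w ^ 40)).filter (fun q => w ^ 36 < lev q))
    (upTo (19 * w ^ 40)) (fun q => q * (q - 1)) (by
      intro m hm
      obtain ⟨h0, h1, q, hq, h2, b, hb⟩ := hT m hm
      have d1 : q ∣ m := by rw [hb, mul_assoc]; exact dvd_mul_right _ _
      have d2 : b ∣ m := by rw [hb]; exact dvd_mul_left _ _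
      exact ⟨q, Finset.mem_filter.2 ⟨mem_upTo.2 ⟨hq.pos,
        (lev_mono (Nat.le_of_dvd h0 d1)).trans h1⟩, h2⟩, b, mem_upTo.2
        ⟨Nat.pos_of_dvd_of_pos d2 h0, (lev_mono (Nat.le_of_dvd h0 d2)).trans h1⟩, hb⟩)
  have h2 := hC (19 * w ^ 40) (upTo (19 * w ^ 40)) (fun a ha => ⟨(mem_upTo.1 ha).1,
    fun q _ hq => (lev_mono (Nat.le_of_dvd (mem_upTo.1 ha).1 hq)).trans (mem_upTo.1 ha).2⟩)
  obtain ⟨Y, hY⟩ : ∃ Y, Y = ⌊Real.exp (Real.exp ((w ^ 36 : ℕ) : ℝ))⌋₊ := ⟨_, rfl⟩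
  have hE : 1 ≤ Real.exp (Real.exp ((w ^ 36 : ℕ) : ℝ)) := Real.one_le_exp (Real.exp_pos _).le
  have hY1 : 1 ≤ Y := by rw [hY]; exact Nat.le_floor (by simpa using hE)
  have hY1' : (1 : ℝ) ≤ Y := by exact_mod_cast hY1
  have hY2 : Real.exp (Real.exp ((w ^ 36 : ℕ) : ℝ)) ≤ 2 * Y := by
    have := Nat.lt_floor_add_one (Real.exp (Real.exp ((w ^ 36 : ℕ) : ℝ)))
    rw [← hY] at this
    linarith
  have h3 := sum_inv_mul_pred_le Y hY1 ((upTo (19 * w ^ 40)).filter (fun q => w ^ 36 < lev q)) (by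
    intro q hq
    obtain ⟨a, b⟩ := Finset.mem_filter.1 hq
    by_contra hc
    have : q ∈ upTo (w ^ 36) := Finset.mem_Icc.2 ⟨(mem_upTo.1 a).1, hY ▸ not_lt.1 hc⟩
    have := (mem_upTo.1 this).2
    omega)
  have h4 : ∑ q ∈ (upTo (19 * w ^ 40)).filter (fun q => w ^ 36 < lev q),
      (1 / ((q * (q - 1) : ℕ) : ℝ)) = ∑ q ∈ (upTo (19 * w ^ 40)).filter (fun q => w ^ 36 < lev q),
      (1 / ((q : ℝ) * ((q : ℝ) - 1))) := by
    apply Finset.sum_congr rfl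
    intro q hq
    have := (mem_upTo.1 (Finset.mem_filter.1 hq).1).1
    rw [Nat.cast_mul, Nat.cast_sub this, Nat.cast_one]
  rw [h4] at h1
  refine h1.trans ((mul_le_mul h3 h2 (Finset.sum_nonneg (fun _ _ => by positivity))
    (by positivity)).trans ?_)
  rw [one_div, inv_mul_le_iff₀ (by linarith)]
  have h5 : Real.exp w ≤ Real.exp ((w ^ 36 : ℕ) : ℝ) :=
    Real.exp_le_exp.2 (by exact_mod_cast Nat.le_self_pow (by norm_num) w)
  have m1 : (w : ℝ) ^ 2 ≤ (w : ℝ) ^ 40 := pow_le_pow_right₀ hw3 (by norm_num)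
  have m2 : (w : ℝ) ≤ (w : ℝ) ^ 40 := le_self_pow₀ hw3 (by norm_num)
  have h6 : Real.exp (((19 * w ^ 40 : ℕ) : ℝ) + C) * Real.exp 1 ≤
      Real.exp (Real.exp ((w ^ 36 : ℕ) : ℝ)) * Real.exp (-(w : ℝ) ^ 2) := by
    rw [← Real.exp_add, ← Real.exp_add]
    apply Real.exp_le_exp.2
    push_cast at h5 ⊢
    linarith
  have h7 : (2 : ℝ) ≤ Real.exp 1 := by have := Real.add_one_le_exp (1 : ℝ); linarith
  have h8 := mul_le_mul_of_nonneg_right hY2 (Real.exp_pos (-(w : ℝ) ^ 2)).le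
  have h9 := mul_le_mul_of_nonneg_left h7 (Real.exp_pos (((19 * w ^ 40 : ℕ) : ℝ) + C)).le
  linarith

theorem Om_sum : ∀ᶠ w : ℕ in atTop, ∀ T : Finset ℕ,
    (∀ m ∈ T, 0 < m ∧ lev m ≤ 19 * w ^ 40 ∧ w ^ 80 < Om m) →
    ∑ m ∈ T, (1 / (m : ℝ)) ≤ Real.exp (-(w : ℝ) ^ 2) := by
  obtain ⟨C, hC0, hC⟩ := many_factors_sum_le
  filter_upwards [ev_ge C, ev_ge 100] with w hw2 hw3
  intro T hT
  refine (hC (19 * w ^ 40) (w ^ 80) T (fun a ha => ⟨(hT a ha).1, fun q _ hq =>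
    (lev_mono (Nat.le_of_dvd (hT a ha).1 hq)).trans (hT a ha).2.1, (hT a ha).2.2⟩)).trans ?_
  apply Real.exp_le_exp.2
  have hw : (1 : ℝ) ≤ w := by linarith
  have m1 : (w : ℝ) ^ 2 ≤ (w : ℝ) ^ 40 := pow_le_pow_right₀ hw (by norm_num)
  have m2 : (w : ℝ) ≤ (w : ℝ) ^ 40 := le_self_pow₀ hw (by norm_num)
  have m3 : (w : ℝ) ^ 80 = (w : ℝ) ^ 40 * (w : ℝ) ^ 40 := by ring
  have m4 : (w : ℝ) ^ 40 * 100 ≤ (w : ℝ) ^ 40 * (w : ℝ) ^ 40 :=
    mul_le_mul_of_nonneg_left (by linarith) (by positivity)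
  push_cast
  linarith

open Classical in
theorem exc_sum : ∀ᶠ w : ℕ in atTop,
    ∑ m ∈ (Tot w).filter (fun m => Exc w m), (1 / (m : ℝ)) ≤ Real.exp (-(w : ℝ)) * SS w := by
  obtain ⟨C, hC0, hC⟩ := many_factors_sum_le
  filter_upwards [square_sum, Om_sum, abn_sum, viol_sum, exp_neg_sq_le, ev_ge C, ev_ge 2]
    with w h1 h2 h3 h4 h5 hw1 hw2
  have hw : (1 : ℝ) ≤ w := by linarith
  have hN : 1 ≤ w ^ 40 := Nat.one_le_pow _ _ (by exact_mod_cast (by linarith : (0 : ℝ) < w))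
  have hS := one_le_SS w
  have hE := Real.exp_pos (-(w : ℝ) ^ 2)
  have hES : Real.exp (-(w : ℝ) ^ 2) ≤ Real.exp (-(w : ℝ) ^ 2) * SS w :=
    le_mul_of_one_le_right hE.le hS
  have hm : ∀ m ∈ (Tot w).filter (fun m => Exc w m), 0 < m ∧ lev m ≤ 19 * w ^ 40 := fun m hm =>
    ⟨isTot_pos (mem_Tot.1 (Finset.mem_filter.1 hm).1).1, (mem_Tot.1 (Finset.mem_filter.1 hm).1).2⟩
  have key : ∑ m ∈ (Tot w).filter (fun m => Exc w m), (1 / (m : ℝ)) ≤
      (Real.exp (-(w : ℝ) ^ 2) + (2 * Real.exp (-(w : ℝ) ^ 2) * SS w +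
        Real.exp (-(w : ℝ) ^ 2) * SS w)) + (Real.exp (-(w : ℝ) ^ 2) + Real.exp (-(w : ℝ) ^ 2)) := by
    apply sum_le_of_or (p := fun m => Bad w m) (q := fun m => Viol w m ∨ w ^ 80 < Om m)
      (fun m hm => by have := (Finset.mem_filter.1 hm).2; exact this)
    · intro T hT
      apply sum_le_of_or (fun m hm => bad_cases (hT m hm).2)
      · intro T' hT'
        exact h1 T' (fun m h => ⟨(hm m (hT m (hT' m h).1).1).1, (hm m (hT m (hT' m h).1).1).2,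
          (hT' m h).2⟩)
      intro T' hT'
      apply sum_le_of_or (fun m hm => (hT' m hm).2)
      · intro U hU
        have := sum_inv_le_of_cover U ((upTo (20 * w ^ 40)).filter
          (fun p => p.Prime ∧ w ^ 36 < lev p ∧ ¬ Normal w p)) (Tot w) (fun p => p - 1) (by
            intro m h
            obtain ⟨h0, p, m', a1, a2, a3, a4, a5⟩ := hU m h
            obtain ⟨b1, b2⟩ := hm m (hT m (hT' m h0).1).1
            have d1 := Nat.le_of_dvd b1 (show p - 1 ∣ m from a5 ▸ dvd_mul_right _ _)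
            have d2 := Nat.le_of_dvd b1 (show m' ∣ m from a5 ▸ dvd_mul_left _ _)
            have d3 := lev_succ_le m
            have d4 : lev p ≤ lev (m + 1) := lev_mono (by omega)
            exact ⟨p, Finset.mem_filter.2 ⟨mem_upTo.2 ⟨a1.pos, by omega⟩, a1, a2, a3⟩, m',
              mem_Tot.2 ⟨a4, (lev_mono d2).trans b2⟩, a5⟩)
        refine this.trans (mul_le_mul_of_nonneg_right ?_ (zero_le_one.trans hS))
        refine (Finset.sum_le_sum (fun q hq =>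
          inv_pred_le (Finset.mem_filter.1 hq).2.1.two_le)).trans ?_
        rw [← Finset.mul_sum]
        apply mul_le_mul_of_nonneg_left _ (by norm_num)
        apply h3
        intro p hp
        obtain ⟨a, b, c, d⟩ := Finset.mem_filter.1 hp
        exact ⟨b, c, (mem_upTo.1 a).2, d⟩
      · intro U hU
        have := sum_inv_le_of_cover U ((upTo (19 * w ^ 40)).filter
          (fun r => (∀ q : ℕ, q.Prime → q ∣ r → lev q ≤ w ^ 36) ∧ 10 * w ^ 36 < Om r))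
          (Tot w) (fun p => p) (by
            intro m h
            obtain ⟨h0, r, m', a1, a2, a3, a4, a5⟩ := hU m h
            obtain ⟨b1, b2⟩ := hm m (hT m (hT' m h0).1).1
            have d1 := Nat.le_of_dvd b1 (show r ∣ m from a5 ▸ dvd_mul_right _ _)
            have d2 := Nat.le_of_dvd b1 (show m' ∣ m from a5 ▸ dvd_mul_left _ _)
            exact ⟨r, Finset.mem_filter.2 ⟨mem_upTo.2 ⟨a1, (lev_mono d1).trans b2⟩, a2, a3⟩, m',
              mem_Tot.2 ⟨a4, (lev_mono d2).trans b2⟩, a5⟩)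
        refine this.trans (mul_le_mul_of_nonneg_right ?_ (zero_le_one.trans hS))
        refine (hC (w ^ 36) (10 * w ^ 36) _ (fun a ha => ⟨(mem_upTo.1 (Finset.mem_filter.1 ha).1).1,
          (Finset.mem_filter.1 ha).2⟩)).trans (Real.exp_le_exp.2 ?_)
        have m1 : (w : ℝ) ^ 2 ≤ (w : ℝ) ^ 36 := pow_le_pow_right₀ hw (by norm_num)
        have m2 : (w : ℝ) ≤ (w : ℝ) ^ 36 := le_self_pow₀ hw (by norm_num)
        push_cast
        linarith
    · intro T hT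
      apply sum_le_of_or (fun m hm => (hT m hm).2)
      · intro U hU
        exact h4 U (fun m h => ⟨by have := (hm m (hT m (hU m h).1).1).2; omega, (hU m h).2⟩)
      · intro U hU
        exact h2 U (fun m h => ⟨(hm m (hT m (hU m h).1).1).1, (hm m (hT m (hU m h).1).1).2,
          (hU m h).2⟩)
  have h6 := mul_le_mul_of_nonneg_right h5 (show 0 ≤ SS w by linarith)
  nlinarith

end Vale.Agent.P031
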