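import Vale.Agent.P031.Normal
import Vale.Agent.P031.Coll
import Vale.Agent.P031.Asym
import Vale.Agent.P031.Aux37

/-!
# Task Low: the low step

Choose a datum `D m'` for each `m'` in `MSet (j+1) t`; take the pairs `(p, m')` with
`p` a normal prime of level in `(c, c + floor h]`, `c = ceil (Tt + Delta)`; the values
`(p - 1) m'` lie in `MSet j (t + 3 C h)` (`tau_head_le`; membership in `Tot w` by `good_small` for
the tail, then `good_Om`, `lev_le_of_Om`, `good_primes`); use `sum_image_ge`, `mertens_window_ge`,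
`abn_sum`, `coll_sum` (two different pairs with the same value have different `p`), `one_le_SS`.
-/

open Finset Real Filter

namespace Vale.Agent.P031

namespace A37

theorem cons_mem_Tot : ∀ᶠ w : ℕ in atTop, ∀ (p : ℕ) (L : List ℕ) (r : ℕ), Good w (p :: L) r →
    Tt ((w : ℝ) ^ 36) (levs L) ≤ 10 * (w : ℝ) ^ 40 → (lev p : ℝ) ≤ 10 * (w : ℝ) ^ 40 →
    val (p :: L) r ∈ Tot w := by
  filter_upwards [good_Om, lev_le_of_Om, good_small, eventually_ge_atTop 1]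
    with w h1 h2 h3 hw p L r h hT hp
  have hw1 : (1 : ℝ) ≤ w := by exact_mod_cast hw
  have hlen := (h3 L r (good_tail h) hT).1
  have h40 : (0 : ℝ) ≤ (w : ℝ) ^ 40 := by positivity
  have hO : Om (val (p :: L) r) ≤ w ^ 80 := h1 _ r h (by rw [List.length_cons]; omega)
    (fun q hq => by
      have a := good_lev_le_head h q hq
      rw [levs_cons, List.headD_cons] at a
      have b : (lev q : ℝ) ≤ 30 * (w : ℝ) ^ 40 := by linarith
      exact_mod_cast b)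
  have h4 := (h2 (val (p :: L) r) (lev p) (Nat.cast_nonneg _) (val_pos h) hO
    (by simpa [levs_cons] using good_primes h)).2
  refine mem_Tot.2 ⟨good_isTot h, ?_⟩
  have a : (lev (val (p :: L) r) : ℝ) ≤ lev (val (p :: L) r + 1) := by
    exact_mod_cast lev_mono (Nat.le_succ _)
  have b : (w : ℝ) ≤ (w : ℝ) ^ 40 := le_self_pow₀ hw1 (by norm_num)
  have c : (lev (val (p :: L) r) : ℝ) ≤ 19 * (w : ℝ) ^ 40 := by linarith
  exact_mod_cast c

open Classical in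
theorem normal_window : ∀ᶠ w : ℕ in atTop, ∀ (c : ℕ) (h : ℝ), w ^ 36 ≤ c → (w : ℝ) ^ 38 ≤ h →
    (c : ℝ) + h ≤ 20 * (w : ℝ) ^ 40 →
    h / 2 ≤ ∑ p ∈ (upTo (c + ⌊h⌋₊)).filter (fun p => (p.Prime ∧ c < lev p) ∧ Normal w p),
      (1 / (p : ℝ)) := by
  obtain ⟨Cm, hCm0, hCm⟩ := mertens_window_ge
  filter_upwards [abn_sum, ev_ge (2 * (Cm + 2)), eventually_ge_atTop 1] with w h1 h2 hw c h hc hh hch
  have hw1 : (1 : ℝ) ≤ w := by exact_mod_cast hw
  have b : (w : ℝ) ≤ (w : ℝ) ^ 38 := le_self_pow₀ hw1 (by norm_num)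
  have hfl : (⌊h⌋₊ : ℝ) ≤ h := Nat.floor_le (by linarith)
  have hfl2 : h < ⌊h⌋₊ + 1 := Nat.lt_floor_add_one h
  have a1 := hCm c (c + ⌊h⌋₊) (Nat.le_add_right _ _)
  have a2 := Finset.sum_filter_add_sum_filter_not
    ((upTo (c + ⌊h⌋₊)).filter (fun p => p.Prime ∧ c < lev p)) (fun p => Normal w p)
    (fun p => (1 / (p : ℝ)))
  have a3 := h1 (((upTo (c + ⌊h⌋₊)).filter (fun p => p.Prime ∧ c < lev p)).filter
    (fun p => ¬ Normal w p)) (by
      intro p hp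
      simp only [Finset.mem_filter, mem_upTo] at hp
      refine ⟨hp.1.2.1, by omega, ?_, hp.2⟩
      have e1 : (lev p : ℝ) ≤ c + ⌊h⌋₊ := by exact_mod_cast hp.1.1.2
      have e2 : (lev p : ℝ) ≤ 20 * (w : ℝ) ^ 40 := by linarith
      exact_mod_cast e2)
  have a4 : Real.exp (-(w : ℝ) ^ 2) ≤ 1 := by
    rw [Real.exp_le_one_iff]
    have : (0 : ℝ) ≤ (w : ℝ) ^ 2 := by positivity
    linarith
  rw [Finset.filter_filter] at a2
  push_cast at a1
  linarith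

end A37

open A37 in
theorem low_step (j : ℕ) : ∃ C : ℝ, 1 ≤ C ∧ ∀ᶠ w : ℕ in atTop, ∀ t h : ℝ,
    t ≤ 4 * (w : ℝ) ^ 40 → (w : ℝ) ^ 38 ≤ h → h ≤ (w : ℝ) ^ 40 →
    h / 2 * MM w (j + 1) t ≤ MM w j (t + C * h) + Real.exp (-(w : ℝ)) * SS w := by
  classical
  obtain ⟨C1, hC1, hhead⟩ := tau_head_le j
  refine ⟨3 * C1, by linarith, ?_⟩
  filter_upwards [cons_mem_Tot, normal_window, coll_sum, eventually_ge_atTop 1]
    with w hTot hwin hcoll hw t h ht hh1 hh2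
  have hw1 : (1 : ℝ) ≤ w := by exact_mod_cast hw
  have h38 : (1 : ℝ) ≤ (w : ℝ) ^ 38 := one_le_pow₀ hw1
  have hdat : ∀ m, ∃ L r, m ∈ MSet w (j + 1) t → Good w L r ∧ val L r = m ∧
      tau ((w : ℝ) ^ 36) (j + 1) (levs L) ≤ t := by
    intro m
    by_cases hm : m ∈ MSet w (j + 1) t
    · obtain ⟨-, L, r, h⟩ := mem_MSet.1 hm
      exact ⟨L, r, fun _ => h⟩
    · exact ⟨[], 0, fun h => absurd h hm⟩
  choose L r hLr using hdat
  set M := MSet w (j + 1) t with hM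
  let T : ℕ → ℝ := fun m => Tt ((w : ℝ) ^ 36) (levs (L m))
  let c : ℕ → ℕ := fun m => ⌈T m + (w : ℝ) ^ 38⌉₊
  let P : ℕ → Finset ℕ := fun m =>
    (upTo (c m + ⌊h⌋₊)).filter (fun p => (p.Prime ∧ c m < lev p) ∧ Normal w p)
  have hT1 : ∀ m ∈ M, T m ≤ 4 * (w : ℝ) ^ 40 := fun m hm =>
    (Tt_le_tau _ _ _).trans ((hLr m hm).2.2.trans ht)
  have hT0 : ∀ m ∈ M, (w : ℝ) ^ 36 ≤ T m := fun m hm =>
    (good_t0_le_head (hLr m hm).1).trans (head_le_Tt _ _)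
  have h36 : (0 : ℝ) ≤ (w : ℝ) ^ 36 := by positivity
  have hc1 : ∀ m, T m + (w : ℝ) ^ 38 ≤ c m := fun m => Nat.le_ceil _
  have hc2 : ∀ m ∈ M, (c m : ℝ) < T m + (w : ℝ) ^ 38 + 1 := fun m hm =>
    Nat.ceil_lt_add_one (by linarith [hT0 m hm])
  have hP : ∀ m ∈ M, ∀ p ∈ P m, Good w (p :: L m) (r m) ∧ T m + (w : ℝ) ^ 38 ≤ lev p ∧
      (lev p : ℝ) ≤ T m + 3 * h ∧ 2 ≤ p := by
    intro m hm p hp
    simp only [P, Finset.mem_filter, mem_upTo] at hp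
    obtain ⟨⟨-, a1⟩, ⟨a2, a3⟩, a4⟩ := hp
    have b1 : (c m : ℝ) < lev p := by exact_mod_cast a3
    have b2 : (lev p : ℝ) ≤ c m + ⌊h⌋₊ := by exact_mod_cast a1
    have b3 : (⌊h⌋₊ : ℝ) ≤ h := Nat.floor_le (by linarith)
    have b4 := hc1 m
    have b5 := hc2 m hm
    refine ⟨good_cons_of_lev (hLr m hm).1 a2 a4 ?_, by linarith, by linarith, a2.two_le⟩
    change T m < _
    linarith
  let D : Finset (Σ _ : ℕ, ℕ) := M.sigma P
  let v : (Σ _ : ℕ, ℕ) → ℕ := fun d => val (d.2 :: L d.1) (r d.1)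
  have hv : ∀ m ∈ M, ∀ p, v ⟨m, p⟩ = (p - 1) * m := fun m hm p => by
    simp only [v]; rw [val_cons, (hLr m hm).2.1]
  have hvTot : ∀ d ∈ D, v d ∈ Tot w := by
    rintro ⟨m, p⟩ hd
    obtain ⟨hm, hp⟩ := Finset.mem_sigma.1 hd
    obtain ⟨a1, a2, a3, -⟩ := hP m hm p hp
    have := hT1 m hm
    have h40 : (0 : ℝ) ≤ (w : ℝ) ^ 40 := by positivity
    exact hTot p (L m) (r m) a1 (by change T m ≤ _; linarith) (by linarith)
  have himg : D.image v ⊆ MSet w j (t + 3 * C1 * h) := by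
    intro n hn
    obtain ⟨⟨m, p⟩, hd, rfl⟩ := Finset.mem_image.1 hn
    obtain ⟨hm, hp⟩ := Finset.mem_sigma.1 hd
    obtain ⟨a1, a2, a3, -⟩ := hP m hm p hp
    refine mem_MSet.2 ⟨hvTot _ hd, p :: L m, r m, a1, rfl, ?_⟩
    have b1 := hhead ((w : ℝ) ^ 36) (T m) (lev p - T m) (levs (L m)) (by linarith)
    have b2 : tau ((w : ℝ) ^ 36) j (T m :: levs (L m)) ≤ t := (hLr m hm).2.2
    rw [add_sub_cancel] at b1
    have b3 : C1 * (lev p - T m) ≤ C1 * (3 * h) :=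
      mul_le_mul_of_nonneg_left (by linarith) (by linarith)
    rw [levs_cons]
    linarith
  have hs1 := sum_image_ge D v (fun n => 1 / (n : ℝ)) (fun n => by positivity)
  have hs2 : ∑ n ∈ D.image v, (1 / (n : ℝ)) ≤ MM w j (t + 3 * C1 * h) :=
    Finset.sum_le_sum_of_subset_of_nonneg himg (fun _ _ _ => by positivity)
  have hs3 : h / 2 * MM w (j + 1) t ≤ ∑ d ∈ D, (1 / (v d : ℝ)) := by
    unfold MM
    rw [Finset.sum_sigma, Finset.mul_sum]
    apply Finset.sum_le_sum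
    intro m hm
    have a1 := hwin (c m) h (by
      have : (w : ℝ) ^ 36 ≤ c m := by linarith [hc1 m, hT0 m hm]
      exact_mod_cast this) hh1 (by linarith [hc2 m hm, hT1 m hm])
    refine (mul_le_mul_of_nonneg_right a1 (by positivity)).trans ?_
    rw [Finset.sum_mul]
    apply Finset.sum_le_sum
    intro p hp
    have hp2 := (hP m hm p hp).2.2.2
    rw [hv m hm p, Nat.cast_mul, ← one_div_mul_one_div]
    apply mul_le_mul_of_nonneg_right _ (by positivity)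
    apply one_div_le_one_div_of_le
    · exact_mod_cast (show 0 < p - 1 by omega)
    · exact_mod_cast Nat.sub_le p 1
  let φ : (Σ _ : ℕ, ℕ) × (Σ _ : ℕ, ℕ) → (ℕ × List ℕ × ℕ) × (ℕ × List ℕ × ℕ) := fun e =>
    ((e.1.2, L e.1.1, r e.1.1), (e.2.2, L e.2.1, r e.2.1))
  set E := (D ×ˢ D).filter (fun e => e.1 ≠ e.2 ∧ v e.1 = v e.2) with hE
  have hinj : Set.InjOn φ E := by
    rintro ⟨⟨m1, p1⟩, ⟨m2, p2⟩⟩ he ⟨⟨m3, p3⟩, ⟨m4, p4⟩⟩ he' hφ
    simp only [hE, Finset.coe_filter, Finset.mem_product, D, Finset.mem_sigma,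
      Set.mem_ofPred_eq] at he he'
    simp only [φ, Prod.mk.injEq] at hφ
    obtain ⟨⟨e1, e2, e3⟩, e4, e5, e6⟩ := hφ
    have f1 : m1 = m3 := by
      rw [← (hLr m1 he.1.1.1).2.1, ← (hLr m3 he'.1.1.1).2.1, e2, e3]
    have f2 : m2 = m4 := by
      rw [← (hLr m2 he.1.2.1).2.1, ← (hLr m4 he'.1.2.1).2.1, e5, e6]
    subst f1 f2 e1 e4
    rfl
  have hs4 := hcoll (E.image φ) (by
    intro d hd
    obtain ⟨⟨⟨m1, p1⟩, ⟨m2, p2⟩⟩, he, rfl⟩ := Finset.mem_image.1 hd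
    rw [hE, Finset.mem_filter, Finset.mem_product] at he
    obtain ⟨⟨d1, d2⟩, hne, hvv⟩ := he
    obtain ⟨hm1, hp1⟩ := Finset.mem_sigma.1 d1
    obtain ⟨hm2, hp2⟩ := Finset.mem_sigma.1 d2
    obtain ⟨a1, a2, -, a4⟩ := hP m1 hm1 p1 hp1
    obtain ⟨b1, b2, -, -⟩ := hP m2 hm2 p2 hp2
    refine ⟨⟨a1, b1, hvv, ?_, a2, b2⟩, (mem_Tot.1 (hvTot _ d1)).2⟩
    intro hpp
    apply hne
    simp only [φ] at hpp
    subst hpp
    simp only at hvv
    rw [hv m1 hm1, hv m2 hm2] at hvv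
    have := Nat.eq_of_mul_eq_mul_left (show 0 < p1 - 1 by omega) hvv
    subst this
    rfl)
  rw [Finset.sum_image hinj] at hs4
  have hs5 : Real.exp (-(w : ℝ) ^ 2) ≤ Real.exp (-(w : ℝ)) * SS w := by
    have a : Real.exp (-(w : ℝ) ^ 2) ≤ Real.exp (-(w : ℝ)) :=
      Real.exp_le_exp.2 (neg_le_neg (le_self_pow₀ hw1 (by norm_num)))
    exact a.trans (le_mul_of_one_le_right (Real.exp_pos _).le (one_le_SS w))
  have hs6 : ∑ e ∈ E, (1 / (v e.1 : ℝ)) ≤ Real.exp (-(w : ℝ) ^ 2) := hs4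
  linarith

end Vale.Agent.P031
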