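import Vale.Agent.P031.Sieve
import Vale.Agent.P031.Normal1

/-!
# Task Normal: abnormal primes are rare

Proof of `abn_count` (N = w^40, E = w^24, sigma = log log X): drop `p <= sqrt X` and
`Om (p-1) > N^2` (`many_factors_sum_le`, count <= X * reciprocal sum). Otherwise `p - 1 = a P`
with `P` the largest prime factor, `log P >= log X / (3 N^2)`, and `sieve2` with `Z = X / a` gives
at most `N^10 (X/a) (3 N^2 / log X)^2` values of `P`. For each `t <= lev X` (larger `t` give the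
same condition) and each sign use the weight `z q = exp (+-theta)` for `lev q <= t`, `1` otherwise,
`theta = E / (100 N)`; `wt z (p-1) <= 2 wt z a`, and `euler_bound` with Mertens gives
`sum wt z a / a <= exp (sigma + (exp (+-theta) - 1) min t sigma + C)`. Chernoff: the count is at
most `poly(N) (X / log X) exp (theta^2 25 N - theta E + C)`, and `theta E = w^8 / 100`.
`abn_sum` follows by `dyadic_log`.
-/

open Finset Real Filter

namespace Vale.Agent.P031

theorem om_prime_le (t : ℕ) {P : ℕ} (hP : P.Prime) : om t P ≤ 1 := by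
  unfold om
  rw [Nat.primeFactorsList_prime hP]
  exact List.countP_le_length

theorem abn_dev {w a P T : ℕ} (ha : 0 < a) (hP : P.Prime) (h1 : lev (a * P + 1) ≤ T)
    (h2 : T ≤ lev (a * P + 1) + 2) (h : ¬ Normal w (a * P + 1)) :
    ∃ t : ℕ, t ≤ T ∧ (w : ℝ) ^ 24 - 2 ≤ |(om t a : ℝ) - t| := by
  unfold Normal at h
  rw [Nat.add_sub_cancel] at h
  obtain ⟨t, ht⟩ := not_forall.1 h
  have hm : 0 < a * P := Nat.mul_pos ha hP.pos
  have e1 : om (min t T) (a * P) = om t (a * P) := by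
    rcases le_total t T with h3 | h3
    · rw [min_eq_left h3]
    · have : ∀ q : ℕ, q.Prime → q ∣ a * P → lev q ≤ T := fun q _ hq =>
        (lev_mono ((Nat.le_of_dvd hm hq).trans (Nat.le_succ _))).trans h1
      rw [min_eq_right h3, om_eq_Om this, om_eq_Om (fun q hq hq' => (this q hq hq').trans h3)]
  have e2 := om_mul (min t T) ha.ne' hP.pos.ne'
  have e3 := om_prime_le (min t T) hP
  refine ⟨min t T, min_le_right _ _, ?_⟩
  have e4 : min t T + w ^ 24 ≤ om (min t T) a + 2 ∨ om (min t T) a + w ^ 24 ≤ min t T := by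
    generalize w ^ 24 = E at *
    omega
  rcases e4 with e4 | e4
  · have : ((min t T : ℕ) : ℝ) + (w : ℝ) ^ 24 ≤ (om (min t T) a : ℝ) + 2 := by exact_mod_cast e4
    exact le_abs.2 (Or.inl (by linarith))
  · have : (om (min t T) a : ℝ) + (w : ℝ) ^ 24 ≤ ((min t T : ℕ) : ℝ) := by exact_mod_cast e4
    exact le_abs.2 (Or.inr (by linarith))

theorem abn_num {w C L T : ℝ} (hw : 4 ≤ w) (hL : 0 < L) (_hT0 : 0 ≤ T) (hT : T ≤ 25 * w ^ 40)
    (hT2 : T ≤ Real.log L + 1) (hp : 624 * Real.exp (C + 2) * w ^ 600 ≤ Real.exp w) :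
    4 * (w ^ 40) ^ 14 / L ^ 2 * (2 * (T + 1) * Real.exp (T + (1 / (100 * w ^ 16)) ^ 2 * T -
      1 / (100 * w ^ 16) * (w ^ 24 - 2) + C)) ≤ Real.exp (-w ^ 3) / L / 3 := by
  have hw0 : 0 < w := by linarith
  have hw1 : 1 ≤ w := by linarith
  have a1 : (1 / (100 * w ^ 16)) ^ 2 * T ≤ w ^ 8 / 400 := by
    calc _ ≤ (1 / (100 * w ^ 16)) ^ 2 * (25 * w ^ 40) := by gcongr
      _ = _ := by field_simp; norm_num
  have a2 : 1 / (100 * w ^ 16) * (w ^ 24 - 2) = w ^ 8 / 100 - 2 * (1 / (100 * w ^ 16)) := by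
    field_simp
  have a3 : 1 / (100 * w ^ 16) ≤ 1 / 100 := by
    apply one_div_le_one_div_of_le (by norm_num)
    have := one_le_pow₀ (n := 16) hw1
    linarith
  have a4 : w + w ^ 3 ≤ 3 * w ^ 8 / 400 := by
    have b1 : (4 : ℝ) ^ 5 ≤ w ^ 5 := pow_le_pow_left₀ (by norm_num) hw 5
    have b2 : w ≤ w ^ 3 := by simpa using pow_le_pow_right₀ hw1 (by norm_num : 1 ≤ 3)
    have b3 : w ^ 8 = w ^ 5 * w ^ 3 := by ring
    nlinarith [mul_le_mul_of_nonneg_right b1 (by positivity : 0 ≤ w ^ 3)]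
  have a5 : Real.exp (T + (1 / (100 * w ^ 16)) ^ 2 * T - 1 / (100 * w ^ 16) * (w ^ 24 - 2) + C) ≤
      L * Real.exp (C + 2) * (Real.exp (-w ^ 3) / Real.exp w) := by
    rw [← Real.exp_sub, ← Real.exp_log hL, ← Real.exp_add, ← Real.exp_add,
      Real.exp_le_exp, a2]
    linarith
  have a6 : T + 1 ≤ 26 * w ^ 40 := by
    have := one_le_pow₀ (n := 40) hw1
    linarith
  calc _ ≤ 4 * (w ^ 40) ^ 14 / L ^ 2 * (2 * (26 * w ^ 40) *
        (L * Real.exp (C + 2) * (Real.exp (-w ^ 3) / Real.exp w))) := by gcongr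
    _ = (624 * Real.exp (C + 2) * w ^ 600 / Real.exp w) * (Real.exp (-w ^ 3) / L / 3) := by
        field_simp; ring
    _ ≤ 1 * (Real.exp (-w ^ 3) / L / 3) := by
        gcongr
        rwa [div_le_one (Real.exp_pos w)]
    _ = _ := one_mul _

theorem abn_fiber {N L Z X a c : ℝ} (hN : 0 < N) (hL : 0 < L) (hX : 0 ≤ X) (ha : 0 < a)
    (hZ : L / (2 * N ^ 2) ≤ Z) (h : c ≤ N ^ 10 * (X / a) / Z ^ 2) :
    c ≤ X * (4 * N ^ 14 / L ^ 2) * (1 / a) := by
  calc c ≤ N ^ 10 * (X / a) / Z ^ 2 := h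
    _ ≤ N ^ 10 * (X / a) / (L / (2 * N ^ 2)) ^ 2 := by gcongr
    _ = _ := by field_simp; norm_num

open Classical in
theorem abn_count : ∀ᶠ w : ℕ in atTop, ∀ X : ℝ, 1 ≤ X →
    Real.exp ((w : ℝ) ^ 36 / 2) ≤ Real.log X → Real.log X ≤ Real.exp (25 * (w : ℝ) ^ 40) →
    (((Finset.Icc 1 ⌊X⌋₊).filter (fun p => p.Prime ∧ ¬ Normal w p)).card : ℝ)
      ≤ Real.exp (-(w : ℝ) ^ 3) * X / Real.log X := by
  obtain ⟨C, hC0, hC⟩ := chern_tail
  filter_upwards [count_three, ev_pow40 sieve2, ev_ge 4, ev_poly_le_exp 2 200,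
    ev_poly_le_exp (624 * Real.exp (C + 2)) 600] with w h3 hsv hw hp1 hp2 X hX hL1 hL2
  have hw1 : (1 : ℝ) ≤ w := by linarith
  have hX0 : 0 < X := by linarith
  have hw3 : (w : ℝ) ^ 3 ≤ (w : ℝ) ^ 36 / 2 := by
    have b1 : (4 : ℝ) ≤ (w : ℝ) ^ 33 := hw.trans (by
      simpa using pow_le_pow_right₀ hw1 (by norm_num : 1 ≤ 33))
    have b2 : (w : ℝ) ^ 36 = (w : ℝ) ^ 33 * (w : ℝ) ^ 3 := by ring
    nlinarith [mul_le_mul_of_nonneg_right b1 (by positivity : 0 ≤ (w : ℝ) ^ 3),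
      (by positivity : 0 ≤ (w : ℝ) ^ 3)]
  have hL3 : Real.exp ((w : ℝ) ^ 3) ≤ Real.log X := (Real.exp_le_exp.2 hw3).trans hL1
  have hL4 : Real.exp w ≤ Real.log X := (Real.exp_le_exp.2 (by
    simpa using pow_le_pow_right₀ hw1 (by norm_num : 1 ≤ 3))).trans hL3
  have hL5 : 1 ≤ Real.log X := (Real.one_le_exp (by linarith)).trans hL4
  have hL0 : 0 < Real.log X := by linarith
  set S := (Finset.Icc 1 ⌊X⌋₊).filter
    (fun m : ℕ => ((m + 1 : ℕ) : ℝ) ≤ X ∧ (m + 1).Prime ∧ ¬ Normal w (m + 1)) with hS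
  have hPS : ((Finset.Icc 1 ⌊X⌋₊).filter (fun p => p.Prime ∧ ¬ Normal w p)).card ≤ S.card := by
    refine le_trans (Finset.card_le_card ?_) (Finset.card_image_le (f := fun m => m + 1))
    intro p hp
    obtain ⟨h1, h2, h4⟩ := Finset.mem_filter.1 hp
    have h5 := h2.two_le
    have h6 := Finset.mem_Icc.1 h1
    have e : p - 1 + 1 = p := by omega
    refine Finset.mem_image.2 ⟨p - 1, Finset.mem_filter.2 ⟨Finset.mem_Icc.2 ⟨by omega, by omega⟩,
      ?_⟩, e⟩
    rw [e]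
    exact ⟨(Nat.le_floor_iff hX0.le).1 h6.2, h2, h4⟩
  refine le_trans (by exact_mod_cast hPS) (h3 X hX hL3 hL2 S (Finset.filter_subset _ _) ?_)
  set T := ⌈Real.log (Real.log X)⌉₊ with hT
  have hT1 : (T : ℝ) ≤ 25 * (w : ℝ) ^ 40 := by
    have := ceil_le_25 (N := w ^ 40) hL0 (by push_cast; exact hL2)
    exact_mod_cast this
  have hT2 : (T : ℝ) ≤ Real.log (Real.log X) + 1 :=
    (Nat.ceil_lt_add_one (Real.log_nonneg hL5)).le
  set A := (Finset.Icc 1 ⌊X⌋₊).filter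
    (fun a : ℕ => Real.log X / (2 * ((w : ℝ) ^ 40) ^ 2) ≤ Real.log (X / a) ∧
      ∃ t : ℕ, t ≤ T ∧ (w : ℝ) ^ 24 - 2 ≤ |(om t a : ℝ) - t|) with hA
  have c1 := count_split (S.filter (fun m : ℕ => Real.sqrt X < m ∧ Om m ≤ w ^ 80)) A
    (fun a => (Finset.Icc 1 ⌊X / a⌋₊).filter (fun P => P.Prime ∧ (a * P + 1).Prime)) (by
      intro m hm
      obtain ⟨hm1, hm2, hm3⟩ := Finset.mem_filter.1 hm
      obtain ⟨-, hm4, hm5, hm6⟩ := Finset.mem_filter.1 hm1
      have hm7 : (m : ℝ) ≤ X := le_trans (by push_cast; linarith) hm4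
      have hw0 : 0 < w := by exact_mod_cast (by linarith : (0 : ℝ) < w)
      obtain ⟨a, P, hP, rfl, ha, hPa, hlog⟩ := split_largest hX hm2 hm7 hm3 (by positivity)
      refine ⟨a, Finset.mem_filter.2 ⟨ha, ?_, ?_⟩, P, Finset.mem_filter.2 ⟨hPa, hP, hm5⟩, rfl⟩
      · convert hlog using 3
        push_cast; ring
      · exact abn_dev (Finset.mem_Icc.1 ha).1 hP (lev_le_ceil hm4 hL0)
          (ceil_le_lev hX (hm2.le.trans (by push_cast; linarith)) hL5) hm6)
  have c2 : ∀ a ∈ A, (((Finset.Icc 1 ⌊X / a⌋₊).filter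
      (fun P => P.Prime ∧ (a * P + 1).Prime)).card : ℝ) ≤
      X * (4 * ((w : ℝ) ^ 40) ^ 14 / Real.log X ^ 2) * (1 / a) := by
    intro a ha
    obtain ⟨ha1, ha2, -⟩ := Finset.mem_filter.1 ha
    have ha3 := Finset.mem_Icc.1 ha1
    have ha4 : (a : ℝ) ≤ X := (Nat.le_floor_iff hX0.le).1 ha3.2
    have ha5 : (1 : ℝ) ≤ a := by exact_mod_cast ha3.1
    have ha6 : 1 ≤ X / a := by rw [le_div_iff₀ (by linarith)]; linarith
    have h30 : Real.log X ≤ Real.exp (30 * ((w ^ 40 : ℕ) : ℝ)) := by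
      refine hL2.trans (Real.exp_le_exp.2 ?_)
      push_cast
      nlinarith [(by positivity : 0 ≤ (w : ℝ) ^ 40)]
    have := hsv (X / a) a ha6 (by
        refine le_trans ?_ ha2
        rw [le_div_iff₀ (by positivity)]
        refine le_trans (le_of_eq ?_) (hp1.trans hL4)
        push_cast; ring)
      ((Real.log_le_log (by linarith) (div_le_self hX0.le ha5)).trans h30) ha3.1
      ((Real.log_le_log (by linarith) ha4).trans h30)
    push_cast at this
    exact abn_fiber (by positivity) hL0 hX0.le (by linarith) ha2 this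
  have c3 := hC (1 / (100 * (w : ℝ) ^ 16)) ((w : ℝ) ^ 24 - 2) T A (by positivity) (by
      apply one_div_le_one_div_of_le (by norm_num)
      have := one_le_pow₀ (n := 16) hw1
      linarith) (by
      intro a ha
      obtain ⟨ha1, -, ha2⟩ := Finset.mem_filter.1 ha
      have ha3 := Finset.mem_Icc.1 ha1
      have ha4 : (a : ℝ) ≤ X := (Nat.le_floor_iff hX0.le).1 ha3.2
      exact ⟨ha3.1, fun q _ hq => (lev_mono (Nat.le_of_dvd ha3.1 hq)).trans (lev_le_ceil ha4 hL0),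
        ha2⟩)
  have c4 := abn_num hw hL0 (Nat.cast_nonneg T) hT1 hT2 hp2
  refine c1.trans ((Finset.sum_le_sum c2).trans ?_)
  rw [← Finset.mul_sum]
  refine (mul_le_mul_of_nonneg_left c3 (by positivity)).trans ?_
  rw [mul_assoc]
  refine (mul_le_mul_of_nonneg_left c4 hX0.le).trans (le_of_eq ?_)
  ring

theorem abn_sum : ∀ᶠ w : ℕ in atTop, ∀ P : Finset ℕ,
    (∀ p ∈ P, p.Prime ∧ w ^ 36 < lev p ∧ lev p ≤ 20 * w ^ 40 ∧ ¬ Normal w p) →
    ∑ p ∈ P, (1 / (p : ℝ)) ≤ Real.exp (-(w : ℝ) ^ 2) := by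
  classical
  filter_upwards [abn_count, ev_ge 2, ev_poly_le_exp 220 40] with w hc hw hp P hP
  have hw1 : (1 : ℝ) ≤ w := by linarith
  have h40 : (1 : ℝ) ≤ (w : ℝ) ^ 40 := one_le_pow₀ hw1
  have key := dyadic_log P (fun p => p) (Real.exp (-(w : ℝ) ^ 3)) (20 * w ^ 40)
    (Real.exp_pos _).le (fun p hp => ⟨(hP p hp).1.two_le, (hP p hp).2.2.1⟩) (by
      intro X hX hL
      rcases Finset.eq_empty_or_nonempty
        (P.filter (fun i : ℕ => X < 2 * (i : ℝ) ∧ (i : ℝ) ≤ X)) with h | ⟨p, hp⟩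
      · rw [h, Finset.card_empty, Nat.cast_zero]
        have := Real.log_nonneg (by linarith : 1 ≤ X)
        positivity
      · obtain ⟨hp1, -, hp3⟩ := Finset.mem_filter.1 hp
        have a1 := exp_lt_log_of_lt_lev (hP p hp1).2.1
        have a2 : Real.log p ≤ Real.log X :=
          Real.log_le_log (by exact_mod_cast (hP p hp1).1.pos) hp3
        refine le_trans ?_ (hc X (by linarith) ?_ ?_)
        · have : P.filter (fun i : ℕ => X < 2 * (i : ℝ) ∧ (i : ℝ) ≤ X) ⊆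
              (Finset.Icc 1 ⌊X⌋₊).filter (fun p => p.Prime ∧ ¬ Normal w p) := by
            intro q hq
            obtain ⟨hq1, -, hq3⟩ := Finset.mem_filter.1 hq
            exact Finset.mem_filter.2 ⟨Finset.mem_Icc.2 ⟨(hP q hq1).1.one_le, Nat.le_floor hq3⟩,
              (hP q hq1).1, (hP q hq1).2.2.2⟩
          exact_mod_cast Finset.card_le_card this
        · refine le_trans (Real.exp_le_exp.2 ?_) (a1.le.trans a2)
          push_cast
          linarith [(by positivity : 0 ≤ (w : ℝ) ^ 36)]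
        · refine hL.trans (Real.exp_le_exp.2 ?_)
          push_cast
          linarith)
  exact key.trans (sum_num hw hp)

end Vale.Agent.P031
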