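import Vale.Agent.P031.Top0
import Vale.Agent.P031.Normal
import Vale.Agent.P031.Coll

/-!
# Task TopLower: lower bound for V(x)

Choose a datum `D m` with `Tt <= s - 3 Delta` for each `m` in `MSet 0 (s - 3 Delta)`; take the pairs
`(p, m)` with `p` a normal prime, `sqrt x + 1 < p`, `(p - 1) m <= x`. Then `lev p >= s - 1`,
`(p :: L, r)` is good, and the value is a totient `<= x`. By `pnt` and `abn_count` there are at
least `(1 - eps) x / (m log x)` such `p` for each `m` (`log m <= N^2 exp (s - 3 Delta)`), and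
`sum_image_ge` (with `g = 1`) and `coll_count` bound the loss from collisions.
-/

open Finset Real Filter

namespace Vale.Agent.P031

set_option maxHeartbeats 1000000 in
theorem top_lower (eps : ℝ) (heps : 0 < eps) : ∀ᶠ w : ℕ in atTop, ∀ s x : ℝ,
    (w : ℝ) ^ 40 / 2 ≤ s → s ≤ (w : ℝ) ^ 40 → 1 < x →
    s ≤ Real.log (Real.log x) → Real.log (Real.log x) ≤ s + 1 →
    x / Real.log x * ((1 - eps) * MM w 0 (s - 3 * (w : ℝ) ^ 38) - eps) ≤ (VV x : ℝ) := by
  classical
  obtain ⟨X0, hX02, hX0⟩ := pnt_bounds (eps / 4) (by positivity)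
  filter_upwards [ev_ge 10, top_facts (max (2 * X0) (256 / eps)) (1 / 4) (by norm_num),
    ev_exp_neg_le (eps / 8) (by positivity), abn_count, coll_count, good_small]
    with w hw hf hexp habn hcoll hsmall s x hs1 hs2 hx h1 h2
  obtain ⟨fK, fb, _, _, fe1, fe2⟩ := hf s x hs1 hs2 hx h1 h2
  obtain ⟨p1, p2, p3, _, _⟩ := pow_facts hw
  have hw0 : (0 : ℝ) ≤ (w : ℝ) ^ 36 := by positivity
  set l := Real.log x with hl
  have hl0 : 0 < l := Real.log_pos hx
  have hx0 : 0 < x := by linarith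
  have hK1 : 2 * X0 ≤ l := (le_max_left _ _).trans fK
  have hK2 : 256 / eps ≤ l := (le_max_right _ _).trans fK
  have hxe : x = Real.exp l := (Real.exp_log hx0).symm
  have hsq : Real.sqrt x = Real.exp (l / 2) := by rw [hxe, Real.exp_half]
  set M := MSet w 0 (s - 3 * (w : ℝ) ^ 38) with hM
  have hch : ∀ m : ℕ, ∃ d : List ℕ × ℕ, m ∈ M → Good w d.1 d.2 ∧ val d.1 d.2 = m ∧
      Tt ((w : ℝ) ^ 36) (levs d.1) ≤ s - 3 * (w : ℝ) ^ 38 := by
    intro m
    by_cases hm : m ∈ M
    · obtain ⟨_, L, r, h3, h4, h5⟩ := mem_MSet.1 hm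
      exact ⟨(L, r), fun _ => ⟨h3, h4, h5⟩⟩
    · exact ⟨([], 1), fun h => absurd h hm⟩
  choose d hd using hch
  have hmpos : ∀ m ∈ M, 0 < m := fun m hm => (hd m hm).2.1 ▸ val_pos (hd m hm).1
  have hmlog : ∀ m ∈ M, Real.log m ≤ 1 / 4 * l := by
    intro m hm
    obtain ⟨h3, h4, h5⟩ := hd m hm
    have h6 := (hsmall _ _ h3 (by linarith)).2.2.1
    rw [h4] at h6
    refine h6.trans (le_trans ?_ fb)
    exact mul_le_mul_of_nonneg_left
      (Real.exp_le_exp.2 ((head_le_Tt _ _).trans h5)) (by positivity)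
  let P : ℕ → Finset ℕ := fun m => (Finset.Icc 1 ⌊x / m⌋₊).filter
    (fun p => p.Prime ∧ Normal w p ∧ Real.sqrt x + 1 < p)
  have hesp : Real.exp (s - 1) ≤ l / 2 := by
    have h3 : Real.exp s = Real.exp (s - 1) * Real.exp 1 := by rw [← Real.exp_add]; ring_nf
    have h4 := Real.add_one_le_exp (1 : ℝ)
    have h5 := Real.exp_pos (s - 1)
    nlinarith
  have hPcard : ∀ m ∈ M, (1 - eps) * (x / l) * (1 / m) ≤ ((P m).card : ℝ) := by
    intro m hm
    have hm0 : (0 : ℝ) < m := by exact_mod_cast hmpos m hm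
    have hm1 : 0 ≤ Real.log m := Real.log_natCast_nonneg m
    have hm2 := hmlog m hm
    set X := x / m with hX
    have hX0' : 0 < X := by positivity
    have hlX : Real.log X = l - Real.log m := Real.log_div hx0.ne' hm0.ne'
    have hXe : Real.exp (3 / 4 * l) ≤ X := by
      rw [← Real.exp_log hX0']; exact Real.exp_le_exp.2 (by linarith)
    have hXX0 : X0 ≤ X := by
      have := Real.add_one_le_exp (3 / 4 * l); linarith
    have hlX0 : 0 < Real.log X := by linarith
    have c1 := (hX0 X hXX0).1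
    have c2 := habn X (by linarith) (by
        have : Real.exp ((w : ℝ) ^ 36 / 2) ≤ Real.exp (s - 1) := Real.exp_le_exp.2 (by linarith)
        linarith)
      (by
        have : Real.exp (s + 1) ≤ Real.exp (25 * (w : ℝ) ^ 40) := Real.exp_le_exp.2 (by linarith)
        linarith)
    have hsub : (Finset.Icc 1 ⌊X⌋₊).filter Nat.Prime ⊆ P m ∪
        ((Finset.Icc 1 ⌊X⌋₊).filter (fun p => p.Prime ∧ ¬ Normal w p) ∪
          Finset.Icc 1 ⌊Real.sqrt x + 1⌋₊) := by
      intro p hp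
      obtain ⟨h3, h4⟩ := Finset.mem_filter.1 hp
      by_cases h5 : Normal w p
      · by_cases h6 : Real.sqrt x + 1 < p
        · exact Finset.mem_union_left _ (Finset.mem_filter.2 ⟨h3, h4, h5, h6⟩)
        · refine Finset.mem_union_right _ (Finset.mem_union_right _ ?_)
          exact Finset.mem_Icc.2 ⟨h4.one_le, Nat.le_floor (not_lt.1 h6)⟩
      · exact Finset.mem_union_right _
          (Finset.mem_union_left _ (Finset.mem_filter.2 ⟨h3, h4, h5⟩))
    have c3 := (Finset.card_le_card hsub).trans ((Finset.card_union_le _ _).trans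
      (Nat.add_le_add_left (Finset.card_union_le _ _) _))
    rw [Nat.card_Icc, Nat.add_sub_cancel] at c3
    have c4 : (((Finset.Icc 1 ⌊X⌋₊).filter Nat.Prime).card : ℝ) ≤ (P m).card +
        ((((Finset.Icc 1 ⌊X⌋₊).filter (fun p => p.Prime ∧ ¬ Normal w p)).card : ℝ) +
          (⌊Real.sqrt x + 1⌋₊ : ℝ)) := by exact_mod_cast c3
    have c5 : (⌊Real.sqrt x + 1⌋₊ : ℝ) ≤ eps / 4 * (X / l) := by
      refine (Nat.floor_le (by positivity)).trans ?_
      rw [hsq, mul_div_assoc', le_div_iff₀ hl0]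
      have d1 : 1 ≤ Real.exp (l / 2) := Real.one_le_exp (by positivity)
      have d2 : Real.exp (3 / 4 * l) = Real.exp (l / 2) * Real.exp (l / 4) := by
        rw [← Real.exp_add]; ring_nf
      have d3 := Real.quadratic_le_exp_of_nonneg (x := l / 4) (by positivity)
      have d4 : 256 ≤ l * eps := by rwa [div_le_iff₀ heps] at hK2
      have d5 : 2 * l ≤ eps / 4 * Real.exp (l / 4) := by
        have : eps / 4 * ((l / 4) ^ 2 / 2) ≤ eps / 4 * Real.exp (l / 4) :=
          mul_le_mul_of_nonneg_left (by linarith) (by positivity)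
        have h9 : l * 256 ≤ l * (l * eps) := mul_le_mul_of_nonneg_left d4 hl0.le
        have h10 : eps / 4 * ((l / 4) ^ 2 / 2) = l * (l * eps) / 128 := by ring
        linarith
      calc (Real.exp (l / 2) + 1) * l ≤ Real.exp (l / 2) * (2 * l) := by
            have := mul_le_mul_of_nonneg_right d1 hl0.le
            linarith
        _ ≤ Real.exp (l / 2) * (eps / 4 * Real.exp (l / 4)) :=
          mul_le_mul_of_nonneg_left d5 (by positivity)
        _ = eps / 4 * Real.exp (3 / 4 * l) := by rw [d2]; ring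
        _ ≤ eps / 4 * X := mul_le_mul_of_nonneg_left hXe (by positivity)
    have c6 : X / l ≤ X / Real.log X := div_le_div_of_nonneg_left hX0'.le hlX0 (by linarith)
    have c7 : Real.exp (-(w : ℝ) ^ 3) * X / Real.log X ≤ eps / 8 * (X / Real.log X) := by
      rw [mul_div_assoc]
      exact mul_le_mul_of_nonneg_right hexp (by positivity)
    have c8 : (1 - eps) * (x / l) * (1 / m) = (1 - eps) * (X / l) := by rw [hX]; ring
    have c9 : 0 < X / l := by positivity
    rw [c8]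
    by_cases h9 : eps ≤ 1
    · have : (1 - eps / 4 - eps / 8) * (X / l) ≤ (1 - eps / 4 - eps / 8) * (X / Real.log X) :=
        mul_le_mul_of_nonneg_left c6 (by linarith)
      have h10 : 0 ≤ eps * (X / l) := by positivity
      linarith
    · have : (0 : ℝ) ≤ (P m).card := Nat.cast_nonneg _
      have h10 : (1 - eps) * (X / l) ≤ 0 :=
        mul_nonpos_of_nonpos_of_nonneg (by linarith) c9.le
      linarith
  let D : Finset (ℕ × ℕ) := (M ×ˢ Finset.Icc 1 ⌊x⌋₊).filter (fun e => e.2 ∈ P e.1)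
  have hPsub : ∀ m ∈ M, P m ⊆ Finset.Icc 1 ⌊x⌋₊ := by
    intro m hm p hp
    have hm0 : (1 : ℝ) ≤ m := by exact_mod_cast hmpos m hm
    have h3 := Finset.mem_Icc.1 (Finset.mem_filter.1 hp).1
    exact Finset.mem_Icc.2 ⟨h3.1, h3.2.trans (Nat.floor_le_floor (div_le_self hx0.le hm0))⟩
  have hDcard : (D.card : ℝ) = ∑ m ∈ M, ((P m).card : ℝ) := by
    have : D.card = ∑ m ∈ M, (P m).card := by
      rw [Finset.card_filter, Finset.sum_product]
      apply Finset.sum_congr rfl
      intro m hm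
      rw [← Finset.card_filter]
      congr 1
      ext p
      simp only [Finset.mem_filter (s := Finset.Icc 1 ⌊x⌋₊) (p := fun a => a ∈ P m)]
      exact ⟨fun h => h.2, fun h => ⟨hPsub m hm h, h⟩⟩
    rw [this]; push_cast; rfl
  have hD : ∀ e ∈ D, e.1 ∈ M ∧ e.2.Prime ∧ Good w (e.2 :: (d e.1).1) (d e.1).2 ∧
      val (e.2 :: (d e.1).1) (d e.1).2 = (e.2 - 1) * e.1 ∧
      Tt ((w : ℝ) ^ 36) (levs (d e.1).1) + (w : ℝ) ^ 38 ≤ lev e.2 ∧
      Real.sqrt x < (((e.2 - 1) * e.1 : ℕ) : ℝ) ∧ (((e.2 - 1) * e.1 : ℕ) : ℝ) ≤ x := by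
    rintro ⟨m, p⟩ he
    obtain ⟨h3, h4⟩ := Finset.mem_filter.1 he
    have hm : m ∈ M := (Finset.mem_product.1 h3).1
    obtain ⟨h5, hp, hn, hbig⟩ := Finset.mem_filter.1 h4
    obtain ⟨g1, g2, g3⟩ := hd m hm
    have hm1 : (1 : ℝ) ≤ m := by exact_mod_cast hmpos m hm
    have hlev : s - 1 ≤ lev p := by
      apply le_lev_of_exp_le
      refine hesp.trans ?_
      rw [Real.le_log_iff_exp_le (by exact_mod_cast hp.pos), ← hsq]
      linarith
    have hcast : (((p - 1) * m : ℕ) : ℝ) = ((p : ℝ) - 1) * m := by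
      rw [Nat.cast_mul, Nat.cast_sub hp.one_le, Nat.cast_one]
    have hsx := Real.sqrt_nonneg x
    refine ⟨hm, hp, good_cons g1 hp ?_ hn ?_, by rw [val_cons, g2], by linarith, ?_, ?_⟩
    · have : ((w ^ 36 : ℕ) : ℝ) < lev p := by push_cast; linarith
      exact_mod_cast this
    · intro q hq
      by_contra hc
      have h6 : (lev p : ℝ) ≤ lev q := by exact_mod_cast lev_mono (not_lt.1 hc)
      have h7 := (good_lev_le_head g1 q hq).trans ((head_le_Tt _ _).trans g3)
      linarith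
    · simp only []
      rw [hcast]
      have : ((p : ℝ) - 1) * 1 ≤ ((p : ℝ) - 1) * m := mul_le_mul_of_nonneg_left hm1 (by linarith)
      linarith
    · simp only []
      rw [hcast]
      have h6 : (p : ℝ) ≤ x / m := (Nat.le_floor_iff (by positivity)).1 (Finset.mem_Icc.1 h5).2
      rw [le_div_iff₀ (by linarith)] at h6
      linarith
  have himg := sum_image_ge D (fun e => (e.2 - 1) * e.1) (fun _ => 1) (fun _ => zero_le_one)
  simp only [Finset.sum_const, nsmul_eq_mul, mul_one] at himg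
  have hV : ((D.image (fun e => (e.2 - 1) * e.1)).card : ℝ) ≤ VV x := by
    unfold VV
    apply Nat.cast_le.2 (Finset.card_le_card _)
    intro v hv
    obtain ⟨e, he, rfl⟩ := Finset.mem_image.1 hv
    obtain ⟨_, _, g3, g4, _, _, g7⟩ := hD e he
    refine Finset.mem_filter.2 ⟨Finset.mem_Icc.2 ⟨?_, Nat.le_floor g7⟩, g4 ▸ good_isTot g3⟩
    exact g4 ▸ val_pos g3
  set E := (D ×ˢ D).filter (fun e => e.1 ≠ e.2 ∧
    (e.1.2 - 1) * e.1.1 = (e.2.2 - 1) * e.2.1) with hE
  let φ : (ℕ × ℕ) × (ℕ × ℕ) → (ℕ × List ℕ × ℕ) × (ℕ × List ℕ × ℕ) :=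
    fun e => ((e.1.2, d e.1.1), (e.2.2, d e.2.1))
  have hinj : Set.InjOn φ E := by
    rintro ⟨⟨m1, p1⟩, ⟨m2, p2⟩⟩ h3 ⟨⟨m3, p3⟩, ⟨m4, p4⟩⟩ h4 h5
    have a1 := Finset.mem_product.1 (Finset.mem_filter.1 (Finset.mem_coe.1 h3)).1
    have a2 := Finset.mem_product.1 (Finset.mem_filter.1 (Finset.mem_coe.1 h4)).1
    simp only [φ, Prod.mk.injEq] at h5
    obtain ⟨⟨b1, b2⟩, b3, b4⟩ := h5
    have c1 : m1 = m3 := by
      rw [← (hd m1 (hD _ a1.1).1).2.1, ← (hd m3 (hD _ a2.1).1).2.1, b2]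
    have c2 : m2 = m4 := by
      rw [← (hd m2 (hD _ a1.2).1).2.1, ← (hd m4 (hD _ a2.2).1).2.1, b4]
    rw [b1, b3, c1, c2]
  have hEc := hcoll x hx.le (fe2.trans (Real.exp_le_exp.2 (by linarith))) (E.image φ) (by
    intro dd hdd
    obtain ⟨e, he, rfl⟩ := Finset.mem_image.1 hdd
    obtain ⟨a1, a2, a3⟩ := Finset.mem_filter.1 he
    obtain ⟨b1, b2⟩ := Finset.mem_product.1 a1
    obtain ⟨_, g2, g3, g4, g5, g6, g7⟩ := hD _ b1
    obtain ⟨_, _, k3, k4, k5, _, _⟩ := hD _ b2
    refine ⟨⟨g3, k3, ?_, ?_, g5, k5⟩, ?_, ?_⟩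
    · simp only [φ]; rw [g4, k4, a3]
    · simp only [φ]
      intro hc
      apply a2
      rw [← hc] at a3
      have : 0 < e.1.2 - 1 := by have := g2.two_le; omega
      exact Prod.ext (Nat.eq_of_mul_eq_mul_left this a3) hc
    · simp only [φ]; rw [g4]; exact g6
    · simp only [φ]; rw [g4]; exact g7)
  rw [Finset.card_image_of_injOn hinj] at hEc
  have hsum : (1 - eps) * (x / l) * MM w 0 (s - 3 * (w : ℝ) ^ 38) ≤ D.card := by
    rw [hDcard, MM, Finset.mul_sum]
    exact Finset.sum_le_sum hPcard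
  have hxl : 0 < x / l := by positivity
  have hE2 : Real.exp (-(w : ℝ) ^ 3) * x / l ≤ eps * (x / l) := by
    rw [mul_div_assoc]
    exact mul_le_mul_of_nonneg_right (by linarith) hxl.le
  linarith

end Vale.Agent.P031
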