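import Vale.Agent.P031.Top1
import Vale.Agent.P031.Exc

/-!
# Task TopUpper: upper bound for V(x)

Drop `v <= x / (log x)^2`, `Om v > N^2` (`many_factors_sum_le`), and `Viol w v` (`viol_count`).
Apply `peel_top`: `log p >= log v / N^2 >= log x / (2 N^2)`, so `p` is big; the case
`p (p-1) | v` is negligible (`sum_inv_mul_pred_le`). Otherwise `v = (p-1) m`, `m` in `Tot w`,
`p <= x/m + 1 <= 2 x / m`. If `p` is abnormal use `abn_count` at `X = 2x/m`; if `m` is bad use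
`pi_le` and `exc_sum`; both cost `poly(N) exp (-w) SS x / log x`. Otherwise `(p :: L, r)` is good,
not violating, so `Tt (levs L) <= s + 3 Delta`, `m` in `MSet 0 (s + 3 Delta)`, and
`log p >= (log x) / 3` (the second prime of `L` has level at most `4/5 (s + 2 Delta)` by
`TT_two_ge`). For `m` in `MSet 0 (s - 3 Delta)`, `log m <= N^2 exp (s - 3 Delta)` is tiny against
`log x` and `pnt` gives at most `(1 + eps) x / (m log x)` primes; for the other `m` use `pi_le`.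
-/

open Finset Real Filter

namespace Vale.Agent.P031

open Classical in
theorem top_cover : ∀ᶠ w : ℕ in atTop, ∀ s x : ℝ,
    (w : ℝ) ^ 40 / 2 ≤ s → s ≤ (w : ℝ) ^ 40 → 1 < x →
    s ≤ Real.log (Real.log x) → Real.log (Real.log x) ≤ s + 1 →
    ∀ v ∈ (Finset.Icc 1 ⌊x⌋₊).filter IsTot,
      v ∈ Finset.Icc 1 ⌊x / Real.log x ^ 2⌋₊ ∨ w ^ 80 < Om v ∨ (Real.sqrt x < v ∧ Viol w v) ∨
      (∃ p : ℕ, ⌊Real.log x ^ 2⌋₊ < p ∧ p * (p - 1) ∣ v) ∨
      v ∈ pairs (Tot w) (fun m => (bigP x (Real.log x / (2 * (w : ℝ) ^ 80)) m).filter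
        (fun p => ¬ Normal w p)) ∨
      v ∈ pairs ((Tot w).filter (fun m => Exc w m)) (bigP x (Real.log x / (2 * (w : ℝ) ^ 80))) ∨
      v ∈ pairs (MSet w 0 (s - 3 * (w : ℝ) ^ 38))
        (fun m => (Finset.Icc 1 ⌊x / m + 1⌋₊).filter Nat.Prime) ∨
      v ∈ pairs (MSet w 0 (s + 3 * (w : ℝ) ^ 38) \ MSet w 0 (s - 3 * (w : ℝ) ^ 38))
        (bigP x (Real.log x / 3)) := by
  filter_upwards [ev_ge 10, top_facts 1 (1 / 6) (by norm_num), good_small]
    with w hw hf hsmall s x hs1 hs2 hx h1 h2 v hv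
  obtain ⟨fK, fb, fc, fd, fe1, fe2⟩ := hf s x hs1 hs2 hx h1 h2
  obtain ⟨p1, p2, p3, _, p5⟩ := pow_facts hw
  have hw0 : (0 : ℝ) ≤ (w : ℝ) ^ 36 := by positivity
  set l := Real.log x with hl
  have hl0 : 0 < l := Real.log_pos hx
  have hx0 : 0 < x := by linarith
  obtain ⟨hv1, hvt⟩ := Finset.mem_filter.1 hv
  obtain ⟨hv2, hv3⟩ := Finset.mem_Icc.1 hv1
  have hvx : (v : ℝ) ≤ x := (Nat.le_floor_iff hx0.le).1 hv3
  have hv0 : (0 : ℝ) < v := by exact_mod_cast hv2
  by_cases c1 : v ∈ Finset.Icc 1 ⌊x / l ^ 2⌋₊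
  · exact Or.inl c1
  right
  by_cases c2 : w ^ 80 < Om v
  · exact Or.inl c2
  right
  have hll : 0 ≤ Real.log l := Real.log_nonneg fK
  have hW : (0 : ℝ) < 2 * (w : ℝ) ^ 80 := by linarith
  have hll2 : 2 * Real.log l < l / (2 * (w : ℝ) ^ 80) := by
    rw [lt_div_iff₀ hW]; linarith
  have hll3 : 2 * Real.log l ≤ 1 / 6 * l := by
    have : 40 * Real.log l ≤ 4 * (w : ℝ) ^ 80 * Real.log l :=
      mul_le_mul_of_nonneg_right (by linarith) hll
    linarith
  have hlv : 5 / 6 * l ≤ Real.log v := by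
    have h3 : x / l ^ 2 < v := by
      by_contra hc
      exact c1 (Finset.mem_Icc.2 ⟨hv2, Nat.le_floor (not_lt.1 hc)⟩)
    have h4 := Real.log_le_log (by positivity) h3.le
    rw [Real.log_div hx0.ne' (by positivity), Real.log_pow] at h4
    push_cast at h4
    linarith
  have hsv : Real.sqrt x < v := by
    rw [← Real.exp_log hx0, ← Real.exp_half, ← Real.exp_log hv0]
    exact Real.exp_lt_exp.2 (by linarith)
  by_cases c3 : Viol w v
  · exact Or.inl ⟨hsv, c3⟩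
  right
  have hv4 : 2 ≤ v := by
    by_contra hc
    have : v = 1 := by omega
    rw [this] at hlv
    simp at hlv
    linarith
  obtain ⟨p, hp, hpm, hcase⟩ := peel_top (w := w) hvt hv4
  have hp0 : (0 : ℝ) < p := by exact_mod_cast hp.pos
  have hlp0 : 0 ≤ Real.log p := Real.log_natCast_nonneg p
  have hlp : l / (2 * (w : ℝ) ^ 80) ≤ Real.log p := by
    have h3 := log_le_Om_mul (a := v) hlp0 (fun q hq hqv =>
      Real.log_le_log (by exact_mod_cast hq.pos) (by exact_mod_cast hpm q hq hqv))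
    have h4 : (Om v : ℝ) ≤ (w : ℝ) ^ 80 := by exact_mod_cast not_lt.1 c2
    have h5 := mul_le_mul_of_nonneg_right h4 hlp0
    rw [div_le_iff₀ hW]
    linarith
  rcases hcase with hc | ⟨m, hmt, hvm, hc⟩
  · refine Or.inl ⟨p, ?_, hc⟩
    rw [Nat.floor_lt (by positivity), ← Real.exp_log hp0, ← Real.exp_log (pow_pos hl0 2),
      Real.log_pow]
    apply Real.exp_lt_exp.2
    push_cast
    linarith
  right
  have hp2 := hp.two_le
  have hm0 : 0 < m := by
    rcases Nat.eq_zero_or_pos m with rfl | h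
    · simp at hvm; omega
    · exact h
  have hm1 : (1 : ℝ) ≤ m := by exact_mod_cast hm0
  have hcast : (v : ℝ) = ((p : ℝ) - 1) * m := by
    rw [hvm, Nat.cast_mul, Nat.cast_sub hp.one_le, Nat.cast_one]
  have hp2' : (2 : ℝ) ≤ p := by exact_mod_cast hp2
  have hlevv : (lev v : ℝ) ≤ s + 1 + 1 :=
    lev_le_of_log_le (by linarith) ((Real.log_le_log hv0 hvx).trans fe2)
  have hmv : m ≤ v := by rw [hvm]; exact Nat.le_mul_of_pos_left _ (by omega)
  have hmT : m ∈ Tot w := by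
    refine mem_Tot.2 ⟨hmt, (lev_mono hmv).trans ?_⟩
    have : (lev v : ℝ) ≤ ((19 * w ^ 40 : ℕ) : ℝ) := by push_cast; linarith
    exact_mod_cast this
  have hpx : (p : ℝ) ≤ x / m + 1 := by
    have : (p : ℝ) - 1 ≤ x / m := by rw [le_div_iff₀ (by linarith)]; linarith
    linarith
  have hpx2 : p ∈ Finset.Icc 1 ⌊2 * x / m⌋₊ := by
    refine Finset.mem_Icc.2 ⟨hp.one_le, Nat.le_floor ?_⟩
    rw [le_div_iff₀ (by linarith)]
    have : 1 * (m : ℝ) ≤ ((p : ℝ) - 1) * m := mul_le_mul_of_nonneg_right (by linarith) (by linarith)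
    linarith
  have hbig : p ∈ bigP x (l / (2 * (w : ℝ) ^ 80)) m := Finset.mem_filter.2 ⟨hpx2, hp, hlp⟩
  by_cases c5 : Normal w p
  swap
  · exact Or.inl (hvm ▸ mem_pairs hmT (Finset.mem_filter.2 ⟨hbig, c5⟩))
  right
  rcases hc with hc | ⟨L, r, hg, hval, hq⟩
  · exact Or.inl (hvm ▸ mem_pairs (Finset.mem_filter.2 ⟨hmT, Or.inl hc⟩) hbig)
  right
  have hlevp : w ^ 36 < lev p := by
    by_contra hc
    have h3 := (lev_le_iff _ _).1 (not_lt.1 hc)
    push_cast at h3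
    have h4 : Real.exp ((w : ℝ) ^ 36) < l / (2 * (w : ℝ) ^ 80) := by
      rw [lt_div_iff₀ hW]; linarith
    linarith
  have hg' := good_cons hg hp hlevp c5 hq
  have hTT : TT 1 (levs L) ≤ s + 2 + (w : ℝ) ^ 38 := by
    by_contra hc
    exact c3 ⟨p, L, r, hg', by rw [val_cons, hval, hvm], by linarith⟩
  have hlevp2 : (lev p : ℝ) ≤ s + 3 := by
    have h3 : p ≤ v + 1 := by
      have : p - 1 ≤ v := by rw [hvm]; exact Nat.le_mul_of_pos_right _ hm0
      omega
    have h4 : (lev p : ℝ) ≤ lev v + 1 := by exact_mod_cast (lev_mono h3).trans (lev_succ_le v)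
    linarith
  have hM2 : m ∈ MSet w 0 (s + 3 * (w : ℝ) ^ 38) := by
    refine mem_MSet.2 ⟨hmT, L, r, hg, hval, max_le (by linarith) ?_⟩
    exact head_le_of_lt (by linarith) (by linarith) hq
  by_cases c7 : m ∈ MSet w 0 (s - 3 * (w : ℝ) ^ 38)
  · exact Or.inl (hvm ▸ mem_pairs c7
      (Finset.mem_filter.2 ⟨Finset.mem_Icc.2 ⟨hp.one_le, Nat.le_floor hpx⟩, hp⟩))
  right
  refine hvm ▸ mem_pairs (Finset.mem_sdiff.2 ⟨hM2, c7⟩) (Finset.mem_filter.2 ⟨hpx2, hp, ?_⟩)
  have hgt : Good w L.tail r := good_sublist hg (List.tail_sublist L)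
  have hhead : (levs L.tail).headD ((w : ℝ) ^ 36) ≤ s - 3 * (w : ℝ) ^ 38 :=
    head_tail_le hg (by linarith) (by linarith)
  have hTT2 : TT 1 (levs L.tail) ≤ TT 1 (levs L) :=
    TT_sublist le_rfl ((List.tail_sublist L).map _) (levs_nonneg L)
  have h3 := (hsmall _ _ hgt (max_le (by linarith) (by linarith))).2.2.1
  have h4 : Real.log (val L.tail r) ≤ 1 / 6 * l :=
    h3.trans (le_trans (mul_le_mul_of_nonneg_left (Real.exp_le_exp.2 hhead) (by positivity)) fb)
  have h5 : v ≤ p * (p * val L.tail r) := by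
    rw [hvm, ← hval]
    exact Nat.mul_le_mul (by omega) (val_le_mul_tail hp.one_le hg hq)
  have h6 : (0 : ℝ) < val L.tail r := by exact_mod_cast val_pos hgt
  have h7 : Real.log v ≤ Real.log (p * (p * val L.tail r)) :=
    Real.log_le_log hv0 (by exact_mod_cast h5)
  rw [Real.log_mul hp0.ne' (by positivity), Real.log_mul hp0.ne' h6.ne'] at h7
  linarith

theorem top_main_term (eps : ℝ) (heps : 0 < eps) : ∀ᶠ w : ℕ in atTop, ∀ s x : ℝ,
    (w : ℝ) ^ 40 / 2 ≤ s → s ≤ (w : ℝ) ^ 40 → 1 < x →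
    s ≤ Real.log (Real.log x) → Real.log (Real.log x) ≤ s + 1 →
    ∀ m ∈ MSet w 0 (s - 3 * (w : ℝ) ^ 38),
      (((Finset.Icc 1 ⌊x / m + 1⌋₊).filter Nat.Prime).card : ℝ) ≤
        x / Real.log x * (1 + eps) * (1 / m) := by
  set η := min eps 1 / 6 with hη
  have hη0 : 0 < η := by positivity
  have hη1 : η ≤ 1 / 6 := by have := min_le_right eps 1; linarith
  have hη2 : 6 * η ≤ eps := by have := min_le_left eps 1; linarith
  obtain ⟨X0, hX02, hX0⟩ := pnt_bounds η hη0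
  filter_upwards [ev_ge 10, top_facts (max (2 * X0) (2 / η)) η hη0, good_small]
    with w hw hf hsmall s x hs1 hs2 hx h1 h2 m hm
  obtain ⟨fK, fb, _, _, _, _⟩ := hf s x hs1 hs2 hx h1 h2
  obtain ⟨p1, p2, p3, _, _⟩ := pow_facts hw
  have hw0 : (0 : ℝ) ≤ (w : ℝ) ^ 36 := by positivity
  set l := Real.log x with hl
  have hl0 : 0 < l := Real.log_pos hx
  have hx0 : 0 < x := by linarith
  have hK1 : 2 * X0 ≤ l := (le_max_left _ _).trans fK
  have hK2 : 2 / η ≤ l := (le_max_right _ _).trans fK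
  obtain ⟨_, L, r, h3, h4, h5⟩ := mem_MSet.1 hm
  have h5' : Tt ((w : ℝ) ^ 36) (levs L) ≤ s - 3 * (w : ℝ) ^ 38 := h5
  have hm0 : (0 : ℝ) < m := by exact_mod_cast h4 ▸ val_pos h3
  have hmlog : Real.log m ≤ η * l := by
    have h6 := (hsmall _ _ h3 (by linarith)).2.2.1
    rw [h4] at h6
    refine h6.trans (le_trans ?_ fb)
    exact mul_le_mul_of_nonneg_left
      (Real.exp_le_exp.2 ((head_le_Tt _ _).trans h5')) (by positivity)
  set X := x / m with hX
  have hX0' : 0 < X := by positivity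
  have hlX : Real.log X = l - Real.log m := Real.log_div hx0.ne' hm0.ne'
  have hηl : η * l ≤ 1 / 6 * l := mul_le_mul_of_nonneg_right hη1 hl0.le
  have hXl : l / 2 ≤ X := by
    have := Real.add_one_le_exp (Real.log X)
    rw [Real.exp_log hX0'] at this
    linarith
  have c1 := (hX0 (X + 1) (by linarith)).2
  have c2 : X + 1 ≤ (1 + η) * X := by
    rw [div_le_iff₀ hη0] at hK2
    have : l / 2 * η ≤ X * η := mul_le_mul_of_nonneg_right hXl hη0.le
    linarith
  have c3 : (1 - η) * l ≤ Real.log (X + 1) := by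
    have := Real.log_le_log hX0' (by linarith : X ≤ X + 1)
    linarith
  have c4 : 0 < (1 - η) * l := by linarith
  have c5 : (X + 1) / Real.log (X + 1) ≤ (1 + η) * X / ((1 - η) * l) :=
    div_le_div₀ (by positivity) c2 c4 c3
  refine c1.trans ((mul_le_mul_of_nonneg_left c5 (by linarith)).trans ?_)
  have c6 : x / l * (1 + eps) * (1 / m) = (1 + eps) * (X / l) := by rw [hX]; ring
  have c7 : (1 + η) * ((1 + η) * X / ((1 - η) * l)) = (1 + η) ^ 2 / (1 - η) * (X / l) := by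
    have : 1 - η ≠ 0 := by linarith
    field_simp
  rw [c6, c7]
  apply mul_le_mul_of_nonneg_right _ (by positivity)
  rw [div_le_iff₀ (by linarith)]
  have c8 := mul_le_mul_of_nonneg_right hη2 (by linarith : 0 ≤ 1 - η)
  have c9 := mul_nonneg hη0.le (by linarith : 0 ≤ 3 - 7 * η)
  linarith

theorem top_abn : ∀ᶠ w : ℕ in atTop, ∀ s x : ℝ,
    (w : ℝ) ^ 40 / 2 ≤ s → s ≤ (w : ℝ) ^ 40 → 1 < x →
    s ≤ Real.log (Real.log x) → Real.log (Real.log x) ≤ s + 1 →
    ∀ (m : ℕ) (B : Finset ℕ), 0 < m →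
      (∀ p ∈ B, p ∈ bigP x (Real.log x / (2 * (w : ℝ) ^ 80)) m ∧ ¬ Normal w p) →
      (B.card : ℝ) ≤ x / Real.log x * (4 * (w : ℝ) ^ 80 * Real.exp (-(w : ℝ))) * (1 / m) := by
  classical
  filter_upwards [ev_ge 10, top_facts 1 1 one_pos, abn_count]
    with w hw hf habn s x hs1 hs2 hx h1 h2 m B hm hB
  obtain ⟨fK, _, _, fd, _, fe2⟩ := hf s x hs1 hs2 hx h1 h2
  obtain ⟨p1, p2, p3, p4, p5⟩ := pow_facts hw
  have hw0 : (0 : ℝ) ≤ (w : ℝ) ^ 36 := by positivity
  set l := Real.log x with hl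
  have hl0 : 0 < l := Real.log_pos hx
  have hx0 : 0 < x := by linarith
  have hm1 : (1 : ℝ) ≤ m := by exact_mod_cast hm
  have hW : (0 : ℝ) < 2 * (w : ℝ) ^ 80 := by linarith
  rcases B.eq_empty_or_nonempty with h | ⟨p, hp⟩
  · rw [h]; simp only [Finset.card_empty, Nat.cast_zero]; positivity
  obtain ⟨a1, a2, a3⟩ := Finset.mem_filter.1 (hB p hp).1
  set X := 2 * x / m with hX
  have hX0 : 0 < X := by positivity
  have h4 := le_log_of_mem hX0.le a1 a3
  have h5 : 1 ≤ X := by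
    have : (p : ℝ) ≤ X := (Nat.le_floor_iff hX0.le).1 (Finset.mem_Icc.1 a1).2
    have : (1 : ℝ) < p := by exact_mod_cast a2.one_lt
    linarith
  have h6 : Real.exp ((w : ℝ) ^ 36) < l / (2 * (w : ℝ) ^ 80) := by
    rw [lt_div_iff₀ hW]; linarith
  have h7 : Real.log X ≤ Real.exp (25 * (w : ℝ) ^ 40) := by
    have b1 : X ≤ 2 * x := div_le_self (by positivity) hm1
    have b2 := Real.log_le_log hX0 b1
    rw [Real.log_mul (by norm_num) hx0.ne'] at b2
    have b3 := Real.log_two_lt_d9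
    have b4 : Real.exp (s + 1) * Real.exp 1 ≤ Real.exp (25 * (w : ℝ) ^ 40) := by
      rw [← Real.exp_add]; exact Real.exp_le_exp.2 (by linarith)
    have b5 := Real.add_one_le_exp (1 : ℝ)
    have b6 : Real.exp (s + 1) * 2 ≤ Real.exp (s + 1) * Real.exp 1 :=
      mul_le_mul_of_nonneg_left (by linarith) (Real.exp_pos _).le
    linarith
  have c2 := habn X h5 (by
    have : Real.exp ((w : ℝ) ^ 36 / 2) ≤ Real.exp ((w : ℝ) ^ 36) := Real.exp_le_exp.2 (by linarith)
    linarith) h7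
  have c3 : (B.card : ℝ) ≤
      (((Finset.Icc 1 ⌊X⌋₊).filter (fun p => p.Prime ∧ ¬ Normal w p)).card : ℝ) := by
    apply Nat.cast_le.2 (Finset.card_le_card _)
    intro q hq
    obtain ⟨b1, b2, _⟩ := Finset.mem_filter.1 (hB q hq).1
    exact Finset.mem_filter.2 ⟨b1, b2, (hB q hq).2⟩
  refine c3.trans (le_trans (by convert c2) ?_)
  have c4 : Real.exp (-(w : ℝ) ^ 3) ≤ Real.exp (-(w : ℝ)) := Real.exp_le_exp.2 (by linarith)
  calc Real.exp (-(w : ℝ) ^ 3) * X / Real.log X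
      ≤ Real.exp (-(w : ℝ)) * X / (l / (2 * (w : ℝ) ^ 80)) :=
        div_le_div₀ (by positivity) (mul_le_mul_of_nonneg_right c4 hX0.le) (by positivity) h4
    _ = _ := by rw [hX]; field_simp; ring

set_option maxHeartbeats 400000 in
theorem top_upper (eps : ℝ) (heps : 0 < eps) : ∀ᶠ w : ℕ in atTop, ∀ s x : ℝ,
    (w : ℝ) ^ 40 / 2 ≤ s → s ≤ (w : ℝ) ^ 40 → 1 < x →
    s ≤ Real.log (Real.log x) → Real.log (Real.log x) ≤ s + 1 →
    (VV x : ℝ) ≤ x / Real.log x *
      ((1 + eps) * MM w 0 (s - 3 * (w : ℝ) ^ 38)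
        + 30 * (MM w 0 (s + 3 * (w : ℝ) ^ 38) - MM w 0 (s - 3 * (w : ℝ) ^ 38))
        + Real.exp (-(w : ℝ) / 2) * SS w + eps) := by
  classical
  filter_upwards [ev_ge 10, top_facts (max 2 (8 / eps)) 1 one_pos, top_cover,
    top_main_term eps heps, top_abn, ev_many (eps / 4) (by positivity),
    ev_exp_neg_le (eps / 4) (by positivity), viol_count, exc_sum, ev_poly_le_exp_half 24 80]
    with w hw hf hcov hmain habn hmany hexp hviol hexc hpoly s x hs1 hs2 hx h1 h2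
  obtain ⟨fK, _, _, _, _, fe2⟩ := hf s x hs1 hs2 hx h1 h2
  obtain ⟨p1, p2, p3, p4, p5⟩ := pow_facts hw
  have hw0 : (0 : ℝ) ≤ (w : ℝ) ^ 36 := by positivity
  have hcov' := hcov s x hs1 hs2 hx h1 h2
  have hmain' := hmain s x hs1 hs2 hx h1 h2
  have habn' := habn s x hs1 hs2 hx h1 h2
  set l := Real.log x with hl
  have hl0 : 0 < l := Real.log_pos hx
  have hx0 : 0 < x := by linarith
  have hK1 : 2 ≤ l := (le_max_left _ _).trans fK
  have hK2 : 8 ≤ l * eps := by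
    have := (le_max_right _ _).trans fK
    rwa [div_le_iff₀ heps] at this
  have hxl : 0 < x / l := by positivity
  set T := Finset.Icc 1 ⌊x⌋₊ with hT
  set u0 := l / (2 * (w : ℝ) ^ 80) with hu0
  set M1 := MSet w 0 (s - 3 * (w : ℝ) ^ 38) with hM1
  set M2 := MSet w 0 (s + 3 * (w : ℝ) ^ 38) with hM2
  let A1 := Finset.Icc 1 ⌊x / l ^ 2⌋₊
  let A2 := T.filter (fun v => w ^ 80 < Om v)
  let A3 := T.filter (fun v : ℕ => Real.sqrt x < v ∧ Viol w v)
  let A4 := T.filter (fun v => ∃ p : ℕ, ⌊l ^ 2⌋₊ < p ∧ p * (p - 1) ∣ v)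
  let A5 := pairs (Tot w) (fun m => (bigP x u0 m).filter (fun p => ¬ Normal w p))
  let A6 := pairs ((Tot w).filter (fun m => Exc w m)) (bigP x u0)
  let A7 := pairs M1 (fun m => (Finset.Icc 1 ⌊x / m + 1⌋₊).filter Nat.Prime)
  let A8 := pairs (M2 \ M1) (bigP x (l / 3))
  have hsub : T.filter IsTot ⊆ A1 ∪ (A2 ∪ (A3 ∪ (A4 ∪ (A5 ∪ (A6 ∪ (A7 ∪ A8)))))) := by
    intro v hv
    have hvT := (Finset.mem_filter.1 hv).1
    simp only [Finset.mem_union]
    rcases hcov' v (by convert hv) with h | h | h | h | h | h | h | h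
    · exact Or.inl h
    · exact Or.inr (Or.inl (Finset.mem_filter.2 ⟨hvT, h⟩))
    · exact Or.inr (Or.inr (Or.inl (Finset.mem_filter.2 ⟨hvT, h⟩)))
    · exact Or.inr (Or.inr (Or.inr (Or.inl (Finset.mem_filter.2 ⟨hvT, h⟩))))
    · exact Or.inr (Or.inr (Or.inr (Or.inr (Or.inl h))))
    · exact Or.inr (Or.inr (Or.inr (Or.inr (Or.inr (Or.inl h)))))
    · exact Or.inr (Or.inr (Or.inr (Or.inr (Or.inr (Or.inr (Or.inl h))))))
    · exact Or.inr (Or.inr (Or.inr (Or.inr (Or.inr (Or.inr (Or.inr h))))))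
  have hcard : VV x ≤ A1.card + (A2.card + (A3.card + (A4.card + (A5.card + (A6.card +
      (A7.card + A8.card)))))) := by
    unfold VV
    refine (Finset.card_le_card hsub).trans ?_
    iterate 6 refine (Finset.card_union_le _ _).trans (Nat.add_le_add_left ?_ _)
    exact Finset.card_union_le _ _
  have hcard' : (VV x : ℝ) ≤ A1.card + (A2.card + (A3.card + (A4.card + (A5.card + (A6.card +
      (A7.card + A8.card)))))) := by exact_mod_cast hcard
  have hl2 : 2 * (x / l ^ 2) ≤ eps / 4 * (x / l) := by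
    have : x / l ^ 2 = 1 / l * (x / l) := by field_simp
    rw [this, ← mul_assoc]
    apply mul_le_mul_of_nonneg_right _ hxl.le
    rw [mul_one_div, div_le_iff₀ hl0]
    linarith
  have hxl2 : 0 < x / l ^ 2 := by positivity
  have b1 : (A1.card : ℝ) ≤ eps / 4 * (x / l) := by
    simp only [A1, Nat.card_Icc, Nat.add_sub_cancel]
    have := Nat.floor_le hxl2.le
    linarith
  have b2 : (A2.card : ℝ) ≤ eps / 4 * (x / l) :=
    hmany x A2 hx (fe2.trans (Real.exp_le_exp.2 (by linarith)))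
      (fun v hv => Finset.mem_filter.1 hv)
  have b3 : (A3.card : ℝ) ≤ eps / 4 * (x / l) := by
    have := hviol x hx.le (fe2.trans (Real.exp_le_exp.2 (by linarith)))
    refine le_trans (by convert this) ?_
    rw [mul_div_assoc]
    exact mul_le_mul_of_nonneg_right hexp hxl.le
  have b4 : (A4.card : ℝ) ≤ eps / 4 * (x / l) := by
    have h3 : (1 : ℝ) ≤ l ^ 2 / 2 := by
      have := pow_le_pow_left₀ (by norm_num) hK1 2
      linarith
    have h4 : l ^ 2 / 2 ≤ ⌊l ^ 2⌋₊ := by have := Nat.lt_floor_add_one (l ^ 2); linarith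
    have h5 : 1 ≤ ⌊l ^ 2⌋₊ := Nat.le_floor (by push_cast; linarith)
    refine (card_sq_dvd_le hx0 _ h5 A4 (fun v hv => Finset.mem_filter.1 hv)).trans
      (le_trans ?_ hl2)
    calc x * (1 / (⌊l ^ 2⌋₊ : ℝ)) ≤ x * (1 / (l ^ 2 / 2)) :=
          mul_le_mul_of_nonneg_left (one_div_le_one_div_of_le (by linarith) h4) hx0.le
      _ = _ := by field_simp
  have b5 : (A5.card : ℝ) ≤ x / l * (4 * (w : ℝ) ^ 80 * Real.exp (-(w : ℝ))) * SS w :=
    card_pairs_le _ _ _ (fun m hm => habn' m _ (by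
      obtain ⟨n, hn, rfl⟩ := (mem_Tot.1 hm).1
      exact Nat.totient_pos.2 hn) (fun p hp => Finset.mem_filter.1 hp))
  have hu00 : 0 < u0 := by positivity
  have b6 : (A6.card : ℝ) ≤ x / l * (20 * (w : ℝ) ^ 80 * Real.exp (-(w : ℝ))) * SS w := by
    refine (card_pairs_le _ _ _ (fun m _ => card_bigP_le hx0 hu00 m)).trans ?_
    refine (mul_le_mul_of_nonneg_left (by convert hexc) (by positivity)).trans (le_of_eq ?_)
    rw [hu0]; field_simp; ring
  have b7 : (A7.card : ℝ) ≤ x / l * (1 + eps) * MM w 0 (s - 3 * (w : ℝ) ^ 38) :=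
    card_pairs_le _ _ _ hmain'
  have b8 : (A8.card : ℝ) ≤ x / l * 30 *
      (MM w 0 (s + 3 * (w : ℝ) ^ 38) - MM w 0 (s - 3 * (w : ℝ) ^ 38)) := by
    refine (card_pairs_le _ _ _ (fun m _ => card_bigP_le hx0 (by positivity) m)).trans
      (le_of_eq ?_)
    have hss : M1 ⊆ M2 := by
      intro m hm
      obtain ⟨a, L, r, b, c, d⟩ := mem_MSet.1 hm
      exact mem_MSet.2 ⟨a, L, r, b, c, by linarith⟩
    rw [Finset.sum_sdiff_eq_sub hss]
    congr 1
    field_simp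
    ring
  have b9 : 24 * (w : ℝ) ^ 80 * Real.exp (-(w : ℝ)) ≤ Real.exp (-(w : ℝ) / 2) := by
    refine (mul_le_mul_of_nonneg_right hpoly (Real.exp_pos _).le).trans (le_of_eq ?_)
    rw [← Real.exp_add]; congr 1; ring
  have b10 : x / l * (24 * (w : ℝ) ^ 80 * Real.exp (-(w : ℝ))) * SS w ≤
      x / l * Real.exp (-(w : ℝ) / 2) * SS w :=
    mul_le_mul_of_nonneg_right (mul_le_mul_of_nonneg_left b9 hxl.le)
      (zero_le_one.trans (one_le_SS w))
  linarith

end Vale.Agent.P031
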