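import Vale.Agent.P031.Exc
import Vale.Agent.P031.Asym
import Vale.Agent.P031.Aux37

/-!
# Task Up: the up step

Take `m` in `MSet j t2` but not in `MSet j t1`, not exceptional (`exc_sum`). Its datum with
`tau <= t2` is not empty (`tau_nil_le`), say `(p :: L', r)`, `m' = val L' r`. As `m` is not `Viol`,
and `lev m <= lev p + w` (`lev_le_of_Om`, `good_primes`),
`Tt (levs L') <= lev p + 2 Delta`, so `tau (j+1) (levs L') <= t2 + 2 C Delta` and `m'` is in
`MSet (j+1)`. For fixed `m'` the level of `p` lies in a window depending only on `m'`: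
if `p <= m' + 1` then `lev (m'+1) - w <= lev p <= lev (m'+1)` (`lev_le_of_Om`); if `p > m' + 1`
then `p :: L''` is good with value `m` for every datum `(L'', r'')` of `m'`, so
`tau j (lev p :: levs L'') > t1`, and `tau_head_ge` shows that two such levels differ by at most
`3 (t2 - t1)`. Finish with `mertens_window_le` and `1/(p-1) <= 2/p`.
-/

open Finset Real Filter

namespace Vale.Agent.P031

namespace A37

theorem sum_inv_pred_le (P : Finset ℕ) (hP : ∀ p ∈ P, 2 ≤ p) :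
    ∑ p ∈ P, (1 / ((p - 1 : ℕ) : ℝ)) ≤ 2 * ∑ p ∈ P, (1 / (p : ℝ)) := by
  rw [Finset.mul_sum]
  apply Finset.sum_le_sum
  intro p hp
  have h2 := hP p hp
  have h3 : (2 : ℝ) ≤ p := by exact_mod_cast h2
  rw [Nat.cast_sub (by omega), Nat.cast_one, mul_one_div, div_le_div_iff₀ (by linarith) (by linarith)]
  linarith

theorem le_succ_val {w q : ℕ} {L : List ℕ} {r : ℕ} (h : Good w L r) (hq : q ∈ L) :
    q ≤ val L r + 1 := by
  have h1 : q - 1 ∣ val L r :=
    (List.dvd_prod (List.mem_map.2 ⟨q, hq, rfl⟩ : q - 1 ∈ L.map (· - 1))).mul_right r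
  have := Nat.le_of_dvd (val_pos h) h1
  omega

theorem window_sum {Cm : ℝ} (hCm0 : 0 ≤ Cm) (hCm : ∀ (t1 t2 : ℕ) (P : Finset ℕ), t1 ≤ t2 →
    (∀ p ∈ P, p.Prime ∧ t1 < lev p ∧ lev p ≤ t2) → ∑ p ∈ P, (1 / (p : ℝ)) ≤ (t2 : ℝ) - t1 + Cm)
    (P : Finset ℕ) {u : ℝ} (hu : 0 ≤ u) (hP : ∀ p ∈ P, p.Prime ∧ 0 < lev p)
    (hw : ∀ p ∈ P, ∀ p' ∈ P, (lev p : ℝ) ≤ lev p' + u) :
    ∑ p ∈ P, (1 / (p : ℝ)) ≤ u + 1 + Cm := by
  rcases P.eq_empty_or_nonempty with rfl | hne
  · simp only [Finset.sum_empty]; linarith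
  obtain ⟨p0, hp0, hmin⟩ := Finset.exists_min_image P lev hne
  have h0 := (hP p0 hp0).2
  have := hCm (lev p0 - 1) (lev p0 + ⌊u⌋₊) P (by omega) (fun p hp => by
    refine ⟨(hP p hp).1, ?_, ?_⟩
    · have := hmin p hp; omega
    · have a := hw p hp p0 hp0
      have b : lev p - lev p0 ≤ ⌊u⌋₊ := by
        apply Nat.le_floor
        rw [Nat.cast_sub (hmin p hp)]
        linarith
      omega)
  have hfl : (⌊u⌋₊ : ℝ) ≤ u := Nat.floor_le hu
  rw [Nat.cast_sub (by omega), Nat.cast_add, Nat.cast_one] at this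
  linarith

end A37

open A37 in
theorem up_step (j : ℕ) : ∃ C : ℝ, 1 ≤ C ∧ ∀ᶠ w : ℕ in atTop, ∀ t1 t2 : ℝ,
    (w : ℝ) ^ 40 / 4 ≤ t1 → t1 ≤ t2 → t2 ≤ 2 * (w : ℝ) ^ 40 →
    MM w j t2 - MM w j t1 ≤
      C * (t2 - t1 + (w : ℝ) ^ 38) * MM w (j + 1) (t2 + C * (w : ℝ) ^ 38)
        + Real.exp (-(w : ℝ)) * SS w := by
  classical
  obtain ⟨C0, hC0, hnil⟩ := tau_nil_le j
  obtain ⟨C1, hC1, hhead⟩ := tau_head_le j
  obtain ⟨Cm, hCm0, hCm⟩ := mertens_window_le
  refine ⟨6 + 2 * C1, by linarith, ?_⟩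
  filter_upwards [exc_sum, lev_le_of_Om, ev_ge (4 * C0), ev_ge (1 + Cm), eventually_ge_atTop 1]
    with w hexc hlev hw0 hwm hw t1 t2 ht1 ht12 ht2
  have hw1 : (1 : ℝ) ≤ w := by exact_mod_cast hw
  have h38 : (w : ℝ) ≤ (w : ℝ) ^ 38 := le_self_pow₀ hw1 (by norm_num)
  have h36 : (0 : ℝ) ≤ (w : ℝ) ^ 36 := by positivity
  have hnil' : tau ((w : ℝ) ^ 36) j [] ≤ t1 := by
    refine (hnil _ h36).trans (le_trans ?_ ht1)
    have a : (w : ℝ) ≤ (w : ℝ) ^ 4 := le_self_pow₀ hw1 (by norm_num)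
    have b : 4 * C0 * (w : ℝ) ^ 36 ≤ (w : ℝ) ^ 4 * (w : ℝ) ^ 36 :=
      mul_le_mul_of_nonneg_right (by linarith) h36
    have c : (w : ℝ) ^ 4 * (w : ℝ) ^ 36 = (w : ℝ) ^ 40 := by ring
    linarith
  have hsub : MSet w j t1 ⊆ MSet w j t2 := by
    intro m hm
    obtain ⟨h1, L, r, h2, h3, h4⟩ := mem_MSet.1 hm
    exact mem_MSet.2 ⟨h1, L, r, h2, h3, h4.trans ht12⟩
  set S := MSet w j t2 \ MSet w j t1 with hS
  have e1 : MM w j t2 - MM w j t1 = ∑ m ∈ S, (1 / (m : ℝ)) := by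
    unfold MM
    rw [hS, Finset.sum_sdiff_eq_sub hsub]
  have e2 := Finset.sum_filter_add_sum_filter_not S (fun m => Exc w m) (fun m => (1 / (m : ℝ)))
  have e3 : ∑ m ∈ S.filter (fun m => Exc w m), (1 / (m : ℝ)) ≤ Real.exp (-(w : ℝ)) * SS w := by
    refine le_trans (Finset.sum_le_sum_of_subset_of_nonneg ?_ (fun _ _ _ => by positivity)) hexc
    intro m hm
    rw [Finset.mem_filter] at hm ⊢
    exact ⟨(mem_MSet.1 (Finset.mem_sdiff.1 hm.1).1).1, hm.2⟩
  set S' := S.filter (fun m => ¬ Exc w m) with hS'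
  have hS'1 : ∀ m ∈ S', m ∈ Tot w ∧ Om m ≤ w ^ 80 ∧ ¬ Viol w m ∧
      ∀ L r, Good w L r → val L r = m → t1 < tau ((w : ℝ) ^ 36) j (levs L) := by
    intro m hm
    rw [hS', Finset.mem_filter, hS, Finset.mem_sdiff] at hm
    obtain ⟨⟨a1, a2⟩, a3⟩ := hm
    have hT := (mem_MSet.1 a1).1
    refine ⟨hT, not_lt.1 fun h => a3 (Or.inr (Or.inr h)), fun h => a3 (Or.inr (Or.inl h)),
      fun L r b1 b2 => not_le.1 fun h => a2 (mem_MSet.2 ⟨hT, L, r, b1, b2, h⟩)⟩
  set M := MSet w (j + 1) (t2 + (6 + 2 * C1) * (w : ℝ) ^ 38) with hM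
  let R : ℕ → ℕ → Prop := fun m' p => (p - 1) * m' ∈ S' ∧
    ∃ L r, Good w (p :: L) r ∧ val L r = m' ∧ tau ((w : ℝ) ^ 36) j (levs (p :: L)) ≤ t2
  let P : ℕ → Finset ℕ := fun m' => (Finset.range (S'.sup id + 2)).filter (R m')
  have hcover : S' ⊆ (M.sigma P).image (fun d => (d.2 - 1) * d.1) := by
    intro m hm
    obtain ⟨hT, hO, hV, hgt⟩ := hS'1 m hm
    have hm2 : m ∈ MSet w j t2 :=
      (Finset.mem_sdiff.1 (Finset.mem_filter.1 hm).1).1
    obtain ⟨-, L0, r, g1, g2, g3⟩ := mem_MSet.1 hm2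
    cases L0 with
    | nil => exact absurd (hgt [] r g1 g2) (not_lt.2 hnil')
    | cons p L =>
      have hval : (p - 1) * val L r = m := by rw [← val_cons, g2]
      have hm0 : 0 < m := g2 ▸ val_pos g1
      refine Finset.mem_image.2 ⟨⟨val L r, p⟩, Finset.mem_sigma.2 ⟨?_, ?_⟩, hval⟩
      · have a1 : TT 1 (levs L) ≤ (lev m : ℝ) + (w : ℝ) ^ 38 :=
          not_lt.1 fun h => hV ⟨p, L, r, g1, g2, h⟩
        have a2 := (hlev m (lev p) (Nat.cast_nonneg _) hm0 hO
          (by simpa [levs_cons, g2] using good_primes g1)).2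
        have a3 : (lev m : ℝ) ≤ lev (m + 1) := by exact_mod_cast lev_mono (Nat.le_succ _)
        have a4 : (levs L).headD ((w : ℝ) ^ 36) ≤ lev p := by
          cases L with
          | nil => simpa [levs] using good_t0_le_head g1
          | cons q L =>
            simpa [levs_cons] using
              good_lev_le_head g1 q (List.mem_cons_of_mem _ (List.mem_cons_self ..))
        have a5 : Tt ((w : ℝ) ^ 36) (levs L) ≤ lev p + 2 * (w : ℝ) ^ 38 :=
          max_le (by linarith) (by linarith)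
        have a6 := tau_head_ge ((w : ℝ) ^ 36) j (Tt ((w : ℝ) ^ 36) (levs L))
          (lev p + 2 * (w : ℝ) ^ 38 - Tt ((w : ℝ) ^ 36) (levs L)) (by linarith) (levs L)
        rw [add_sub_cancel] at a6
        have a7 := hhead ((w : ℝ) ^ 36) (lev p) (2 * (w : ℝ) ^ 38) (levs L) (by linarith)
        rw [levs_cons] at g3
        refine mem_MSet.2 ⟨mem_Tot.2 ⟨good_isTot (good_tail g1), ?_⟩, L, r, good_tail g1, rfl, ?_⟩
        · refine le_trans (lev_mono ?_) (mem_Tot.1 hT).2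
          exact Nat.le_of_dvd hm0 (hval ▸ Dvd.intro_left _ rfl)
        · change tau _ j (Tt _ _ :: levs L) ≤ _
          linarith
      · simp only [P, Finset.mem_filter, Finset.mem_range]
        refine ⟨?_, hval ▸ hm, L, r, g1, rfl, g3⟩
        have a1 : m ≤ S'.sup id := Finset.le_sup (f := id) hm
        have a2 := le_succ_val g1 (List.mem_cons_self ..)
        rw [g2] at a2
        omega
  have hPsum : ∀ m', ∑ p ∈ P m', (1 / ((p - 1 : ℕ) : ℝ)) ≤
      (6 + 2 * C1) * (t2 - t1 + (w : ℝ) ^ 38) := by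
    intro m'
    have hPR : ∀ p ∈ P m', R m' p := fun p hp => (Finset.mem_filter.1 hp).2
    have hPp : ∀ p ∈ P m', p.Prime ∧ 0 < lev p := fun p hp => by
      obtain ⟨-, L, r, g1, -⟩ := hPR p hp
      have := g1.2.1 p (List.mem_cons_self ..)
      exact ⟨this.1, by omega⟩
    refine (sum_inv_pred_le _ fun p hp => (hPp p hp).1.two_le).trans ?_
    rw [← Finset.sum_filter_add_sum_filter_not (P m') (fun p => p ≤ m' + 1)]
    have b1 := window_sum hCm0 hCm ((P m').filter (fun p => p ≤ m' + 1)) (u := w) (by linarith)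
      (fun p hp => hPp p (Finset.mem_filter.1 hp).1) (fun p hp p' hp' => by
        obtain ⟨c1, L, r, g1, g2, -⟩ := hPR p' (Finset.mem_filter.1 hp').1
        have hval : val (p' :: L) r = (p' - 1) * m' := by rw [val_cons, g2]
        have hpos : 0 < (p' - 1) * m' := hval ▸ val_pos g1
        have hdv : m' ∣ (p' - 1) * m' := Dvd.intro_left _ rfl
        have a1 := (hlev m' (lev p') (Nat.cast_nonneg _) (Nat.pos_of_mul_pos_left hpos)
          ((Om_le_of_dvd hdv hpos.ne').trans (hS'1 _ c1).2.1)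
          (fun q hq hd => by
            simpa [levs_cons] using good_primes g1 q hq (hval ▸ hd.trans hdv))).2
        have a2 : (lev p : ℝ) ≤ lev (m' + 1) := by
          exact_mod_cast lev_mono (Finset.mem_filter.1 hp).2
        linarith)
    have b2 := window_sum hCm0 hCm ((P m').filter (fun p => ¬ p ≤ m' + 1)) (u := 3 * (t2 - t1))
      (by linarith) (fun p hp => hPp p (Finset.mem_filter.1 hp).1) (fun p hp p' hp' => by
        obtain ⟨-, L, r, g1, g2, g3⟩ := hPR p (Finset.mem_filter.1 hp).1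
        obtain ⟨c1, L', r', g1', -, -⟩ := hPR p' (Finset.mem_filter.1 hp').1
        have hp'1 := g1'.2.1 p' (List.mem_cons_self ..)
        have hgt := not_le.1 (Finset.mem_filter.1 hp').2
        have g4 : Good w (p' :: L) r := good_cons (good_tail g1) hp'1.1 hp'1.2.1 hp'1.2.2
          (fun q hq => by have := le_succ_val (good_tail g1) hq; omega)
        have a1 := (hS'1 _ c1).2.2.2 (p' :: L) r g4 (by rw [val_cons, g2])
        rw [levs_cons] at a1 g3
        by_cases hle : (lev p : ℝ) ≤ lev p'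
        · linarith
        · have a2 := tau_head_ge ((w : ℝ) ^ 36) j (lev p') (lev p - lev p') (by linarith) (levs L)
          rw [add_sub_cancel] at a2
          linarith)
    have b3 : 0 ≤ C1 * (t2 - t1 + (w : ℝ) ^ 38) := mul_nonneg (by linarith) (by linarith)
    linarith
  have e4 : ∑ m ∈ S', (1 / (m : ℝ)) ≤ (6 + 2 * C1) * (t2 - t1 + (w : ℝ) ^ 38) *
      MM w (j + 1) (t2 + (6 + 2 * C1) * (w : ℝ) ^ 38) := by
    refine (Finset.sum_le_sum_of_subset_of_nonneg hcover (fun _ _ _ => by positivity)).trans ?_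
    refine (Finset.sum_image_le_of_nonneg (fun _ _ => by positivity)).trans ?_
    unfold MM
    rw [Finset.sum_sigma, Finset.mul_sum]
    apply Finset.sum_le_sum
    intro m' _
    refine le_trans (le_of_eq ?_) (mul_le_mul_of_nonneg_right (hPsum m') (by positivity))
    rw [Finset.sum_mul]
    apply Finset.sum_congr rfl
    intro p _
    rw [Nat.cast_mul, one_div_mul_one_div]
  linarith

end Vale.Agent.P031
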