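import Vale.Agent.P031.RecAbs
import Vale.Agent.P031.Up
import Vale.Agent.P031.Low
import Vale.Agent.P031.Dbl
import Vale.Agent.P031.TopUpper
import Vale.Agent.P031.TopLower

open Finset Real Filter Topology

namespace Vale.Agent.P031

theorem layer_small (eps : ℝ) (heps : 0 < eps) : ∀ᶠ w : ℕ in atTop, ∀ s : ℝ,
    (w : ℝ) ^ 40 / 2 ≤ s → s ≤ (w : ℝ) ^ 40 →
    MM w 0 (s + 3 * (w : ℝ) ^ 38) - MM w 0 (s - 3 * (w : ℝ) ^ 38)
      ≤ eps * MM w 0 (s - 3 * (w : ℝ) ^ 38) ∧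
    Real.exp (-(w : ℝ) / 2) * SS w ≤ eps * MM w 0 (s - 3 * (w : ℝ) ^ 38) ∧
    1 ≤ MM w 0 (s - 3 * (w : ℝ) ^ 38) := by
  obtain ⟨A, hA⟩ := doubling
  choose Cu hCu hu using up_step
  choose Cl hCl hl using low_step
  obtain ⟨C, hC1, hC⟩ : ∃ C : ℝ, 1 ≤ C ∧ ∀ j ≤ 40 * A + 1, Cu j ≤ C ∧ Cl j ≤ C := by
    refine ⟨1 + ∑ j ∈ Finset.range (40 * A + 2), (Cu j + Cl j), ?_, ?_⟩
    · have : 0 ≤ ∑ j ∈ Finset.range (40 * A + 2), (Cu j + Cl j) :=
        Finset.sum_nonneg (fun j _ => by linarith [hCu j, hCl j])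
      linarith
    · intro j hj
      have : Cu j + Cl j ≤ ∑ j ∈ Finset.range (40 * A + 2), (Cu j + Cl j) :=
        Finset.single_le_sum (f := fun j => Cu j + Cl j)
          (fun j _ => by linarith [hCu j, hCl j]) (Finset.mem_range.2 (by omega))
      constructor <;> linarith [hCu j, hCl j]
  have hu' := (Filter.eventually_all_finset (Finset.range (40 * A + 2))).2 (fun j _ => hu j)
  have hl' := (Filter.eventually_all_finset (Finset.range (40 * A + 2))).2 (fun j _ => hl j)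
  filter_upwards [hA, hu', hl', rec_abs A C hC1 eps heps, ev_ge 12,
    ev_poly_le_exp_half (1 / eps) (40 * A)] with w hA hu hl hrec hw hexp
  intro s hs1 hs2
  have hw0 : (0 : ℝ) < w := by linarith
  have h38 : (0 : ℝ) < (w : ℝ) ^ 38 := by positivity
  have h40 : 12 * (w : ℝ) ^ 38 ≤ (w : ℝ) ^ 40 := by
    rw [show (w : ℝ) ^ 40 = w * w * (w : ℝ) ^ 38 by ring]
    apply mul_le_mul_of_nonneg_right _ h38.le
    nlinarith
  have h36 : (w : ℝ) ^ 36 ≤ (w : ℝ) ^ 38 := pow_le_pow_right₀ (by linarith) (by norm_num)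
  have hM : MM w 0 ((w : ℝ) ^ 40 / 4) ≤ MM w 0 (s - 3 * (w : ℝ) ^ 38) :=
    MM_mono w 0 (by linarith)
  refine ⟨hrec (MM w) (SS w) s hs1 hs2 (MM_mono w) (MM_nonneg w) (MM_le_SS w) hA ?_ ?_, ?_,
    one_le_MM (by linarith)⟩
  · intro j hj t1 t2 h1 h2 h3
    refine (hu j (Finset.mem_range.2 (by omega)) t1 t2 h1 h2 h3).trans ?_
    have h4 := (hC j hj).1
    have h5 := hCu j
    have h6 : Cu j * (w : ℝ) ^ 38 ≤ C * (w : ℝ) ^ 38 := mul_le_mul_of_nonneg_right h4 h38.le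
    have h7 : MM w (j + 1) (t2 + Cu j * (w : ℝ) ^ 38) ≤ MM w (j + 1) (t2 + C * (w : ℝ) ^ 38) :=
      MM_mono w _ (by linarith)
    have h8 : 0 ≤ t2 - t1 + (w : ℝ) ^ 38 := by linarith
    have h9 := mul_le_mul (mul_le_mul_of_nonneg_right h4 h8) h7 (MM_nonneg _ _ _)
      (mul_nonneg (by linarith) h8)
    linarith
  · intro j hj t h h1 h2 h3
    refine (hl j (Finset.mem_range.2 (by omega)) t h h1 h2 h3).trans ?_
    have h4 := (hC j hj).2
    have h6 : Cl j * h ≤ C * h := mul_le_mul_of_nonneg_right h4 (by linarith)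
    have : MM w j (t + Cl j * h) ≤ MM w j (t + C * h) := MM_mono w _ (by linarith)
    linarith
  · have h1 : Real.exp (-(w : ℝ) / 2) * ((w : ℝ) ^ 40) ^ A ≤ eps := by
      rw [neg_div, Real.exp_neg, inv_mul_le_iff₀ (Real.exp_pos _), ← pow_mul]
      rw [div_mul_eq_mul_div, div_le_iff₀ heps] at hexp
      linarith
    have h2 := MM_nonneg w 0 ((w : ℝ) ^ 40 / 4)
    calc _ ≤ Real.exp (-(w : ℝ) / 2) * (((w : ℝ) ^ 40) ^ A * MM w 0 ((w : ℝ) ^ 40 / 4)) :=
          mul_le_mul_of_nonneg_left hA (Real.exp_pos _).le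
      _ = (Real.exp (-(w : ℝ) / 2) * ((w : ℝ) ^ 40) ^ A) * MM w 0 ((w : ℝ) ^ 40 / 4) := by ring
      _ ≤ _ := mul_le_mul h1 hM h2 heps.le

theorem top_both (d : ℝ) (hd : 0 < d) : ∀ᶠ w : ℕ in atTop, ∀ s : ℝ,
    (w : ℝ) ^ 40 / 2 ≤ s → s ≤ (w : ℝ) ^ 40 → ∃ mu : ℝ, 1 ≤ mu ∧ ∀ x : ℝ, 1 < x →
    s ≤ Real.log (Real.log x) → Real.log (Real.log x) ≤ s + 1 →
    x / Real.log x * ((1 - d) * mu) ≤ VV x ∧ (VV x : ℝ) ≤ x / Real.log x * ((1 + d) * mu) := by
  filter_upwards [layer_small (d / 60) (by positivity), top_upper (d / 10) (by positivity),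
    top_lower (d / 2) (by positivity)] with w hl hu hlo
  intro s hs1 hs2
  obtain ⟨h1, h2, h3⟩ := hl s hs1 hs2
  refine ⟨_, h3, fun x hx hx1 hx2 => ?_⟩
  have hxl : 0 ≤ x / Real.log x := div_nonneg (by linarith) (Real.log_nonneg hx.le)
  constructor
  · refine le_trans (mul_le_mul_of_nonneg_left ?_ hxl) (hlo s x hs1 hs2 hx hx1 hx2)
    nlinarith
  · refine (hu s x hs1 hs2 hx hx1 hx2).trans (mul_le_mul_of_nonneg_left ?_ hxl)
    nlinarith

theorem exists_w {p : ℕ → Prop} (h : ∀ᶠ w : ℕ in atTop, p w) :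
    ∀ᶠ s : ℝ in atTop, ∃ w : ℕ, p w ∧ (w : ℝ) ^ 40 / 2 ≤ s ∧ s ≤ (w : ℝ) ^ 40 := by
  obtain ⟨w0, hw0⟩ := Filter.eventually_atTop.1 h
  filter_upwards [eventually_gt_atTop (((w0 + 80 : ℕ) : ℝ) ^ 40)] with s hs
  have hex : ∃ w : ℕ, s ≤ (w : ℝ) ^ 40 := by
    refine ⟨⌈s⌉₊ + 1, ?_⟩
    have h1 : s ≤ ((⌈s⌉₊ + 1 : ℕ) : ℝ) := by push_cast; linarith [Nat.le_ceil s]
    exact h1.trans (le_self_pow₀ (by push_cast; linarith [Nat.cast_nonneg (α := ℝ) ⌈s⌉₊])
      (by norm_num))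
  classical
  have h1 := Nat.find_spec hex
  have h2 : w0 + 80 < Nat.find hex := by
    by_contra hc
    have : ((Nat.find hex : ℕ) : ℝ) ^ 40 ≤ ((w0 + 80 : ℕ) : ℝ) ^ 40 :=
      pow_le_pow_left₀ (Nat.cast_nonneg _) (by exact_mod_cast not_lt.1 hc) 40
    linarith
  obtain ⟨n, hn⟩ : ∃ n, Nat.find hex = n + 1 := ⟨Nat.find hex - 1, by omega⟩
  have h3 : ¬ s ≤ (n : ℝ) ^ 40 := Nat.find_min hex (by omega)
  refine ⟨Nat.find hex, hw0 _ (by omega), ?_, h1⟩
  rw [hn]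
  have h4 : (80 : ℝ) ≤ n := by exact_mod_cast (by omega : 80 ≤ n)
  have h5 : ((n + 1 : ℕ) : ℝ) ≤ 81 / 80 * n := by push_cast; linarith
  have h6 := pow_le_pow_left₀ (Nat.cast_nonneg _) h5 40
  rw [mul_pow] at h6
  have h7 : ((81 : ℝ) / 80) ^ 40 ≤ 2 := by norm_num
  have h8 := mul_le_mul_of_nonneg_right h7 (show (0 : ℝ) ≤ (n : ℝ) ^ 40 by positivity)
  linarith

theorem ratio_tendsto (c : ℝ) (hc : 1 < c) :
    Tendsto (fun x : ℝ => ((VV (c * x) : ℝ) / (c * x / Real.log (c * x))) /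
      ((VV x : ℝ) / (x / Real.log x))) atTop (𝓝 1) := by
  have hll : Tendsto (fun x : ℝ => Real.log (Real.log x)) atTop atTop :=
    Real.tendsto_log_atTop.comp Real.tendsto_log_atTop
  rw [Metric.tendsto_nhds]
  intro e he
  obtain ⟨d, hd, hd1, hde⟩ : ∃ d : ℝ, 0 < d ∧ d ≤ 1 / 2 ∧ 4 * d < e :=
    ⟨min (1 / 2) (e / 8), by positivity, min_le_left _ _, by linarith [min_le_right (1 / 2) (e / 8)]⟩
  filter_upwards [hll.eventually (exists_w (top_both d hd)), eventually_ge_atTop c] with x hx hxc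
  obtain ⟨w, hw, h1, h2⟩ := hx
  obtain ⟨mu, hmu, H⟩ := hw _ h1 h2
  have hx1 : 1 < x := by linarith
  have hcx : x ≤ c * x := by nlinarith
  have hl : 0 < Real.log x := Real.log_pos hx1
  have hl1 : Real.log x ≤ Real.log (c * x) := Real.log_le_log (by linarith) hcx
  have hl2 : Real.log (c * x) ≤ 2 * Real.log x := by
    rw [Real.log_mul (by linarith) (by linarith)]
    have := Real.log_le_log (by linarith) hxc
    linarith
  have hl3 : Real.log (Real.log (c * x)) ≤ Real.log (Real.log x) + 1 := by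
    have := Real.log_le_log (by linarith) hl2
    rw [Real.log_mul (by norm_num) hl.ne'] at this
    have := Real.log_two_lt_d9
    linarith
  obtain ⟨a1, a2⟩ := H x hx1 le_rfl (by linarith)
  obtain ⟨b1, b2⟩ := H (c * x) (by linarith) (Real.log_le_log hl hl1) hl3
  have hp : 0 < x / Real.log x := div_pos (by linarith) hl
  have hq : 0 < c * x / Real.log (c * x) := div_pos (by linarith) (by linarith)
  rw [mul_comm, ← le_div_iff₀ hp] at a1
  rw [mul_comm, ← div_le_iff₀ hp] at a2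
  rw [mul_comm, ← le_div_iff₀ hq] at b1
  rw [← div_le_iff₀' hq] at b2
  generalize (VV x : ℝ) / (x / Real.log x) = u at a1 a2
  generalize (VV (c * x) : ℝ) / (c * x / Real.log (c * x)) = v at b1 b2
  have hu : 0 < u := by nlinarith
  rw [Real.dist_eq, abs_lt]
  have hm : mu ≤ 2 * u := by nlinarith
  constructor
  · have : 1 - e < v / u := by
      rw [lt_div_iff₀ hu]; nlinarith
    linarith
  · have : v / u < 1 + e := by
      rw [div_lt_iff₀ hu]; nlinarith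
    linarith

theorem main (c : ℝ) (hc : 1 < c) :
    Tendsto (fun x : ℝ => (VV (c * x) : ℝ) / VV x) atTop (𝓝 c) := by
  have h1 : Tendsto (fun x : ℝ => Real.log c / Real.log x) atTop (𝓝 0) :=
    tendsto_const_nhds.div_atTop Real.tendsto_log_atTop
  have h2 : Tendsto (fun x : ℝ => c / (1 + Real.log c / Real.log x)) atTop (𝓝 (c / (1 + 0))) :=
    tendsto_const_nhds.div (tendsto_const_nhds.add h1) (by norm_num)
  have h3 := (ratio_tendsto c hc).mul h2
  simp only [add_zero, div_one, one_mul] at h3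
  refine h3.congr' ?_
  filter_upwards [eventually_gt_atTop 1] with x hx
  have hl : 0 < Real.log x := Real.log_pos hx
  have hlc : 0 < Real.log c := Real.log_pos hc
  rw [Real.log_mul (by linarith) (by linarith)]
  have hx0 : x ≠ 0 := by linarith
  have hc0 : c ≠ 0 := by linarith
  have h4 : Real.log c + Real.log x ≠ 0 := by linarith
  have h5 : Real.log x + Real.log c ≠ 0 := by linarith
  field_simp
  ring

end Vale.Agent.P031
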