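import Vale.Agent.P031.Basic
import Vale.Agent.Lib.NT.Mertens

/-!
# Task Mertens: Mertens' second theorem with O(1) error, level form and consequences

Route: sum over d <= n of Lambda(d) floor(n/d) = log n!, Chebyshev, so
sum log p / p = log x + O(1); then Abel summation (`sum_mul_eq_sub_sub_integral_mul` or a
discrete version).
-/

open Finset Real Filter

namespace Vale.Agent.P031

theorem mertens_real : ∃ C : ℝ, ∀ x : ℝ, 2 ≤ x →
    |∑ p ∈ (Finset.Icc 1 ⌊x⌋₊).filter Nat.Prime, (1 / (p : ℝ)) - Real.log (Real.log x)| ≤ C := by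
  obtain ⟨C, _, hC⟩ := Vale.Agent.Lib.NT.mertens2
  exact ⟨C, hC⟩

theorem mertens_lev : ∃ C : ℝ, 0 ≤ C ∧ ∀ t : ℕ,
    |∑ p ∈ (upTo t).filter Nat.Prime, (1 / (p : ℝ)) - t| ≤ C := by
  obtain ⟨C, hC0, hC⟩ := Vale.Agent.Lib.NT.mertens2
  refine ⟨C, hC0, fun t => ?_⟩
  have h1 : (1 : ℝ) ≤ Real.exp t := Real.one_le_exp (Nat.cast_nonneg _)
  have h2 : (2 : ℝ) ≤ Real.exp (Real.exp t) := by
    have := Real.add_one_le_exp (Real.exp t)
    linarith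
  have h := hC _ h2
  rwa [Real.log_exp, Real.log_exp] at h

theorem sum_upTo_split {t1 t2 : ℕ} (h : t1 ≤ t2) :
    ∑ p ∈ (upTo t2).filter Nat.Prime, (1 / (p : ℝ)) =
      ∑ p ∈ (upTo t1).filter Nat.Prime, (1 / (p : ℝ)) +
        ∑ p ∈ (upTo t2).filter (fun p => p.Prime ∧ t1 < lev p), (1 / (p : ℝ)) := by
  rw [← Finset.sum_union]
  · apply Finset.sum_congr _ (fun _ _ => rfl)
    ext p
    simp only [Finset.mem_union, Finset.mem_filter, mem_upTo]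
    constructor
    · rintro ⟨⟨h1, h2⟩, h3⟩
      rcases le_or_gt (lev p) t1 with h4 | h4
      · exact Or.inl ⟨⟨h1, h4⟩, h3⟩
      · exact Or.inr ⟨⟨h1, h2⟩, h3, h4⟩
    · rintro (⟨⟨h1, h2⟩, h3⟩ | ⟨⟨h1, h2⟩, h3, _⟩)
      · exact ⟨⟨h1, h2.trans h⟩, h3⟩
      · exact ⟨⟨h1, h2⟩, h3⟩
  · rw [Finset.disjoint_left]
    intro p hp hp'
    simp only [Finset.mem_filter, mem_upTo] at hp hp'
    omega

/-- Primes with level in a window `(t1, t2]`: upper bound for any subfamily. -/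
theorem mertens_window_le : ∃ C : ℝ, 0 ≤ C ∧ ∀ (t1 t2 : ℕ) (P : Finset ℕ), t1 ≤ t2 →
    (∀ p ∈ P, p.Prime ∧ t1 < lev p ∧ lev p ≤ t2) →
    ∑ p ∈ P, (1 / (p : ℝ)) ≤ (t2 : ℝ) - t1 + C := by
  obtain ⟨C, hC0, hC⟩ := mertens_lev
  refine ⟨2 * C, by positivity, fun t1 t2 P h hP => ?_⟩
  have h1 := abs_le.1 (hC t1)
  have h2 := abs_le.1 (hC t2)
  have h3 := sum_upTo_split h
  have h4 : ∑ p ∈ P, (1 / (p : ℝ)) ≤
      ∑ p ∈ (upTo t2).filter (fun p => p.Prime ∧ t1 < lev p), (1 / (p : ℝ)) := by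
    apply Finset.sum_le_sum_of_subset_of_nonneg
    · intro p hp
      obtain ⟨a, b, c⟩ := hP p hp
      exact Finset.mem_filter.2 ⟨mem_upTo.2 ⟨a.pos, c⟩, a, b⟩
    · intro _ _ _; positivity
  linarith [h1.1, h2.2]

/-- Primes with level at most `t`: upper bound for any subfamily. -/
theorem mertens_le : ∃ C : ℝ, 0 ≤ C ∧ ∀ (t : ℕ) (P : Finset ℕ),
    (∀ p ∈ P, p.Prime ∧ lev p ≤ t) → ∑ p ∈ P, (1 / (p : ℝ)) ≤ (t : ℝ) + C := by
  obtain ⟨C, hC0, hC⟩ := mertens_lev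
  refine ⟨C, hC0, fun t P hP => ?_⟩
  have h1 := abs_le.1 (hC t)
  have h4 : ∑ p ∈ P, (1 / (p : ℝ)) ≤ ∑ p ∈ (upTo t).filter Nat.Prime, (1 / (p : ℝ)) := by
    apply Finset.sum_le_sum_of_subset_of_nonneg
    · intro p hp
      obtain ⟨a, c⟩ := hP p hp
      exact Finset.mem_filter.2 ⟨mem_upTo.2 ⟨a.pos, c⟩, a⟩
    · intro _ _ _; positivity
  linarith [h1.2]

/-- Primes with level in a window `(t1, t2]`: lower bound. -/
theorem mertens_window_ge : ∃ C : ℝ, 0 ≤ C ∧ ∀ (t1 t2 : ℕ), t1 ≤ t2 →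
    (t2 : ℝ) - t1 - C ≤
      ∑ p ∈ (upTo t2).filter (fun p => p.Prime ∧ t1 < lev p), (1 / (p : ℝ)) := by
  obtain ⟨C, hC0, hC⟩ := mertens_lev
  refine ⟨2 * C, by positivity, fun t1 t2 h => ?_⟩
  have h1 := abs_le.1 (hC t1)
  have h2 := abs_le.1 (hC t2)
  have h3 := sum_upTo_split h
  linarith [h1.2, h2.1]

theorem sum_inv_sq_primes_le (t : ℕ) :
    ∑ q ∈ (upTo t).filter Nat.Prime, (1 / (q : ℝ)) ^ 2 ≤ 1 := by
  have := sum_inv_sq_le 1 le_rfl ((upTo t).filter Nat.Prime)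
    (fun q hq => (Finset.mem_filter.1 hq).2.one_lt)
  simpa using this

/-- Reciprocal sum over integers all of whose prime factors have level at most `t`
(`euler_bound` with `z = 1`). -/
theorem smooth_sum_le : ∃ C : ℝ, 0 ≤ C ∧ ∀ (t : ℕ) (A : Finset ℕ),
    (∀ a ∈ A, 0 < a ∧ ∀ q : ℕ, q.Prime → q ∣ a → lev q ≤ t) →
    ∑ a ∈ A, (1 / (a : ℝ)) ≤ Real.exp (t + C) := by
  obtain ⟨C, hC0, hC⟩ := mertens_lev
  refine ⟨C + 2, by positivity, fun t A hA => ?_⟩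
  have h1 := abs_le.1 (hC t)
  have h2 := euler_bound (fun _ => 1) ((upTo t).filter Nat.Prime) A
    (fun q hq => (Finset.mem_filter.1 hq).2)
    (fun q hq => by
      have : (2 : ℝ) ≤ q := by exact_mod_cast (Finset.mem_filter.1 hq).2.two_le
      exact ⟨zero_le_one, by linarith⟩)
    (fun a ha => ⟨(hA a ha).1, fun q hq hqa =>
      Finset.mem_filter.2 ⟨mem_upTo.2 ⟨hq.pos, (hA a ha).2 q hq hqa⟩, hq⟩⟩)
  simp only [wt_const, one_pow] at h2
  refine h2.trans (Real.exp_le_exp.2 ?_)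
  have h3 := sum_inv_sq_primes_le t
  linarith [h1.2]

/-- Rankin bound for many prime factors (`euler_bound` with `z = 3/2`, `log (3/2) >= 2/5`). -/
theorem many_factors_sum_le : ∃ C : ℝ, 0 ≤ C ∧ ∀ (t B : ℕ) (A : Finset ℕ),
    (∀ a ∈ A, 0 < a ∧ (∀ q : ℕ, q.Prime → q ∣ a → lev q ≤ t) ∧ B < Om a) →
    ∑ a ∈ A, (1 / (a : ℝ)) ≤ Real.exp (3 / 2 * t - 2 / 5 * B + C) := by
  obtain ⟨C, hC0, hC⟩ := mertens_lev
  refine ⟨3 / 2 * C + 9 / 2, by positivity, fun t B A hA => ?_⟩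
  have h1 := abs_le.1 (hC t)
  have h2 := euler_bound (fun _ => 3 / 2) ((upTo t).filter Nat.Prime) A
    (fun q hq => (Finset.mem_filter.1 hq).2)
    (fun q hq => by
      have : (2 : ℝ) ≤ q := by exact_mod_cast (Finset.mem_filter.1 hq).2.two_le
      exact ⟨by norm_num, by linarith⟩)
    (fun a ha => ⟨(hA a ha).1, fun q hq hqa =>
      Finset.mem_filter.2 ⟨mem_upTo.2 ⟨hq.pos, (hA a ha).2.1 q hq hqa⟩, hq⟩⟩)
  simp only [wt_const] at h2
  have h3 := sum_inv_sq_primes_le t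
  have h4 : ∑ q ∈ (upTo t).filter Nat.Prime, (3 / 2 : ℝ) / q =
      3 / 2 * ∑ q ∈ (upTo t).filter Nat.Prime, (1 / (q : ℝ)) := by
    rw [Finset.mul_sum]
    exact Finset.sum_congr rfl fun q _ => by ring
  have h5 : ∑ q ∈ (upTo t).filter Nat.Prime, ((3 / 2 : ℝ) / q) ^ 2 =
      9 / 4 * ∑ q ∈ (upTo t).filter Nat.Prime, (1 / (q : ℝ)) ^ 2 := by
    rw [Finset.mul_sum]
    exact Finset.sum_congr rfl fun q _ => by ring
  rw [h4, h5] at h2
  have h6 : Real.exp (2 / 5) ≤ 3 / 2 := by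
    have h7 := Real.exp_bound' (x := 2 / 5) (by norm_num) (by norm_num) (n := 4) (by norm_num)
    refine h7.trans ?_
    simp only [Finset.sum_range_succ, Finset.sum_range_zero, Nat.factorial]
    norm_num
  have h7 : Real.exp (2 / 5 * B) * ∑ a ∈ A, (1 / (a : ℝ)) ≤
      ∑ a ∈ A, (3 / 2 : ℝ) ^ Om a / a := by
    rw [Finset.mul_sum]
    apply Finset.sum_le_sum
    intro a ha
    have h8 : Real.exp (2 / 5 * B) ≤ (3 / 2 : ℝ) ^ Om a := by
      rw [mul_comm, Real.exp_nat_mul]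
      exact (pow_le_pow_left₀ (Real.exp_pos _).le h6 B).trans
        (pow_le_pow_right₀ (by norm_num) (hA a ha).2.2.le)
    rw [mul_one_div]
    exact div_le_div_of_nonneg_right h8 (Nat.cast_nonneg _)
  have h8 : Real.exp (3 / 2 * t - 2 / 5 * B + (3 / 2 * C + 9 / 2)) =
      Real.exp (3 / 2 * t + (3 / 2 * C + 9 / 2)) / Real.exp (2 / 5 * B) := by
    rw [← Real.exp_sub]; congr 1; ring
  rw [h8, le_div_iff₀ (Real.exp_pos _), mul_comm]
  refine h7.trans (h2.trans (Real.exp_le_exp.2 ?_))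
  linarith [h1.2]

end Vale.Agent.P031
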