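import Vale.Agent.Lib.NT.PNT

/-!
# Task PNT: the prime number theorem

Suggested route: Mathlib has `ArithmeticFunction.vonMangoldt.LFunctionResidueClassAux`
(file NumberTheory/LSeries/PrimesInAP, take modulus 1) giving that
L(Lambda, s) - 1/(s-1) extends continuously to re s >= 1, `Chebyshev.psi_le_const_mul_self`,
and `Chebyshev.primeCounting_sub_theta_div_log_isBigO`, `Chebyshev.abs_psi_sub_theta_le_sqrt_mul_log`.
Prove psi(x)/x -> 1 by Wiener-Ikehara (Fejer kernel + Riemann-Lebesgue + monotonicity)
or by Newman's contour argument on rectangles. Split in as many files as you like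
(PNT1.lean, PNT2.lean, ...), keeping this statement in this file.
-/

open Filter Topology

namespace Vale.Agent.P031

theorem pnt : Tendsto (fun x : ℝ => (Nat.primeCounting ⌊x⌋₊ : ℝ) / (x / Real.log x))
    atTop (𝓝 1) := by
  exact Vale.Agent.Lib.NT.pnt

end Vale.Agent.P031
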