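import Vale.Agent.P031.Asym

/-!
# Task RecAbs: abstract anti-concentration recursion

Let `N = w^40`, `a = w^39`, `Delta = w^38`, `k = 40 A + 1`, `mu = M 0 (s - 3 Delta)`, so
`exp (-w) S <= delta mu` with `delta = exp (-w) N^A`. With `h = a / (2 k C)` the low step gives
`M j (s - a) <= (4/h)^j mu` for `j <= k`; with `h' = N / (k C)` it gives
`M k (2 N) <= (4/h')^k S <= (4/h)^k mu`. Put `D j = M j (s + (3 + j C) Delta) - M j (s - a)`;
the up step gives by downward induction `D j <= g^(k-j) (4/h)^j mu` for a constant `g`, and then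
`M 0 (s + 3 Delta) - M 0 (s - 3 Delta) <= 7 C Delta (1 + g^(k-1)) (4/h) mu + delta mu`.
-/

open Filter

namespace Vale.Agent.P031

/-- iterated low step -/
theorem low_iter (k : ℕ) (C h t0 mu del : ℝ) (M : ℕ → ℝ → ℝ) (hh : 4 ≤ h) (hmu : 0 ≤ mu)
    (h0 : M 0 t0 ≤ mu) (hdel : del ≤ (4 / h) ^ k * mu)
    (hlow : ∀ j < k, h / 2 * M (j + 1) (t0 - (j + 1) * (C * h)) ≤
      M j (t0 - (j + 1) * (C * h) + C * h) + del) :
    ∀ j ≤ k, M j (t0 - j * (C * h)) ≤ (4 / h) ^ j * mu := by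
  have hq0 : 0 ≤ 4 / h := by positivity
  have hq1 : 4 / h ≤ 1 := by rw [div_le_one (by linarith)]; exact hh
  intro j
  induction j with
  | zero => intro _; simpa using h0
  | succ j ih =>
    intro hj
    have h1 := ih (by omega)
    have h2 := hlow j (by omega)
    have h3 : t0 - (j + 1) * (C * h) + C * h = t0 - j * (C * h) := by ring
    rw [h3] at h2
    have h4 : (4 / h) ^ k * mu ≤ (4 / h) ^ j * mu :=
      mul_le_mul_of_nonneg_right (pow_le_pow_of_le_one hq0 hq1 (by omega)) hmu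
    have h5 : h / 2 * M (j + 1) (t0 - (j + 1) * (C * h)) ≤ 2 * ((4 / h) ^ j * mu) := by linarith
    have h6 : (4 / h) ^ (j + 1) * mu = 2 * ((4 / h) ^ j * mu) / (h / 2) := by
      have : h ≠ 0 := by linarith
      rw [pow_succ]; field_simp; ring
    push_cast
    rw [h6, le_div_iff₀ (by linarith)]
    linarith

set_option maxHeartbeats 800000 in
theorem rec_core (k : ℕ) (hk : 1 ≤ k) (C D a N s eta S P : ℝ) (M : ℕ → ℝ → ℝ) (hC : 1 ≤ C)
    (hD : 0 < D) (heta : 0 ≤ eta) (hP : 0 ≤ P) (hDa : 8 * k * C * D ≤ a) (hD1 : 1 ≤ D)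
    (haN : 4 * a ≤ N) (hs1 : N / 2 ≤ s) (hs2 : s ≤ N)
    (he1 : eta ≤ (4 / (N / (k * C))) ^ k) (he2 : eta * P ≤ (4 / (a / (2 * k * C))) ^ k)
    (he3 : (4 / (N / (k * C))) ^ k * P ≤ (4 / (a / (2 * k * C))) ^ k)
    (hmono : ∀ j, Monotone (M j)) (hpos : ∀ j t, 0 ≤ M j t) (htop : ∀ j t, M j t ≤ S)
    (hdbl : S ≤ P * M 0 (N / 4))
    (hup : ∀ j ≤ k, ∀ t1 t2 : ℝ, N / 4 ≤ t1 → t1 ≤ t2 → t2 ≤ 2 * N →
      M j t2 - M j t1 ≤ C * (t2 - t1 + D) * M (j + 1) (t2 + C * D) + eta * S)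
    (hlow : ∀ j ≤ k, ∀ t h : ℝ, t ≤ 4 * N → D ≤ h → h ≤ N →
      h / 2 * M (j + 1) t ≤ M j (t + C * h) + eta * S) :
    M 0 (s + 3 * D) - M 0 (s - 3 * D) ≤
      (7 * C * D * (1 + (48 * k * C ^ 2 + 1) ^ k) * (8 * k * C / a) + eta * P) *
        M 0 (s - 3 * D) := by
  have hk1 : (1 : ℝ) ≤ k := by exact_mod_cast hk
  have hkC : 1 ≤ k * C := one_le_mul_of_one_le_of_one_le hk1 hC
  have hkCD : D ≤ k * C * D := le_mul_of_one_le_left hD.le hkC
  have hkCD' : k * C ≤ k * C * D := le_mul_of_one_le_right (by linarith) hD1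
  have ha : 0 < a := by linarith
  have hN : 0 < N := by linarith
  obtain ⟨mu, hmu⟩ : ∃ mu, mu = M 0 (s - 3 * D) := ⟨_, rfl⟩
  rw [← hmu]
  have hmu0 : 0 ≤ mu := hmu ▸ hpos _ _
  have hS0 : 0 ≤ S := (hpos 0 0).trans (htop 0 0)
  have hSmu : S ≤ P * mu :=
    hdbl.trans (mul_le_mul_of_nonneg_left (hmu ▸ hmono 0 (by linarith)) hP)
  obtain ⟨h, hh⟩ : ∃ h, h = a / (2 * k * C) := ⟨_, rfl⟩
  obtain ⟨h', hh'⟩ : ∃ h', h' = N / (k * C) := ⟨_, rfl⟩
  rw [← hh'] at he1 he3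
  rw [← hh] at he2 he3
  have hhe : k * (C * h) = a / 2 := by rw [hh]; field_simp
  have hhe' : k * (C * h') = N := by rw [hh']; field_simp
  have hh4 : 4 * D ≤ h := by rw [hh, le_div_iff₀ (by linarith)]; linarith
  have hh4' : 4 * D ≤ h' := by rw [hh', le_div_iff₀ (by linarith)]; linarith
  have hhN : h ≤ N := by
    rw [hh, div_le_iff₀ (by linarith)]; nlinarith
  have hhN' : h' ≤ N := by
    rw [hh', div_le_iff₀ (by linarith)]; nlinarith
  have hCh : 0 ≤ C * h := by apply mul_nonneg <;> linarith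
  have hCh' : 0 ≤ C * h' := by apply mul_nonneg <;> linarith
  obtain ⟨q, hq⟩ : ∃ q, q = 4 / h := ⟨_, rfl⟩
  rw [← hq] at he2 he3
  have hq0 : 0 ≤ q := by rw [hq]; apply div_nonneg <;> linarith
  have hq1 : q ≤ 1 := by rw [hq, div_le_one (by linarith)]; linarith
  have hqe : q = 8 * k * C / a := by rw [hq, hh]; field_simp; ring
  have hdel : eta * S ≤ eta * P * mu := by
    rw [mul_assoc]; exact mul_le_mul_of_nonneg_left hSmu heta
  have hdel2 : eta * S ≤ q ^ k * mu := hdel.trans (mul_le_mul_of_nonneg_right he2 hmu0)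
  have L1 := low_iter k C h (s - 3 * D) mu (eta * S) M (by linarith) hmu0 hmu.ge (hq ▸ hdel2) (by
    intro j hj
    apply hlow j hj.le _ h _ (by linarith) hhN
    have : 0 ≤ ((j : ℝ) + 1) * (C * h) := by positivity
    linarith)
  have L1' : ∀ j ≤ k, M j (s - a) ≤ q ^ j * mu := by
    intro j hj
    refine le_trans (hmono j ?_) (hq ▸ L1 j hj)
    have : (j : ℝ) * (C * h) ≤ k * (C * h) :=
      mul_le_mul_of_nonneg_right (by exact_mod_cast hj) hCh
    linarith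
  have L2 := low_iter k C h' (3 * N) S (eta * S) M (by linarith) hS0 (htop _ _)
    (mul_le_mul_of_nonneg_right he1 hS0) (by
    intro j hj
    apply hlow j hj.le _ h' _ (by linarith) hhN'
    have : 0 ≤ ((j : ℝ) + 1) * (C * h') := by positivity
    linarith) k le_rfl
  rw [hhe'] at L2
  have L2' : M k (2 * N) ≤ q ^ k * mu := by
    have e : 3 * N - N = 2 * N := by ring
    rw [e] at L2
    refine L2.trans ?_
    have h1 : 0 ≤ (4 / h') ^ k := by apply pow_nonneg; apply div_nonneg <;> linarith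
    calc (4 / h') ^ k * S ≤ (4 / h') ^ k * (P * mu) := mul_le_mul_of_nonneg_left hSmu h1
      _ = (4 / h') ^ k * P * mu := by ring
      _ ≤ _ := mul_le_mul_of_nonneg_right he3 hmu0
  obtain ⟨g, hg⟩ : ∃ g : ℝ, g = 48 * k * C ^ 2 + 1 := ⟨_, rfl⟩
  rw [← hg]
  have hkC2 : 0 ≤ k * C ^ 2 := by positivity
  have hg1 : 1 ≤ g := by rw [hg]; linarith
  have hb : ∀ j ≤ k, 0 ≤ j * (C * D) ∧ 3 * D + j * (C * D) ≤ a := by
    intro j hj
    have h1 : (j : ℝ) * (C * D) ≤ k * (C * D) :=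
      mul_le_mul_of_nonneg_right (by exact_mod_cast hj) (by positivity)
    exact ⟨by positivity, by linarith⟩
  have key : ∀ i j, i + j = k →
      M j (s + 3 * D + j * (C * D)) - M j (s - a) ≤ g ^ i * (q ^ j * mu) := by
    intro i
    induction i with
    | zero =>
      intro j hj
      obtain rfl : j = k := by omega
      have h1 : M j (s + 3 * D + j * (C * D)) ≤ M j (2 * N) :=
        hmono j (by linarith [(hb j le_rfl).2])
      have := hpos j (s - a)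
      rw [pow_zero, one_mul]
      linarith
    | succ i ih =>
      intro j hj
      have h1 := ih (j + 1) (by omega)
      have hbj := hb j (by omega)
      have h2 := hup j (by omega) (s - a) (s + 3 * D + j * (C * D)) (by linarith) (by linarith)
        (by linarith)
      have e : s + 3 * D + j * (C * D) + C * D = s + 3 * D + ((j + 1 : ℕ) : ℝ) * (C * D) := by
        push_cast; ring
      rw [e] at h2
      have h3 := L1' (j + 1) (by omega)
      have hgi : 1 ≤ g ^ i := one_le_pow₀ hg1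
      have hX : 0 ≤ q ^ j * mu := by positivity
      have h4 : M (j + 1) (s + 3 * D + ((j + 1 : ℕ) : ℝ) * (C * D)) ≤
          2 * g ^ i * (q ^ (j + 1) * mu) := by
        have : q ^ (j + 1) * mu ≤ g ^ i * (q ^ (j + 1) * mu) :=
          le_mul_of_one_le_left (by positivity) hgi
        linarith
      have h5 : C * (s + 3 * D + j * (C * D) - (s - a) + D) ≤ C * (3 * a) :=
        mul_le_mul_of_nonneg_left (by linarith) (by linarith)
      have h6 := mul_le_mul h5 h4 (hpos _ _) (by positivity)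
      have h7 : C * (3 * a) * (2 * g ^ i * (q ^ (j + 1) * mu)) =
          48 * k * C ^ 2 * (g ^ i * (q ^ j * mu)) := by
        rw [pow_succ q j]
        have : a * q = 8 * k * C := by rw [hqe]; field_simp
        calc _ = 6 * C * (a * q) * (g ^ i * (q ^ j * mu)) := by ring
          _ = _ := by rw [this]; ring
      have h8 : q ^ k * mu ≤ q ^ j * mu :=
        mul_le_mul_of_nonneg_right (pow_le_pow_of_le_one hq0 hq1 (by omega)) hmu0
      have h9 : q ^ j * mu ≤ g ^ i * (q ^ j * mu) := le_mul_of_one_le_left hX hgi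
      have h10 : g ^ (i + 1) * (q ^ j * mu) =
          48 * k * C ^ 2 * (g ^ i * (q ^ j * mu)) + g ^ i * (q ^ j * mu) := by
        rw [pow_succ g i]; rw [hg]; ring
      linarith
  have h1 := key (k - 1) 1 (by omega)
  have h2 := hup 0 (by omega) (s - 3 * D) (s + 3 * D) (by linarith) (by linarith) (by linarith)
  have h3 := L1' 1 hk
  simp only [Nat.cast_one, one_mul, pow_one, zero_add] at h1 h2 h3
  have h4 : g ^ (k - 1) * (q * mu) ≤ g ^ k * (q * mu) :=
    mul_le_mul_of_nonneg_right (pow_le_pow_right₀ hg1 (by omega)) (by positivity)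
  have h5 : M 1 (s + 3 * D + C * D) ≤ (1 + g ^ k) * (q * mu) := by linarith
  have h6 : C * (s + 3 * D - (s - 3 * D) + D) = 7 * C * D := by ring
  rw [h6, ← hmu] at h2
  have h7 := mul_le_mul_of_nonneg_left h5 (show 0 ≤ 7 * C * D by positivity)
  rw [← hqe]
  have h8 : (7 * C * D * (1 + g ^ k) * q + eta * P) * mu =
    7 * C * D * ((1 + g ^ k) * (q * mu)) + eta * P * mu := by ring
  rw [h8]
  linarith

theorem rec_abs (A : ℕ) (C : ℝ) (hC : 1 ≤ C) (eps : ℝ) (heps : 0 < eps) :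
    ∀ᶠ w : ℕ in atTop, ∀ (M : ℕ → ℝ → ℝ) (S s : ℝ),
    (w : ℝ) ^ 40 / 2 ≤ s → s ≤ (w : ℝ) ^ 40 →
    (∀ j, Monotone (M j)) → (∀ j t, 0 ≤ M j t) → (∀ j t, M j t ≤ S) →
    S ≤ ((w : ℝ) ^ 40) ^ A * M 0 ((w : ℝ) ^ 40 / 4) →
    (∀ j ≤ 40 * A + 1, ∀ t1 t2 : ℝ, (w : ℝ) ^ 40 / 4 ≤ t1 → t1 ≤ t2 → t2 ≤ 2 * (w : ℝ) ^ 40 →
      M j t2 - M j t1 ≤ C * (t2 - t1 + (w : ℝ) ^ 38) * M (j + 1) (t2 + C * (w : ℝ) ^ 38)
        + Real.exp (-(w : ℝ)) * S) →
    (∀ j ≤ 40 * A + 1, ∀ t h : ℝ, t ≤ 4 * (w : ℝ) ^ 40 → (w : ℝ) ^ 38 ≤ h → h ≤ (w : ℝ) ^ 40 →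
      h / 2 * M (j + 1) t ≤ M j (t + C * h) + Real.exp (-(w : ℝ)) * S) →
    M 0 (s + 3 * (w : ℝ) ^ 38) - M 0 (s - 3 * (w : ℝ) ^ 38)
      ≤ eps * M 0 (s - 3 * (w : ℝ) ^ 38) := by
  set k : ℕ := 40 * A + 1 with hk
  have hk1 : (1 : ℝ) ≤ k := by exact_mod_cast (by omega : 1 ≤ k)
  have hkC : 1 ≤ k * C := one_le_mul_of_one_le_of_one_le hk1 hC
  filter_upwards [ev_ge (8 * k * C), ev_ge 4,
    ev_ge (2 * (7 * C * (1 + (48 * k * C ^ 2 + 1) ^ k) * (8 * k * C)) / eps),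
    ev_poly_le_exp 1 (40 * k), ev_poly_le_exp 1 (40 * A + 39 * k),
    ev_poly_le_exp (2 / eps) (40 * A)] with w hw1 hw2 hw3 hw4 hw5 hw6
  intro M S s hs1 hs2 hmono hpos htop hdbl hup hlow
  have hw0 : (0 : ℝ) < w := by linarith
  have hw1' : (1 : ℝ) ≤ w := by linarith
  have hE : 0 < Real.exp w := Real.exp_pos _
  have hq : 1 / (w : ℝ) ^ 39 ≤ 4 / ((w : ℝ) ^ 39 / (2 * k * C)) := by
    rw [div_div_eq_mul_div]
    apply div_le_div_of_nonneg_right (by linarith) (by positivity)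
  have hq' : 1 / (w : ℝ) ^ 40 ≤ 4 / ((w : ℝ) ^ 40 / (k * C)) := by
    rw [div_div_eq_mul_div]
    apply div_le_div_of_nonneg_right (by linarith) (by positivity)
  have H := rec_core k (by omega) C ((w : ℝ) ^ 38) ((w : ℝ) ^ 39) ((w : ℝ) ^ 40) s
    (Real.exp (-(w : ℝ))) S (((w : ℝ) ^ 40) ^ A) M hC (by positivity) (Real.exp_pos _).le
    (by positivity) ?_ (one_le_pow₀ hw1') ?_ hs1 hs2 ?_ ?_ ?_ hmono hpos htop hdbl hup hlow
  · refine H.trans (mul_le_mul_of_nonneg_right ?_ (hpos _ _))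
    have h1 : Real.exp (-(w : ℝ)) * ((w : ℝ) ^ 40) ^ A ≤ eps / 2 := by
      rw [Real.exp_neg, inv_mul_le_iff₀ hE, ← pow_mul]
      rw [div_mul_eq_mul_div, div_le_iff₀ heps] at hw6
      linarith
    have h2 : 7 * C * (w : ℝ) ^ 38 * (1 + (48 * k * C ^ 2 + 1) ^ k) * (8 * k * C / (w : ℝ) ^ 39)
        = (7 * C * (1 + (48 * k * C ^ 2 + 1) ^ k) * (8 * k * C)) / w := by
      field_simp
    rw [div_le_iff₀ heps] at hw3
    have h3 : (7 * C * (1 + (48 * k * C ^ 2 + 1) ^ k) * (8 * k * C)) / w ≤ eps / 2 := by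
      rw [div_le_iff₀ hw0]; linarith
    linarith
  · rw [pow_succ' (w : ℝ) 38]
    exact mul_le_mul_of_nonneg_right hw1 (by positivity)
  · rw [pow_succ' (w : ℝ) 39]
    exact mul_le_mul_of_nonneg_right hw2 (by positivity)
  · refine le_trans ?_ (pow_le_pow_left₀ (by positivity) hq' k)
    rw [Real.exp_neg, div_pow, one_pow, ← pow_mul, one_div]
    apply inv_anti₀ (by positivity); linarith
  · refine le_trans ?_ (pow_le_pow_left₀ (by positivity) hq k)
    rw [Real.exp_neg, div_pow, one_pow, ← pow_mul, ← pow_mul, inv_mul_le_iff₀ hE, mul_one_div,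
      le_div_iff₀ (by positivity), ← pow_add]
    linarith
  · have e1 : 4 / ((w : ℝ) ^ 39 / (2 * k * C)) = 4 / ((w : ℝ) ^ 40 / (k * C)) * (2 * w) := by
      field_simp
    rw [e1, mul_pow]
    apply mul_le_mul_of_nonneg_left _ (by positivity)
    rw [← pow_mul]
    calc (w : ℝ) ^ (40 * A) ≤ (w : ℝ) ^ k := pow_le_pow_right₀ hw1' (by omega)
      _ ≤ (2 * w) ^ k := pow_le_pow_left₀ hw0.le (by linarith) k

end Vale.Agent.P031
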