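import Vale.Agent.P031.Mertens
import Vale.Agent.P031.Sieve1

/-!
# Task Sieve: weak upper bound sieve (pure Brun sieve, Bonferroni) for two or three linear forms

Proof of `sieve3`: sift `n <= Z` by the primes `q` in `(W, z]` not dividing `A A' (A - A')`, with
`W = exp (31 N)`, `z = Z^(1/(4000 N))`; each such `q` removes the three distinct classes
`n = 0`, `A n + 1 = 0`, `A' n + 1 = 0`. Truncate inclusion-exclusion at the even level
`J = 1000 N`: main term `Z (prod (1 - 3/q) + Lam^(J+1)/(J+1)!)` with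
`Lam = sum 3/q <= 91 N`, tail `<= exp (-J)`, remainder `<= (J+1) (3 z)^J <= (J+1) Z^(1/2)`.
The number of prime factors of `A A' |A - A'|` is at most `W`, so they cost at most 1 in
`sum 1/q`, and `sum 1/q >= log log Z - log (4000 N) - log (31 N) - 2 C - 1` by `mertens_real`.
A prime `P > z` with the other forms prime survives the sieve. `sieve2` is the same with two
classes. The reciprocal versions follow by `dyadic_sum`.
-/

open Finset Real Filter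

namespace Vale.Agent.P031

theorem sieve_root (q A : ℕ) : ∃ r, q.Prime → ¬ q ∣ A → r < q ∧ q ∣ A * r + 1 := by
  by_cases hq : q.Prime
  · have := Fact.mk hq
    refine ⟨(-(A : ZMod q)⁻¹).val, fun _ hA => ⟨ZMod.val_lt _, ?_⟩⟩
    have hA' : (A : ZMod q) ≠ 0 := fun h => hA ((ZMod.natCast_eq_zero_iff A q).1 h)
    rw [← ZMod.natCast_eq_zero_iff]
    push_cast
    rw [ZMod.natCast_zmod_val, mul_neg, mul_inv_cancel₀ hA', neg_add_cancel]
  · exact ⟨0, fun h => absurd h hq⟩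

theorem sieve_card_primeFactors (B : ℕ) (hB : 0 < B) :
    (B.primeFactors.card : ℝ) ≤ 2 * Real.log B := by
  have h1 : 2 ^ B.primeFactors.card ≤ B := by
    refine le_trans ?_ (Nat.le_of_dvd hB (Nat.prod_primeFactors_dvd B))
    exact pow_card_le_prod _ _ _ fun p hp => (Nat.prime_of_mem_primeFactors hp).two_le
  have h2 : (2 : ℝ) ^ B.primeFactors.card ≤ B := by exact_mod_cast h1
  have h3 := Real.log_le_log (by positivity) h2
  rw [Real.log_pow] at h3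
  have h4 := Real.log_two_gt_d9
  have h5 : (0 : ℝ) ≤ B.primeFactors.card := Nat.cast_nonneg _
  nlinarith

theorem sieve_sigma_lo {z W : ℝ} {B : ℕ} (hB : 0 < B) (hW : 0 < W)
    (hBW : (B.primeFactors.card : ℝ) ≤ W) :
    ∑ p ∈ (Finset.Icc 1 ⌊z⌋₊).filter Nat.Prime, (1 / (p : ℝ)) ≤
      ∑ q ∈ ((Finset.Icc 1 ⌊z⌋₊).filter Nat.Prime).filter (fun q : ℕ => W < q ∧ ¬ q ∣ B),
        (1 / (q : ℝ)) + ∑ p ∈ (Finset.Icc 1 ⌊W⌋₊).filter Nat.Prime, (1 / (p : ℝ)) + 1 := by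
  have h1 := sum_filter_add_sum_filter_not ((Finset.Icc 1 ⌊z⌋₊).filter Nat.Prime)
    (fun q : ℕ => W < q ∧ ¬ q ∣ B) (fun q => (1 / (q : ℝ)))
  have h2 : ((Finset.Icc 1 ⌊z⌋₊).filter Nat.Prime).filter (fun q : ℕ => ¬ (W < q ∧ ¬ q ∣ B)) ⊆
      (Finset.Icc 1 ⌊W⌋₊).filter Nat.Prime ∪ B.primeFactors.filter (fun q : ℕ => W < q) := by
    intro q hq
    obtain ⟨hq1, hq2⟩ := mem_filter.1 hq
    have hqp := (mem_filter.1 hq1).2
    by_cases hWq : W < q
    · refine mem_union_right _ (mem_filter.2 ⟨Nat.mem_primeFactors.2 ⟨hqp, ?_, hB.ne'⟩, hWq⟩)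
      by_contra h
      exact hq2 ⟨hWq, h⟩
    · exact mem_union_left _ (mem_filter.2 ⟨mem_Icc.2 ⟨hqp.pos,
        Nat.le_floor (not_lt.1 hWq)⟩, hqp⟩)
  have h3 := sum_le_sum_of_subset_of_nonneg (f := fun q : ℕ => (1 / (q : ℝ))) h2
    fun q _ _ => by positivity
  have h4 := sum_union_inter (s₁ := (Finset.Icc 1 ⌊W⌋₊).filter Nat.Prime)
    (s₂ := B.primeFactors.filter (fun q : ℕ => W < q)) (f := fun q : ℕ => (1 / (q : ℝ)))
  have h5 : 0 ≤ ∑ q ∈ (Finset.Icc 1 ⌊W⌋₊).filter Nat.Prime ∩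
      B.primeFactors.filter (fun q : ℕ => W < q), (1 / (q : ℝ)) :=
    sum_nonneg fun q _ => by positivity
  have h6 : ∑ q ∈ B.primeFactors.filter (fun q : ℕ => W < q), (1 / (q : ℝ)) ≤ 1 := by
    have a1 : ∑ q ∈ B.primeFactors.filter (fun q : ℕ => W < q), (1 / (q : ℝ)) ≤
        ∑ _q ∈ B.primeFactors.filter (fun q : ℕ => W < q), 1 / W :=
      sum_le_sum fun q hq => one_div_le_one_div_of_le hW (mem_filter.1 hq).2.le
    rw [sum_const, nsmul_eq_mul, mul_one_div] at a1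
    refine a1.trans ((div_le_one hW).2 (le_trans ?_ hBW))
    exact_mod_cast card_filter_le _ _
  linarith

theorem sieve_num1 {L σ d : ℝ} {κ : ℕ} (hκ : κ ≤ 3) (hL : 1 ≤ L) (hd : 1 ≤ d)
    (h : Real.log L - Real.log d ≤ σ) : Real.exp (-(κ * σ)) * L ^ κ ≤ d ^ 3 := by
  have hκ0 : (0 : ℝ) ≤ κ := Nat.cast_nonneg _
  have a2 : Real.exp (-(κ * σ)) ≤ Real.exp (κ * (Real.log d - Real.log L)) :=
    Real.exp_le_exp.2 (by nlinarith)
  rw [Real.exp_nat_mul, Real.exp_sub, Real.exp_log (by linarith), Real.exp_log (by linarith),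
    div_pow, le_div_iff₀ (by positivity)] at a2
  exact a2.trans (pow_le_pow_right₀ hd hκ)

theorem sieve_num2 {L σ : ℝ} {κ N : ℕ} (hκ : κ ≤ 3) (hL : 1 ≤ L) (hL2 : L ≤ Real.exp (30 * N))
    (hσ0 : 0 ≤ σ) (hσ : σ ≤ 31 * N) :
    Real.exp (-((1000 * N : ℕ) : ℝ) + Real.exp 1 * (κ * σ)) * L ^ κ ≤ 1 := by
  have hκ3' : (κ : ℝ) ≤ 3 := by exact_mod_cast hκ
  have hN : (0 : ℝ) ≤ N := Nat.cast_nonneg _
  have a1 : L ^ 3 ≤ Real.exp (90 * N) := by
    refine (pow_le_pow_left₀ (by linarith) hL2 3).trans (le_of_eq ?_)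
    rw [← Real.exp_nat_mul]; ring_nf
  have a2 : Real.exp 1 * (κ * σ) ≤ 3 * (3 * (31 * N)) :=
    mul_le_mul (by linarith [Real.exp_one_lt_d9]) (mul_le_mul hκ3' hσ hσ0 (by norm_num))
      (by positivity) (by norm_num)
  refine (mul_le_mul_of_nonneg_left ((pow_le_pow_right₀ hL hκ).trans a1)
    (Real.exp_pos _).le).trans ?_
  rw [← Real.exp_add]
  refine Real.exp_le_one_iff.2 ?_
  push_cast
  linarith

theorem sieve_num3 {L : ℝ} {κ N : ℕ} (hκ : κ ≤ 3) (hL : 1 ≤ L) (hN : 1 ≤ N) :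
    (Real.exp (L / (4000 * N)) + Real.exp (L / (4000 * N)) ^ (1000 * N) * Real.exp κ) * L ^ κ
      ≤ 1056 * Real.exp L := by
  have hκ3' : (κ : ℝ) ≤ 3 := by exact_mod_cast hκ
  have hN' : (1 : ℝ) ≤ N := by exact_mod_cast hN
  have a1 : Real.exp (L / (4000 * N)) ^ (1000 * N) = Real.exp (L / 4) := by
    rw [← Real.exp_nat_mul]
    congr 1
    push_cast
    field_simp
    norm_num
  have a2 : Real.exp (L / (4000 * N)) ≤ Real.exp (L / 4) :=
    Real.exp_le_exp.2 (div_le_div_of_nonneg_left (by linarith) (by norm_num) (by linarith))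
  have a3 : Real.exp κ ≤ 21 := by
    refine (Real.exp_le_exp.2 hκ3').trans ?_
    have : Real.exp 3 = Real.exp 1 ^ 3 := by rw [← Real.exp_nat_mul]; norm_num
    rw [this]
    refine (pow_le_pow_left₀ (Real.exp_pos 1).le Real.exp_one_lt_d9.le 3).trans (by norm_num)
  have a4 : L ^ 3 ≤ 48 * Real.exp (L / 2) := by
    have := Real.pow_div_factorial_le_exp (L / 2) (by linarith) 3
    norm_num [Nat.factorial] at this
    linarith
  have a5 : Real.exp (L / 4) * Real.exp (L / 2) ≤ Real.exp L := by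
    rw [← Real.exp_add]
    exact Real.exp_le_exp.2 (by linarith)
  have a6 := Real.exp_pos (L / 4)
  have a7 := (pow_le_pow_right₀ hL hκ).trans a4
  rw [a1]
  calc (Real.exp (L / (4000 * N)) + Real.exp (L / 4) * Real.exp κ) * L ^ κ
      ≤ (Real.exp (L / 4) + Real.exp (L / 4) * 21) * (48 * Real.exp (L / 2)) := by gcongr
    _ ≤ _ := by linarith

theorem sieve_forms (M : ℕ) (S Q : Finset ℕ) {z : ℝ} (hz : 1 ≤ z) (hS1 : ∀ A ∈ S, 1 ≤ A)
    (hQp : ∀ q ∈ Q, q.Prime) (hQz : Q ⊆ Icc 1 ⌊z⌋₊) (hQA : ∀ q ∈ Q, ∀ A ∈ S, ¬ q ∣ A)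
    (hQS : ∀ q ∈ Q, ∀ A ∈ S, ∀ A' ∈ S, A ≡ A' [MOD q] → A = A') {J : ℕ} (hJ : Even J) :
    (((Finset.Icc 1 M).filter (fun P => P.Prime ∧ ∀ A ∈ S, (A * P + 1).Prime)).card : ℝ) ≤
      z + (M * (Real.exp (-(((S.card + 1 : ℕ) : ℝ) * ∑ q ∈ Q, (1 / (q : ℝ)))) +
        Real.exp (-J + Real.exp 1 * (((S.card + 1 : ℕ) : ℝ) * ∑ q ∈ Q, (1 / (q : ℝ))))) +
          z ^ J * Real.exp ((S.card + 1 : ℕ) : ℝ)) := by
  choose ρ hρ using sieve_root
  let R : ℕ → Finset ℕ := fun q => insert 0 (S.image (ρ q))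
  have hρ' : ∀ q ∈ Q, ∀ A ∈ S, ρ q A < q ∧ q ∣ A * ρ q A + 1 := fun q hq A hA =>
    hρ q A (hQp q hq) (hQA q hq A hA)
  have hR : ∀ q ∈ Q, R q ⊆ range q := by
    intro q hq r hr
    rcases mem_insert.1 hr with rfl | hr
    · exact mem_range.2 (hQp q hq).pos
    · obtain ⟨A, hA, rfl⟩ := mem_image.1 hr
      exact mem_range.2 (hρ' q hq A hA).1
  have hκ : ∀ q ∈ Q, (R q).card = S.card + 1 := by
    intro q hq
    have h0 : ∀ A ∈ S, ρ q A ≠ 0 := fun A hA h => by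
      have := (hρ' q hq A hA).2
      rw [h, mul_zero, zero_add, Nat.dvd_one] at this
      exact (hQp q hq).one_lt.ne' this
    rw [card_insert_of_notMem, card_image_of_injOn]
    · intro A hA A' hA' e
      refine hQS q hq A hA A' hA' ?_
      have h1 : A * ρ q A + 1 ≡ A' * ρ q A + 1 [MOD q] :=
        ((Nat.modEq_zero_iff_dvd).2 (hρ' q hq A hA).2).trans
          ((Nat.modEq_zero_iff_dvd).2 (e ▸ (hρ' q hq A' hA').2)).symm
      refine Nat.ModEq.cancel_right_of_coprime ?_ (Nat.ModEq.add_right_cancel' 1 h1)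
      exact (Nat.coprime_of_lt_prime (h0 A hA) (hρ' q hq A hA).1 (hQp q hq))
    · intro h
      obtain ⟨A, hA, h⟩ := mem_image.1 h
      exact h0 A hA h
  have hQcard : (Q.card : ℝ) ≤ z := by
    have h1 : Q.card ≤ ⌊z⌋₊ := by simpa using card_le_card hQz
    exact le_trans (by exact_mod_cast h1) (Nat.floor_le (by positivity))
  have hbrun := sieve_brun 1 M R Q hQp hR (S.card + 1) hκ hJ hz hQcard
  have hsub : (Finset.Icc 1 M).filter (fun P => P.Prime ∧ ∀ A ∈ S, (A * P + 1).Prime) ⊆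
      Icc 1 ⌊z⌋₊ ∪ (Ico 1 (1 + M)).filter (fun m => ∀ q ∈ Q, m % q ∉ R q) := by
    intro P hP
    obtain ⟨hP1, hP2, hP3⟩ := mem_filter.1 hP
    rw [mem_Icc] at hP1
    by_cases hPz : P ≤ ⌊z⌋₊
    · exact mem_union_left _ (mem_Icc.2 ⟨hP1.1, hPz⟩)
    · refine mem_union_right _ (mem_filter.2 ⟨mem_Ico.2 ⟨hP1.1, by omega⟩, fun q hq hr => ?_⟩)
      have hqP : q < P := lt_of_le_of_lt (mem_Icc.1 (hQz hq)).2 (not_le.1 hPz)
      rcases mem_insert.1 hr with h | h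
      · have := (Nat.prime_dvd_prime_iff_eq (hQp q hq) hP2).1 (Nat.dvd_of_mod_eq_zero h)
        omega
      · obtain ⟨A, hA, h⟩ := mem_image.1 h
        have h1 : A * ρ q A + 1 ≡ A * P + 1 [MOD q] := by
          rw [h]; exact ((Nat.mod_modEq P q).mul_left A).add_right 1
        have h2 := (Nat.prime_dvd_prime_iff_eq (hQp q hq) (hP3 A hA)).1
          ((h1.dvd_iff dvd_rfl).1 (hρ' q hq A hA).2)
        have := Nat.mul_le_mul_right P (hS1 A hA)
        omega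
  have hcard2 := (card_le_card hsub).trans (card_union_le _ _)
  rw [Nat.card_Icc, Nat.add_sub_cancel] at hcard2
  refine le_trans ?_ (add_le_add (Nat.floor_le (by positivity)) hbrun)
  exact_mod_cast hcard2

theorem sieve_gen : ∀ᶠ N : ℕ in atTop, ∀ (Z : ℝ) (S : Finset ℕ) (B : ℕ), 1 ≤ Z →
    (N : ℝ) ^ 3 ≤ Real.log Z → Real.log Z ≤ Real.exp (30 * N) → S.card ≤ 2 → 0 < B →
    Real.log B ≤ 3 * Real.exp (30 * N) → (∀ A ∈ S, 1 ≤ A) →
    (∀ q : ℕ, q.Prime → ¬ q ∣ B → (∀ A ∈ S, ¬ q ∣ A) ∧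
      ∀ A ∈ S, ∀ A' ∈ S, A ≡ A' [MOD q] → A = A') →
    (((Finset.Icc 1 ⌊Z⌋₊).filter (fun P => P.Prime ∧ ∀ A ∈ S, (A * P + 1).Prime)).card : ℝ)
      ≤ (N : ℝ) ^ 10 * Z / (Real.log Z) ^ (S.card + 1) := by
  obtain ⟨C₀, hC₀⟩ := mertens_real
  obtain ⟨C, hC0, hC⟩ : ∃ C : ℝ, 0 ≤ C ∧ ∀ x : ℝ, 2 ≤ x →
      |∑ p ∈ (Finset.Icc 1 ⌊x⌋₊).filter Nat.Prime, (1 / (p : ℝ)) - Real.log (Real.log x)| ≤ C :=
    ⟨|C₀|, abs_nonneg _, fun x hx => (hC₀ x hx).trans (le_abs_self _)⟩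
  obtain ⟨c, hc⟩ : ∃ c : ℝ, c = 124000 * Real.exp (2 * C + 1) := ⟨_, rfl⟩
  have hc1 : 1 ≤ c := by
    have := Real.one_le_exp (x := 2 * C + 1) (by linarith)
    rw [hc]; linarith
  have ev : ∀ b : ℝ, ∀ᶠ N : ℕ in atTop, b ≤ (N : ℝ) := fun b =>
    tendsto_natCast_atTop_atTop.eventually_ge_atTop b
  filter_upwards [ev 4000, ev C, ev (c ^ 3 + 1057)] with N hN1 hN2 hN3
  intro Z S B hZ hL1 hL2 hS hB hBl hS1 hgood
  obtain ⟨L, rfl⟩ : ∃ L, Z = Real.exp L := ⟨_, (Real.exp_log (by linarith)).symm⟩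
  rw [Real.log_exp] at hL1 hL2 ⊢
  have hN0 : (0 : ℝ) < N := by linarith
  have hN3' : 4000 * (N : ℝ) ≤ (N : ℝ) ^ 3 := by
    have : (N : ℝ) * N ≤ N ^ 3 := by
      rw [← pow_two]; exact pow_le_pow_right₀ (by linarith) (by norm_num)
    nlinarith
  have hL3 : 4000 * (N : ℝ) ≤ L := hN3'.trans hL1
  have hL4 : 1 ≤ L := by linarith
  have hu1 : 1 ≤ L / (4000 * N) := (one_le_div (by positivity)).2 hL3
  have hz2 : 2 ≤ Real.exp (L / (4000 * N)) := by
    have := Real.add_one_le_exp (L / (4000 * N)); linarith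
  have hW2 : 2 ≤ Real.exp (31 * N) := by have := Real.add_one_le_exp (31 * (N : ℝ)); linarith
  have hBW : (B.primeFactors.card : ℝ) ≤ Real.exp (31 * N) := by
    have a3 := sieve_card_primeFactors B hB
    have a4 : Real.exp (31 * N) = Real.exp (30 * N) * Real.exp N := by
      rw [← Real.exp_add]; ring_nf
    have a5 := Real.add_one_le_exp (N : ℝ)
    have a6 := mul_le_mul_of_nonneg_left (show 6 ≤ Real.exp N by linarith)
      (Real.exp_pos (30 * (N : ℝ))).le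
    linarith
  have hlo := sieve_sigma_lo (z := Real.exp (L / (4000 * N))) hB (Real.exp_pos _) hBW
  have mz := abs_le.1 (hC _ hz2)
  have mW := abs_le.1 (hC _ hW2)
  rw [Real.log_exp] at mz mW
  set Q : Finset ℕ := ((Finset.Icc 1 ⌊Real.exp (L / (4000 * N))⌋₊).filter Nat.Prime).filter
    fun q : ℕ => Real.exp (31 * N) < q ∧ ¬ q ∣ B with hQ
  have hQp : ∀ q ∈ Q, q.Prime := fun q hq => (mem_filter.1 (mem_filter.1 hq).1).2
  have hQB : ∀ q ∈ Q, ¬ q ∣ B := fun q hq => (mem_filter.1 hq).2.2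
  have hforms := sieve_forms ⌊Real.exp L⌋₊ S Q (z := Real.exp (L / (4000 * N))) (by linarith) hS1
    hQp ((filter_subset _ _).trans (filter_subset _ _))
    (fun q hq => (hgood q (hQp q hq) (hQB q hq)).1) (fun q hq => (hgood q (hQp q hq) (hQB q hq)).2)
    (J := 1000 * N) ⟨500 * N, by ring⟩
  have hσ1 : ∑ q ∈ Q, (1 / (q : ℝ)) ≤
      ∑ p ∈ (Finset.Icc 1 ⌊Real.exp (L / (4000 * N))⌋₊).filter Nat.Prime, (1 / (p : ℝ)) :=
    sum_le_sum_of_subset_of_nonneg (filter_subset _ _) fun q _ _ => by positivity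
  have hσ0 : 0 ≤ ∑ q ∈ Q, (1 / (q : ℝ)) := sum_nonneg fun q _ => by positivity
  generalize ∑ q ∈ Q, (1 / (q : ℝ)) = σ at hforms hσ1 hσ0 hlo
  have hlu : Real.log (L / (4000 * N)) = Real.log L - Real.log (4000 * N) :=
    Real.log_div (by positivity) (by positivity)
  have hσup : σ ≤ 31 * N := by
    have h2 : Real.log L ≤ 30 * N := (Real.log_le_iff_le_exp (by linarith)).2 hL2
    have h3 : 0 ≤ Real.log (4000 * N) := Real.log_nonneg (by linarith)
    linarith [mz.2]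
  have hσlo : Real.log L - Real.log (c * N ^ 2) ≤ σ := by
    have h7 : Real.log (c * N ^ 2) = Real.log (4000 * N) + Real.log (31 * N) + (2 * C + 1) := by
      rw [← Real.log_mul (by positivity) (by positivity), ← Real.log_exp (2 * C + 1),
        ← Real.log_mul (by positivity) (by positivity), hc]
      congr 1
      ring
    linarith [mz.1, mW.2]
  have hκ3 : S.card + 1 ≤ 3 := by omega
  generalize S.card + 1 = κ at hκ3 hforms ⊢
  have hLκ : 0 < L ^ κ := by positivity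
  have t1 := sieve_num1 hκ3 hL4 (one_le_mul_of_one_le_of_one_le hc1 (one_le_pow₀ (by linarith)))
    hσlo
  have t2 := sieve_num2 hκ3 hL4 hL2 hσ0 hσup
  have t3 := sieve_num3 (N := N) hκ3 hL4 (by exact_mod_cast (by linarith : (1 : ℝ) ≤ N))
  have hfl : ((⌊Real.exp L⌋₊ : ℕ) : ℝ) ≤ Real.exp L := Nat.floor_le (by linarith)
  rw [le_div_iff₀ hLκ]
  have t4 : (c * N ^ 2) ^ 3 + 1057 ≤ (N : ℝ) ^ 10 := by
    have a1 : (1 : ℝ) ≤ N ^ 6 := one_le_pow₀ (by linarith)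
    have a2 : (N : ℝ) ^ 7 ≤ N ^ 10 := pow_le_pow_right₀ (by linarith) (by norm_num)
    have a3 : (c ^ 3 + 1057) * N ^ 6 ≤ N * N ^ 6 := mul_le_mul_of_nonneg_right hN3 (by positivity)
    calc (c * N ^ 2) ^ 3 + 1057 = c ^ 3 * N ^ 6 + 1057 * 1 := by ring
      _ ≤ c ^ 3 * N ^ 6 + 1057 * N ^ 6 := by gcongr
      _ = (c ^ 3 + 1057) * N ^ 6 := by ring
      _ ≤ N * N ^ 6 := a3
      _ = N ^ 7 := by ring
      _ ≤ _ := a2
  generalize Real.exp (-(κ * σ)) = e1 at t1 hforms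
  have he2 := Real.exp_pos (-((1000 * N : ℕ) : ℝ) + Real.exp 1 * (κ * σ))
  generalize Real.exp (-((1000 * N : ℕ) : ℝ) + Real.exp 1 * (κ * σ)) = e2 at t2 hforms he2
  generalize Real.exp (L / (4000 * N)) = z at t3 hforms
  calc _ ≤ (z + (⌊Real.exp L⌋₊ * (e1 + e2) + z ^ (1000 * N) * Real.exp κ)) * L ^ κ :=
        mul_le_mul_of_nonneg_right hforms hLκ.le
    _ = ⌊Real.exp L⌋₊ * (e1 * L ^ κ + e2 * L ^ κ)
          + (z + z ^ (1000 * N) * Real.exp κ) * L ^ κ := by ring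
    _ ≤ ⌊Real.exp L⌋₊ * ((c * N ^ 2) ^ 3 + 1) + 1056 * Real.exp L := by gcongr
    _ ≤ Real.exp L * ((c * N ^ 2) ^ 3 + 1) + 1056 * Real.exp L := by gcongr
    _ = ((c * N ^ 2) ^ 3 + 1057) * Real.exp L := by ring
    _ ≤ _ := mul_le_mul_of_nonneg_right t4 (by linarith)

theorem sieve2 : ∀ᶠ N : ℕ in atTop, ∀ (Z : ℝ) (A : ℕ), 1 ≤ Z → (N : ℝ) ^ 3 ≤ Real.log Z →
    Real.log Z ≤ Real.exp (30 * N) → 1 ≤ A → Real.log A ≤ Real.exp (30 * N) →
    (((Finset.Icc 1 ⌊Z⌋₊).filter (fun P => P.Prime ∧ (A * P + 1).Prime)).card : ℝ)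
      ≤ (N : ℝ) ^ 10 * Z / (Real.log Z) ^ 2 := by
  filter_upwards [sieve_gen] with N hN Z A hZ h1 h2 hA h3
  have := hN Z {A} A hZ h1 h2 (by simp) hA (by linarith [Real.exp_pos (30 * (N : ℝ))])
    (by simpa using hA) (fun q _ hq => by simpa using hq)
  simpa using this

theorem sieve3 : ∀ᶠ N : ℕ in atTop, ∀ (Z : ℝ) (A A' : ℕ), 1 ≤ Z → (N : ℝ) ^ 3 ≤ Real.log Z →
    Real.log Z ≤ Real.exp (30 * N) → 1 ≤ A → Real.log A ≤ Real.exp (30 * N) →
    1 ≤ A' → Real.log A' ≤ Real.exp (30 * N) → A ≠ A' →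
    (((Finset.Icc 1 ⌊Z⌋₊).filter
      (fun P => P.Prime ∧ (A * P + 1).Prime ∧ (A' * P + 1).Prime)).card : ℝ)
      ≤ (N : ℝ) ^ 10 * Z / (Real.log Z) ^ 3 := by
  filter_upwards [sieve_gen] with N hN Z A A' hZ h1 h2 hA h3 hA' h4 hne
  set D := max A A' - min A A' with hD
  have hD0 : 0 < D := by omega
  have hDl : Real.log D ≤ Real.exp (30 * N) := by
    rcases le_total A A' with h | h
    · exact le_trans (Real.log_le_log (by exact_mod_cast hD0) (by exact_mod_cast (by omega))) h4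
    · exact le_trans (Real.log_le_log (by exact_mod_cast hD0) (by exact_mod_cast (by omega))) h3
  have hcard : ({A, A'} : Finset ℕ).card = 2 := card_pair hne
  have := hN Z {A, A'} (A * A' * D) hZ h1 h2 hcard.le (by positivity) (by
      push_cast
      rw [Real.log_mul (by positivity) (by positivity), Real.log_mul (by positivity) (by positivity)]
      linarith)
    (by simp [hA, hA']) (fun q _ hq => by
      have key : ¬ A ≡ A' [MOD q] := fun h => hq (Dvd.dvd.mul_left (by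
        rcases le_total A A' with h' | h'
        · rw [hD, max_eq_right h', min_eq_left h']; exact (Nat.modEq_iff_dvd' h').1 h
        · rw [hD, max_eq_left h', min_eq_right h']; exact (Nat.modEq_iff_dvd' h').1 h.symm) _)
      simp only [mem_insert, mem_singleton, forall_eq_or_imp, forall_eq, implies_true, true_and,
        and_true]
      exact ⟨⟨fun h => hq ((h.mul_right _).mul_right _), fun h => hq ((h.mul_left _).mul_right _)⟩,
        fun h => absurd h key, fun h => absurd h.symm key⟩)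
  rw [hcard] at this
  simpa using this

theorem sieve_recip {N m : ℕ} (hN : 6 ≤ N) (p : ℕ → Prop) [DecidablePred p]
    (h : ∀ Z : ℝ, 1 ≤ Z → (N : ℝ) ^ 3 ≤ Real.log Z → Real.log Z ≤ Real.exp (30 * N) →
      (((Finset.Icc 1 ⌊Z⌋₊).filter p).card : ℝ) ≤ (N : ℝ) ^ 10 * Z / (Real.log Z) ^ (m + 2))
    (Y : ℝ) (Ps : Finset ℕ) (hY : 1 ≤ Y) (hY3 : (N : ℝ) ^ 3 ≤ Real.log Y)
    (hP : ∀ P ∈ Ps, p P ∧ Y ≤ P ∧ Real.log P ≤ Real.exp (29 * N)) :
    ∑ P ∈ Ps, (1 / (P : ℝ)) ≤ (N : ℝ) ^ 11 / (Real.log Y) ^ (m + 1) := by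
  have hN' : (6 : ℝ) ≤ N := by exact_mod_cast hN
  set y := Real.log Y with hy
  have hy1 : 216 ≤ y := le_trans (by
    have := pow_le_pow_left₀ (by norm_num) hN' 3
    norm_num at this
    exact this) hY3
  have l2 := Real.log_two_gt_d9
  have l2' := Real.log_two_lt_d9
  set k0 : ℕ := ⌈y / Real.log 2⌉₊ with hk0
  have hk0y : y ≤ k0 * Real.log 2 := by
    have := Nat.le_ceil (y / Real.log 2)
    rwa [div_le_iff₀ (by linarith)] at this
  have hk02 : (2 : ℝ) ≤ k0 := by nlinarith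
  have hk02' : 2 ≤ k0 := by exact_mod_cast hk02
  let K := Ps.image (Nat.clog 2)
  have hP2 : ∀ P ∈ Ps, 1 < P := fun P hPs => by
    have h1 := (hP P hPs).2.1
    have h2 : y ≤ Y - 1 := Real.log_le_sub_one_of_pos (by linarith)
    have : (1 : ℝ) < P := by linarith
    exact_mod_cast this
  have hwin : ∀ P ∈ Ps, 2 ^ Nat.clog 2 P < 2 * P ∧ P ≤ 2 ^ Nat.clog 2 P := fun P hPs => by
    refine ⟨?_, Nat.le_pow_clog (by norm_num) P⟩
    have h1 := Nat.pow_pred_clog_lt_self (b := 2) (by norm_num) (hP2 P hPs)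
    have h2 := Nat.clog_pos (b := 2) (by norm_num) (hP2 P hPs)
    obtain ⟨j, hj⟩ : ∃ j, Nat.clog 2 P = j + 1 := ⟨_, (Nat.succ_pred_eq_of_pos h2).symm⟩
    rw [hj] at h1 ⊢
    rw [pow_succ]
    simp only [Nat.pred_succ] at h1
    omega
  have hK : ∀ k ∈ K, y ≤ k * Real.log 2 ∧ k * Real.log 2 ≤ Real.exp (30 * N) := by
    intro k hk
    obtain ⟨P, hPs, rfl⟩ := mem_image.1 hk
    obtain ⟨w1, w2⟩ := hwin P hPs
    have hP0 : (0 : ℝ) < P := by exact_mod_cast (zero_lt_one.trans (hP2 P hPs))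
    rw [← Real.log_pow]
    constructor
    · exact Real.log_le_log (by linarith) ((hP P hPs).2.1.trans (by exact_mod_cast w2))
    · have a1 : Real.log (2 ^ Nat.clog 2 P) ≤ Real.log (2 * P) :=
        Real.log_le_log (by positivity) (by exact_mod_cast w1.le)
      rw [Real.log_mul (by norm_num) hP0.ne'] at a1
      have a4 : Real.exp (30 * N) = Real.exp (29 * N) * Real.exp N := by
        rw [← Real.exp_add]; ring_nf
      have a5 := Real.add_one_le_exp (N : ℝ)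
      have a6 := Real.one_le_exp (x := 29 * (N : ℝ)) (by positivity)
      have a7 := (hP P hPs).2.2
      nlinarith
  have hdy := dyadic_sum Ps id (fun k => (N : ℝ) ^ 10 / (k * Real.log 2) ^ (m + 2)) K
    (fun P hPs => ⟨_, mem_image_of_mem _ hPs, hwin P hPs⟩) (fun k hk => by
      have h1 := h (2 ^ k) (one_le_pow₀ (by norm_num))
        (by rw [Real.log_pow]; exact hY3.trans (hK k hk).1) (by rw [Real.log_pow]; exact (hK k hk).2)
      rw [Real.log_pow] at h1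
      rw [div_mul_eq_mul_div]
      refine le_trans ?_ h1
      have : (Ps.filter fun i => 2 ^ k < 2 * id i ∧ id i ≤ 2 ^ k) ⊆
          (Finset.Icc 1 ⌊(2 : ℝ) ^ k⌋₊).filter p := by
        intro P hP'
        obtain ⟨hPs, -, w2⟩ := mem_filter.1 hP'
        exact mem_filter.2 ⟨mem_Icc.2 ⟨(hP2 P hPs).le, Nat.le_floor (by exact_mod_cast w2)⟩,
          (hP P hPs).1⟩
      exact_mod_cast card_le_card this)
  refine hdy.trans ?_
  have hsq := sum_inv_sq_le (k0 - 1) (by omega) K fun k hk => by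
    have : k0 ≤ k := Nat.ceil_le.2 (by rw [div_le_iff₀ (by linarith)]; exact (hK k hk).1)
    omega
  rw [Nat.cast_sub (by omega), Nat.cast_one] at hsq
  have hterm : ∀ k ∈ K, (N : ℝ) ^ 10 / (k * Real.log 2) ^ (m + 2) ≤
      (N : ℝ) ^ 10 / (y ^ m * Real.log 2 ^ 2) * (1 / (k : ℝ)) ^ 2 := by
    intro k hk
    have h1 := (hK k hk).1
    have hk0' : (0 : ℝ) < k := by nlinarith
    have h2 : y ^ m ≤ (k * Real.log 2) ^ m := pow_le_pow_left₀ (by linarith) h1 m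
    rw [div_pow, one_pow, div_mul_div_comm, mul_one]
    refine div_le_div_of_nonneg_left (by positivity) (by positivity) ?_
    rw [pow_add, mul_assoc, ← mul_pow, mul_comm (Real.log 2)]
    exact mul_le_mul_of_nonneg_right h2 (by positivity)
  refine (mul_le_mul_of_nonneg_left (sum_le_sum hterm) (by norm_num)).trans ?_
  rw [← mul_sum]
  refine (mul_le_mul_of_nonneg_left (mul_le_mul_of_nonneg_left hsq (by positivity))
    (by norm_num)).trans ?_
  have hk1 : (0 : ℝ) < k0 - 1 := by linarith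
  rw [div_mul_div_comm, mul_one, ← mul_div_assoc, div_le_div_iff₀ (by positivity) (by positivity)]
  have a1 : 2 * y ≤ 6 * (Real.log 2 ^ 2 * (k0 - 1)) := by nlinarith
  have a2 : 6 * (Real.log 2 ^ 2 * (k0 - 1)) ≤ N * (Real.log 2 ^ 2 * (k0 - 1)) :=
    mul_le_mul_of_nonneg_right hN' (by positivity)
  calc 2 * (N : ℝ) ^ 10 * y ^ (m + 1) = (N : ℝ) ^ 10 * y ^ m * (2 * y) := by ring
    _ ≤ (N : ℝ) ^ 10 * y ^ m * (N * (Real.log 2 ^ 2 * (k0 - 1))) :=
        mul_le_mul_of_nonneg_left (a1.trans a2) (by positivity)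
    _ = _ := by ring

theorem sieve2r : ∀ᶠ N : ℕ in atTop, ∀ (Y : ℝ) (A : ℕ) (Ps : Finset ℕ), 1 ≤ Y →
    (N : ℝ) ^ 3 ≤ Real.log Y → 1 ≤ A → Real.log A ≤ Real.exp (29 * N) →
    (∀ P ∈ Ps, P.Prime ∧ (A * P + 1).Prime ∧ Y ≤ P ∧ Real.log P ≤ Real.exp (29 * N)) →
    ∑ P ∈ Ps, (1 / (P : ℝ)) ≤ (N : ℝ) ^ 11 / Real.log Y := by
  filter_upwards [sieve2, eventually_ge_atTop 6] with N hN h6 Y A Ps hY hY3 hA hAl hP
  have e : Real.exp (29 * N) ≤ Real.exp (30 * N) :=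
    Real.exp_le_exp.2 (by linarith [(Nat.cast_nonneg N : (0 : ℝ) ≤ N)])
  have := sieve_recip (m := 0) h6 (fun P => P.Prime ∧ (A * P + 1).Prime)
    (fun Z h1 h2 h3 => hN Z A h1 h2 h3 hA (hAl.trans e)) Y Ps hY hY3
    fun P hPs => ⟨⟨(hP P hPs).1, (hP P hPs).2.1⟩, (hP P hPs).2.2⟩
  simpa using this

theorem sieve3r : ∀ᶠ N : ℕ in atTop, ∀ (Y : ℝ) (A A' : ℕ) (Ps : Finset ℕ), 1 ≤ Y →
    (N : ℝ) ^ 3 ≤ Real.log Y → 1 ≤ A → Real.log A ≤ Real.exp (29 * N) →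
    1 ≤ A' → Real.log A' ≤ Real.exp (29 * N) → A ≠ A' →
    (∀ P ∈ Ps, P.Prime ∧ (A * P + 1).Prime ∧ (A' * P + 1).Prime ∧ Y ≤ P ∧
      Real.log P ≤ Real.exp (29 * N)) →
    ∑ P ∈ Ps, (1 / (P : ℝ)) ≤ (N : ℝ) ^ 11 / (Real.log Y) ^ 2 := by
  filter_upwards [sieve3, eventually_ge_atTop 6] with N hN h6 Y A A' Ps hY hY3 hA hAl hA' hAl' hne hP
  have e : Real.exp (29 * N) ≤ Real.exp (30 * N) :=
    Real.exp_le_exp.2 (by linarith [(Nat.cast_nonneg N : (0 : ℝ) ≤ N)])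
  exact sieve_recip (m := 1) h6 (fun P => P.Prime ∧ (A * P + 1).Prime ∧ (A' * P + 1).Prime)
    (fun Z h1 h2 h3 => hN Z A A' h1 h2 h3 hA (hAl.trans e) hA' (hAl'.trans e) hne) Y Ps hY hY3
    fun P hPs => ⟨⟨(hP P hPs).1, (hP P hPs).2.1, (hP P hPs).2.2.1⟩, (hP P hPs).2.2.2⟩

end Vale.Agent.P031
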