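import Vale.Agent.P031.PNT
import Vale.Agent.P031.Data
import Vale.Agent.P031.Asym

/-! # Common numerical facts for TopUpper and TopLower -/

open Finset Real Filter

namespace Vale.Agent.P031

theorem pow_facts {W : ℝ} (hW : 10 ≤ W) :
    W ≤ W ^ 36 ∧ 100 * W ^ 36 ≤ W ^ 38 ∧ 100 * W ^ 38 ≤ W ^ 40 ∧ W ≤ W ^ 3 ∧ W ≤ W ^ 80 := by
  have h1 : (1 : ℝ) ≤ W := by linarith
  have h2 : (100 : ℝ) ≤ W ^ 2 := by nlinarith
  refine ⟨le_self_pow₀ h1 (by norm_num), ?_, ?_, le_self_pow₀ h1 (by norm_num),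
    le_self_pow₀ h1 (by norm_num)⟩
  · have : W ^ 38 = W ^ 2 * W ^ 36 := by ring
    rw [this]; exact mul_le_mul_of_nonneg_right h2 (by positivity)
  · have : W ^ 40 = W ^ 2 * W ^ 38 := by ring
    rw [this]; exact mul_le_mul_of_nonneg_right h2 (by positivity)

theorem top_facts (K η : ℝ) (hη : 0 < η) : ∀ᶠ w : ℕ in atTop, ∀ s x : ℝ,
    (w : ℝ) ^ 40 / 2 ≤ s → s ≤ (w : ℝ) ^ 40 → 1 < x →
    s ≤ Real.log (Real.log x) → Real.log (Real.log x) ≤ s + 1 →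
    K ≤ Real.log x ∧ (w : ℝ) ^ 80 * Real.exp (s - 3 * (w : ℝ) ^ 38) ≤ η * Real.log x ∧
    4 * (w : ℝ) ^ 80 * Real.log (Real.log x) < Real.log x ∧
    2 * (w : ℝ) ^ 80 * Real.exp ((w : ℝ) ^ 36) < Real.log x ∧
    Real.exp s ≤ Real.log x ∧ Real.log x ≤ Real.exp (s + 1) := by
  filter_upwards [ev_ge 10, ev_ge K, ev_poly_le_exp η⁻¹ 80, ev_poly_le_exp 8 120,
    ev_poly_le_exp 2 80] with w hw hK h80 h120 h2 s x hs1 hs2 hx h1 h2'
  obtain ⟨p1, p2, p3, _, _⟩ := pow_facts hw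
  have hl : 0 < Real.log x := Real.log_pos hx
  have e1 : Real.exp s ≤ Real.log x := by
    rw [← Real.exp_log hl]; exact Real.exp_le_exp.2 h1
  have e2 : Real.log x ≤ Real.exp (s + 1) := by
    rw [← Real.exp_log hl]; exact Real.exp_le_exp.2 h2'
  have e3 := Real.add_one_le_exp s
  have hw0 : (0 : ℝ) ≤ (w : ℝ) ^ 36 := by positivity
  refine ⟨by linarith, ?_, ?_, ?_, e1, e2⟩
  · have h3 : Real.exp (w : ℝ) ≤ Real.exp (3 * (w : ℝ) ^ 38) := Real.exp_le_exp.2 (by linarith)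
    have h4 : (w : ℝ) ^ 80 ≤ η * Real.exp (3 * (w : ℝ) ^ 38) := by
      have := h80.trans h3
      rwa [inv_mul_le_iff₀ hη] at this
    rw [Real.exp_sub, mul_div_assoc', div_le_iff₀ (Real.exp_pos _)]
    calc (w : ℝ) ^ 80 * Real.exp s ≤ η * Real.exp (3 * (w : ℝ) ^ 38) * Real.log x :=
          mul_le_mul h4 e1 (Real.exp_pos _).le (by positivity)
      _ = _ := by ring
  · have h3 : Real.exp (w : ℝ) < Real.exp s := Real.exp_lt_exp.2 (by linarith)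
    have h4 : Real.log (Real.log x) ≤ 2 * (w : ℝ) ^ 40 := by linarith
    calc 4 * (w : ℝ) ^ 80 * Real.log (Real.log x) ≤ 4 * (w : ℝ) ^ 80 * (2 * (w : ℝ) ^ 40) :=
          mul_le_mul_of_nonneg_left h4 (by positivity)
      _ = 8 * (w : ℝ) ^ 120 := by ring
      _ < _ := by linarith
  · calc 2 * (w : ℝ) ^ 80 * Real.exp ((w : ℝ) ^ 36)
        ≤ Real.exp w * Real.exp ((w : ℝ) ^ 36) :=
          mul_le_mul_of_nonneg_right h2 (Real.exp_pos _).le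
      _ = Real.exp (w + (w : ℝ) ^ 36) := by rw [Real.exp_add]
      _ < Real.exp s := Real.exp_lt_exp.2 (by linarith)
      _ ≤ _ := e1

theorem pnt_bounds (η : ℝ) (hη : 0 < η) : ∃ X0 : ℝ, 2 ≤ X0 ∧ ∀ X : ℝ, X0 ≤ X →
    (1 - η) * (X / Real.log X) ≤ (((Finset.Icc 1 ⌊X⌋₊).filter Nat.Prime).card : ℝ) ∧
    (((Finset.Icc 1 ⌊X⌋₊).filter Nat.Prime).card : ℝ) ≤ (1 + η) * (X / Real.log X) := by
  have h := (Metric.tendsto_nhds.1 pnt) η hη
  obtain ⟨X0, hX0⟩ := eventually_atTop.1 h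
  refine ⟨max X0 2, le_max_right _ _, fun X hX => ?_⟩
  have h1 := hX0 X ((le_max_left _ _).trans hX)
  have h2 : 2 ≤ X := (le_max_right _ _).trans hX
  have h3 : 0 < X / Real.log X := div_pos (by linarith) (Real.log_pos (by linarith))
  rw [Real.dist_eq, abs_lt] at h1
  rw [card_primes_eq]
  constructor
  · rw [← le_div_iff₀ h3]; linarith [h1.1]
  · rw [← div_le_iff₀ h3]; linarith [h1.2]

theorem mem_MSet {w j m : ℕ} {t : ℝ} : m ∈ MSet w j t ↔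
    m ∈ Tot w ∧ ∃ L r, Good w L r ∧ val L r = m ∧ tau ((w : ℝ) ^ 36) j (levs L) ≤ t := by
  classical
  unfold MSet
  rw [Finset.mem_filter]

theorem head_le_Tt (t0 : ℝ) (L : List ℝ) : L.headD t0 ≤ Tt t0 L := le_max_right _ _

theorem ev_exp_neg_le (eps : ℝ) (heps : 0 < eps) :
    ∀ᶠ w : ℕ in atTop, Real.exp (-(w : ℝ) ^ 3) ≤ eps := by
  filter_upwards [ev_ge 10, ev_ge eps⁻¹] with w hw h
  obtain ⟨_, _, _, p4, _⟩ := pow_facts hw
  rw [Real.exp_neg, inv_le_comm₀ (Real.exp_pos _) heps]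
  have := Real.add_one_le_exp ((w : ℝ) ^ 3)
  linarith

end Vale.Agent.P031
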