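import Vale.Agent.P031.Top0
import Vale.Agent.P031.Mertens
import Vale.Agent.P031.Tau

/-! # Counting lemmas for TopUpper -/

open Finset Real Filter

namespace Vale.Agent.P031

/-- values `(p - 1) m` with `m` in `M` and `p` in `P m` -/
def pairs (M : Finset ℕ) (P : ℕ → Finset ℕ) : Finset ℕ :=
  M.biUnion (fun m => (P m).image (fun p => (p - 1) * m))

theorem mem_pairs {M : Finset ℕ} {P : ℕ → Finset ℕ} {m p : ℕ} (hm : m ∈ M) (hp : p ∈ P m) :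
    (p - 1) * m ∈ pairs M P :=
  Finset.mem_biUnion.2 ⟨m, hm, Finset.mem_image.2 ⟨p, hp, rfl⟩⟩

theorem card_pairs_le (M : Finset ℕ) (P : ℕ → Finset ℕ) (c : ℝ)
    (h : ∀ m ∈ M, ((P m).card : ℝ) ≤ c * (1 / m)) :
    ((pairs M P).card : ℝ) ≤ c * ∑ m ∈ M, (1 / (m : ℝ)) := by
  have h1 : (pairs M P).card ≤ ∑ m ∈ M, (P m).card :=
    Finset.card_biUnion_le.trans (Finset.sum_le_sum fun m _ => Finset.card_image_le)
  have h2 : ((pairs M P).card : ℝ) ≤ ∑ m ∈ M, ((P m).card : ℝ) := by exact_mod_cast h1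
  rw [Finset.mul_sum]
  exact h2.trans (Finset.sum_le_sum h)

theorem card_le_mul_sum {x : ℝ} (A : Finset ℕ) (hA : ∀ a ∈ A, 0 < a ∧ (a : ℝ) ≤ x) :
    (A.card : ℝ) ≤ x * ∑ a ∈ A, (1 / (a : ℝ)) := by
  rw [Finset.mul_sum, Finset.card_eq_sum_ones]
  push_cast
  apply Finset.sum_le_sum
  intro a ha
  have h0 : (0 : ℝ) < a := by exact_mod_cast (hA a ha).1
  rw [mul_one_div, le_div_iff₀ h0, one_mul]
  exact (hA a ha).2

/-- primes `p <= 2 x / m` with `log p >= u` -/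
noncomputable def bigP (x u : ℝ) (m : ℕ) : Finset ℕ :=
  (Finset.Icc 1 ⌊2 * x / m⌋₊).filter (fun p => p.Prime ∧ u ≤ Real.log p)

theorem le_log_of_mem {X u : ℝ} (hX : 0 ≤ X) {p : ℕ} (hp : p ∈ Finset.Icc 1 ⌊X⌋₊)
    (hu : u ≤ Real.log p) : u ≤ Real.log X := by
  obtain ⟨h1, h2⟩ := Finset.mem_Icc.1 hp
  exact hu.trans (Real.log_le_log (by exact_mod_cast h1) ((Nat.le_floor_iff hX).1 h2))

theorem card_bigP_le {x u : ℝ} (hx : 0 < x) (hu : 0 < u) (m : ℕ) :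
    ((bigP x u m).card : ℝ) ≤ 10 * x / u * (1 / m) := by
  rcases (bigP x u m).eq_empty_or_nonempty with h | ⟨p, hp⟩
  · rw [h]; simp only [Finset.card_empty, Nat.cast_zero]; positivity
  obtain ⟨h1, h2, h3⟩ := Finset.mem_filter.1 hp
  have hX : (0 : ℝ) ≤ 2 * x / m := by positivity
  have h4 := le_log_of_mem hX h1 h3
  have h5 : 1 < 2 * x / m := by
    have : (p : ℝ) ≤ 2 * x / m := (Nat.le_floor_iff hX).1 (Finset.mem_Icc.1 h1).2
    have : (1 : ℝ) < p := by exact_mod_cast h2.one_lt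
    linarith
  have h6 : ((bigP x u m).card : ℝ) ≤
      (((Finset.Icc 1 ⌊2 * x / m⌋₊).filter Nat.Prime).card : ℝ) := by
    apply Nat.cast_le.2 (Finset.card_le_card _)
    intro q hq
    obtain ⟨a, b, _⟩ := Finset.mem_filter.1 hq
    exact Finset.mem_filter.2 ⟨a, b⟩
  refine h6.trans ((pi_le h5).trans ?_)
  calc 5 * (2 * x / m) / Real.log (2 * x / m) ≤ 5 * (2 * x / m) / u :=
        div_le_div_of_nonneg_left (by positivity) hu h4
    _ = _ := by ring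

theorem card_sq_dvd_le {x : ℝ} (hx : 0 < x) (Y : ℕ) (hY : 1 ≤ Y) (A : Finset ℕ)
    (hA : ∀ v ∈ A, v ∈ Finset.Icc 1 ⌊x⌋₊ ∧ ∃ p : ℕ, Y < p ∧ p * (p - 1) ∣ v) :
    (A.card : ℝ) ≤ x * (1 / Y) := by
  classical
  have h1 : A ⊆ (Finset.Ioc Y ⌊x⌋₊).biUnion
      (fun p => (Finset.Ioc 0 ⌊x⌋₊).filter (fun v => p * (p - 1) ∣ v)) := by
    intro v hv
    obtain ⟨h2, p, h3, h4⟩ := hA v hv
    obtain ⟨h5, h6⟩ := Finset.mem_Icc.1 h2
    refine Finset.mem_biUnion.2 ⟨p, Finset.mem_Ioc.2 ⟨h3, ?_⟩,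
      Finset.mem_filter.2 ⟨Finset.mem_Ioc.2 ⟨h5, h6⟩, h4⟩⟩
    exact (Nat.le_of_dvd h5 ((Dvd.intro _ rfl).trans h4)).trans h6
  have h2 := (Finset.card_le_card h1).trans Finset.card_biUnion_le
  simp only [Nat.Ioc_filter_dvd_card_eq_div] at h2
  have h3 : (A.card : ℝ) ≤ ∑ p ∈ Finset.Ioc Y ⌊x⌋₊, ((⌊x⌋₊ / (p * (p - 1)) : ℕ) : ℝ) := by
    exact_mod_cast h2
  refine h3.trans (le_trans ?_ (mul_le_mul_of_nonneg_left
    (sum_inv_mul_pred_le Y hY (Finset.Ioc Y ⌊x⌋₊) (fun q hq => (Finset.mem_Ioc.1 hq).1)) hx.le))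
  rw [Finset.mul_sum]
  apply Finset.sum_le_sum
  intro p hp
  have h4 : 1 ≤ p := by have := (Finset.mem_Ioc.1 hp).1; omega
  refine Nat.cast_div_le.trans ?_
  rw [Nat.cast_mul, Nat.cast_sub h4, Nat.cast_one, mul_one_div]
  have h5 : (1 : ℝ) ≤ p := by exact_mod_cast h4
  exact div_le_div_of_nonneg_right (Nat.floor_le hx.le) (mul_nonneg (by linarith) (by linarith))

theorem ev_many (eps : ℝ) (heps : 0 < eps) : ∀ᶠ w : ℕ in atTop, ∀ (x : ℝ) (A : Finset ℕ),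
    1 < x → Real.log x ≤ Real.exp ((w : ℝ) ^ 40 + 1) →
    (∀ v ∈ A, v ∈ Finset.Icc 1 ⌊x⌋₊ ∧ w ^ 80 < Om v) →
    (A.card : ℝ) ≤ eps * (x / Real.log x) := by
  obtain ⟨C, hC0, hC⟩ := many_factors_sum_le
  filter_upwards [ev_ge 10, ev_ge C, ev_exp_neg_le eps heps] with w hw hwC he x A hx hl hA
  obtain ⟨p1, p2, p3, _, _⟩ := pow_facts hw
  have hw0 : (0 : ℝ) ≤ (w : ℝ) ^ 36 := by positivity
  have hl0 : 0 < Real.log x := Real.log_pos hx
  have hle : ∀ v ∈ A, 0 < v ∧ (v : ℝ) ≤ x := fun v hv =>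
    ⟨(Finset.mem_Icc.1 (hA v hv).1).1,
      (Nat.le_floor_iff (by linarith)).1 (Finset.mem_Icc.1 (hA v hv).1).2⟩
  have h1 := hC (w ^ 40 + 1) (w ^ 80) A (fun v hv => ⟨(hle v hv).1, fun q _ hqv => by
    refine (lev_mono (Nat.le_of_dvd (hle v hv).1 hqv)).trans ((lev_le_iff _ _).2 ?_)
    push_cast
    exact (Real.log_le_log (by exact_mod_cast (hle v hv).1) (hle v hv).2).trans hl,
    (hA v hv).2⟩)
  push_cast at h1
  refine (card_le_mul_sum A hle).trans ?_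
  rw [mul_div_assoc', le_div_iff₀ hl0, mul_assoc, mul_comm eps]
  apply mul_le_mul_of_nonneg_left _ (by linarith)
  refine (mul_le_mul h1 hl hl0.le (Real.exp_pos _).le).trans (le_trans ?_ he)
  rw [← Real.exp_add]
  apply Real.exp_le_exp.2
  have h2 : (w : ℝ) ^ 80 = (w : ℝ) ^ 40 * (w : ℝ) ^ 40 := by ring
  have h3 : (w : ℝ) ^ 3 ≤ (w : ℝ) ^ 40 := pow_le_pow_right₀ (by linarith) (by norm_num)
  have h4 : 100 * (w : ℝ) ^ 40 ≤ (w : ℝ) ^ 40 * (w : ℝ) ^ 40 :=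
    mul_le_mul_of_nonneg_right (by linarith) (by positivity)
  linarith

theorem val_le_mul_tail {w p : ℕ} {L : List ℕ} {r : ℕ} (hp : 1 ≤ p) (_h : Good w L r)
    (hq : ∀ q ∈ L, q < p) : val L r ≤ p * val L.tail r := by
  cases L with
  | nil => exact Nat.le_mul_of_pos_left _ hp
  | cons q L =>
    rw [val_cons, List.tail_cons]
    apply Nat.mul_le_mul_right
    have := hq q (by simp)
    omega

theorem head_tail_le {w : ℕ} {L : List ℕ} {r : ℕ} (h : Good w L r) {u : ℝ}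
    (h0 : (w : ℝ) ^ 36 ≤ u) (h1 : TT 1 (levs L) ≤ 5 / 4 * u) :
    (levs L.tail).headD ((w : ℝ) ^ 36) ≤ u := by
  match L, h, h1 with
  | [], _, _ => simpa [levs] using h0
  | [_], _, _ => simpa [levs] using h0
  | q :: q' :: L, h, h1 =>
    have h2 := good_lev_le_head h q' (by simp)
    have h3 := TT_two_ge (x := (lev q : ℝ)) (y := (lev q' : ℝ)) (L := levs L) (Nat.cast_nonneg _)
      (by simpa [levs] using h2) (levs_nonneg L)
    have h4 : levs (q :: q' :: L) = (lev q : ℝ) :: (lev q' : ℝ) :: levs L := rfl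
    rw [h4] at h1
    have h5 : (levs (q :: q' :: L).tail).headD ((w : ℝ) ^ 36) = lev q' := rfl
    rw [h5]
    linarith

theorem head_le_of_lt {w p : ℕ} {L : List ℕ} {u : ℝ} (h0 : (w : ℝ) ^ 36 ≤ u)
    (h1 : (lev p : ℝ) ≤ u) (hq : ∀ q ∈ L, q < p) : (levs L).headD ((w : ℝ) ^ 36) ≤ u := by
  cases L with
  | nil => simpa [levs] using h0
  | cons q L =>
    have h2 : (lev q : ℝ) ≤ lev p := by exact_mod_cast lev_mono (hq q (by simp)).le
    have h5 : (levs (q :: L)).headD ((w : ℝ) ^ 36) = lev q := rfl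
    rw [h5]
    linarith

end Vale.Agent.P031
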